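import Vale.Agent.P157.Par.SiteInt

/-! Patterns of finitely many species: the species of pattern `a` is a label `k a`; labels are averaged
with weights `p`. -/

open MeasureTheory ProbabilityTheory Real Finset
open Vale.Agent.P150 (gauss dot)
open Vale.Agent.P168.MP (lin logZ0 pw Batch)
open Vale.Agent.P157.Lim (xv wt)
open Vale.Agent.P157.Par

namespace Vale.Agent.P166.Par.Multi

/-- finitely many potentials with common bounds -/
structure Fam (s : ℕ) where
  f : Fin s → ℝ → ℝ
  f1 : Fin s → ℝ → ℝ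
  f2 : Fin s → ℝ → ℝ
  f3 : Fin s → ℝ → ℝ
  B : ℝ
  D : ℝ
  sm : ∀ j, Sm (f j) (f1 j) (f2 j) (f3 j) B D
  ub : ∀ j x, f j x ≤ B

/-- probability weights of the species -/
structure Wts {s : ℕ} (p : Fin s → ℝ) : Prop where
  nn : ∀ j, 0 ≤ p j
  one : ∑ j, p j = 1

variable {s N M : ℕ}

/-! ### labelled patterns -/

/-- the weight of labelled patterns -/
noncomputable def hamV (P : Fam s) (k : Fin M → Fin s) (g : Fin M → Fin N → ℝ) (σ : Fin N → Bool) : ℝ :=
  exp (∑ a, P.f (k a) (dot (xv N σ) (g a)))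

/-- normalised log partition function at given labels -/
noncomputable def pressV (P : Fam s) (N : ℕ) (k : Fin M → Fin s) : ℝ :=
  (∫ g, log (∑ σ, wt N σ * hamV P k g σ) ∂pats N M) / N

variable {Ω : Type} [Fintype Ω] [Nonempty Ω]

/-- weight of the base system -/
noncomputable def wgV (P : Fam s) (k : Fin M → Fin s) (w₀ : List Ω → ℝ) (rd : List Ω → Fin N → Bool)
    (g : Fin M → Fin N → ℝ) (p : List Ω) : ℝ := w₀ p * hamV P k g (rd p)

/-- level values of the base system -/
noncomputable def qbV (P : Fam s) (k : Fin M → Fin s) (w₀ : List Ω → ℝ) (rd : List Ω → Fin N → Bool)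
    (R : ℕ) (g : Fin M → Fin N → ℝ) : ℕ → ℝ := qlev R (wgV P k w₀ rd g) rd

/-- mean overlap deviation of the base system -/
noncomputable def ADevV (P : Fam s) (k : Fin M → Fin s) (w₀ : List Ω → ℝ) (rd : List Ω → Fin N → Bool)
    (R : ℕ) : ℝ :=
  ∫ g : Fin M → Fin N → ℝ, adev R (wgV P k w₀ rd g) (ovK rd) (qbV P k w₀ rd R g) ∂pats N M

/-- overlap of the derivatives over the patterns -/
noncomputable def qKV (P : Fam s) (k : Fin M → Fin s) (rd : List Ω → Fin N → Bool) (g : Fin M → Fin N → ℝ)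
    (p p' : List Ω) : ℝ := (∑ a, P.f1 (k a) (uat rd g p a) * P.f1 (k a) (uat rd g p' a)) / M

/-- the factor of a new spin -/
noncomputable def siteFV (P : Fam s) (k : Fin M → Fin s) (c t : ℝ) (g : Fin M → Fin N → ℝ) (z : Fin M → ℝ)
    (σ : Fin N → Bool) (b : Bool) : ℝ :=
  exp (∑ a, (P.f (k a) (c * dot (xv N σ) (g a) + t * Vale.Agent.P168.sg b * z a) -
    P.f (k a) (dot (xv N σ) (g a))))

/-- the factor of a new spin, averaged over its value -/
noncomputable def siteYV (P : Fam s) (k : Fin M → Fin s) (c t : ℝ) (rd : List Ω → Fin N → Bool)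
    (g : Fin M → Fin N → ℝ) (z : Fin M → ℝ) (p : List Ω) : ℝ :=
  Vale.Agent.P168.MP.avg fun b : Bool => siteFV P k c t g z (rd p) b

/-! ### functionals -/

/-- the correlation profile at given labels -/
noncomputable def GbV (P : Fam s) (k : Fin M → Fin s) (R : ℕ) (q : ℕ → ℝ) (l : ℕ) : ℝ :=
  (∑ a, Gm (P.f (k a)) (P.f1 (k a)) R q l) / M

/-- mean nested functional of one pattern -/
noncomputable def Phim (P : Fam s) (p : Fin s → ℝ) (R : ℕ) (m q : ℕ → ℝ) : ℝ :=
  ∑ j, p j * Phi (fun y => exp (P.f j y)) R m q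

/-- mean correlation profile -/
noncomputable def Gam (P : Fam s) (p : Fin s → ℝ) (R : ℕ) (m q : ℕ → ℝ) (l : ℕ) : ℝ :=
  ∑ j, p j * Gamma (fun y => exp (P.f j y)) (P.f1 j) R m q l

/-- the value of one site at a correlation profile `G` -/
noncomputable def EsG (α : ℝ) (G : ℕ → ℝ) (R : ℕ) (q : ℕ → ℝ) : ℝ :=
  Phi cosh R (lin R) (fun l => α * G l) - α / 2 * ∑ l ∈ range (R + 1), coef R l * (G l * q l)

/-- the functional of a trial, `α` patterns per site of species drawn with weights `p` -/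
noncomputable def Fmix (α : ℝ) (P : Fam s) (p : Fin s → ℝ) (R : ℕ) (m q : ℕ → ℝ) : ℝ :=
  α * Phim P p R m q + Phi cosh R m (fun l => α * Gam P p R m q l) -
    α / 2 * (Gam P p R m q R +
      ∑ l ∈ range R, ((if l = 0 then 0 else m l) - m (l + 1)) * (Gam P p R m q l * q l))

lemma fmix_site (P : Fam s) (p : Fin s → ℝ) {R : ℕ} (hR : 1 ≤ R) {q : ℕ → ℝ} (hq : q R = 1) (α : ℝ) :
    Fmix α P p R (lin R) q = α * Phim P p R (lin R) q + EsG α (Gam P p R (lin R) q) R q := by
  unfold Fmix EsG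
  rw [sum_range_succ _ R, coef_top hR, hq, one_mul, mul_one]
  simp only [coef]
  ring

/-! ### averages over labels -/

/-- average over independent labels -/
noncomputable def lavg (p : Fin s → ℝ) (F : (Fin M → Fin s) → ℝ) : ℝ :=
  ∑ k, (∏ a, p (k a)) * F k

/-- the pressure averaged over the labels -/
noncomputable def pressBar (P : Fam s) (p : Fin s → ℝ) (N M : ℕ) : ℝ := lavg p (pressV (M := M) P N)

variable {p : Fin s → ℝ}

lemma Wts.sum_prod (hp : Wts p) : ∑ k : Fin M → Fin s, ∏ a, p (k a) = 1 := by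
  rw [← Fintype.prod_sum]
  simp [hp.one]

lemma lavg_const (hp : Wts p) (c : ℝ) : lavg (M := M) p (fun _ => c) = c := by
  rw [lavg, ← sum_mul, hp.sum_prod, one_mul]

lemma lavg_mono (hp : Wts p) {F G : (Fin M → Fin s) → ℝ} (h : ∀ k, F k ≤ G k) : lavg p F ≤ lavg p G :=
  sum_le_sum fun k _ => mul_le_mul_of_nonneg_left (h k) (prod_nonneg fun a _ => hp.nn _)

lemma lavg_add (F G : (Fin M → Fin s) → ℝ) : lavg p (fun k => F k + G k) = lavg p F + lavg p G := by
  simp only [lavg, mul_add, sum_add_distrib]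

lemma lavg_sub (F G : (Fin M → Fin s) → ℝ) : lavg p (fun k => F k - G k) = lavg p F - lavg p G := by
  simp only [lavg, mul_sub, sum_sub_distrib]

lemma lavg_const_mul (c : ℝ) (F : (Fin M → Fin s) → ℝ) : lavg p (fun k => c * F k) = c * lavg p F := by
  simp only [lavg, mul_sum]
  exact sum_congr rfl fun k _ => by ring

lemma lavg_sum {ι : Type*} (S : Finset ι) (F : ι → (Fin M → Fin s) → ℝ) :
    lavg p (fun k => ∑ i ∈ S, F i k) = ∑ i ∈ S, lavg p (F i) := by
  simp only [lavg, mul_sum]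
  exact sum_comm

lemma abs_lavg_le (hp : Wts p) {F : (Fin M → Fin s) → ℝ} {C : ℝ} (h : ∀ k, |F k| ≤ C) : |lavg p F| ≤ C :=
  abs_le.2 ⟨(lavg_const (M := M) hp (-C)).symm.trans_le (lavg_mono hp fun k => (abs_le.1 (h k)).1),
    (lavg_mono hp fun k => (abs_le.1 (h k)).2).trans_eq (lavg_const hp C)⟩

/-- split off one label -/
lemma lavg_succ (a : Fin (M + 1)) (F : (Fin (M + 1) → Fin s) → ℝ) :
    lavg p F = ∑ j, p j * lavg p (fun k => F (a.insertNth j k)) := by
  rw [lavg, ← (Fin.insertNthEquiv (fun _ => Fin s) a).sum_comp, Fintype.sum_prod_type]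
  refine sum_congr rfl fun j _ => ?_
  rw [lavg, mul_sum]
  refine sum_congr rfl fun k _ => ?_
  simp only [Fin.insertNthEquiv, Equiv.coe_fn_mk, Fin.prod_univ_succAbove _ a, Fin.insertNth_apply_same,
    Fin.insertNth_apply_succAbove]
  ring

lemma hamV_ins (P : Fam s) (a : Fin (M + 1)) (j : Fin s) (k : Fin M → Fin s) (y : Fin N → ℝ)
    (g : Fin M → Fin N → ℝ) (σ : Fin N → Bool) :
    hamV P (a.insertNth j k) (ins a y g) σ = hamV P k g σ * exp (P.f j (dot (xv N σ) y)) := by
  rw [hamV, hamV, ← exp_add, Fin.sum_univ_succAbove _ a]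
  simp [ins, add_comm]

lemma hamV_pos (P : Fam s) (k : Fin M → Fin s) (g : Fin M → Fin N → ℝ) (σ : Fin N → Bool) :
    0 < hamV P k g σ := exp_pos _

lemma continuous_hamV (P : Fam s) (k : Fin M → Fin s) (σ : Fin N → Bool) :
    Continuous fun g : Fin M → Fin N → ℝ => hamV P k g σ := by
  unfold hamV
  exact continuous_exp.comp (continuous_finsetSum _ fun a _ =>
    (P.sm (k a)).cont0.comp ((continuous_dot_left _).comp (continuous_apply a)))

end Vale.Agent.P166.Par.Multi
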