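import Vale.Agent.P166.Par.QuadFval
import Vale.Agent.P166.Par.Haar
import Vale.Agent.P166.Par.Multi.Defs

/-! The functional of a trial written with the kernel `R(y) = γ + ∫ y/(1 - t y) dρ` of a free infinitely
divisible law: `β/2 ∫₀¹ R(β D) + Φ(β² ∫₀^q R'(β D)) - Γ q / 2`, with `D(s) = E (1 - max s Q)`. It is the
combination of the closed forms of the quadratic potentials, and it is continuous in the kernel. -/

open MeasureTheory ProbabilityTheory Real Finset
open Vale.Agent.P157.Par (Gamma Prof coef ex_lin coef_lt coef_top)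
open Vale.Agent.P168.MP (lin)

namespace Vale.Agent.P166.Par.Multi

/-! ### objects -/

/-- `E (1 - max s Q)` for `Q` uniform on `q 0, ..., q (R-1)` -/
noncomputable def xiD (R : ℕ) (q : ℕ → ℝ) (s : ℝ) : ℝ := (∑ l ∈ range R, (1 - max s (q l))) / R

/-- `R(y) = γ + ∫ y/(1 - t y) dρ` -/
noncomputable def Rt (γ : ℝ) (ρ : Measure ℝ) (y : ℝ) : ℝ := γ + ∫ t, y / (1 - t * y) ∂ρ

/-- `R'(y) = ∫ 1/(1 - t y)² dρ` -/
noncomputable def dRt (ρ : Measure ℝ) (y : ℝ) : ℝ := ∫ t, 1 / (1 - t * y) ^ 2 ∂ρ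

/-- the spin part at a profile `G` -/
noncomputable def spinV (R : ℕ) (q G : ℕ → ℝ) : ℝ :=
  P157.Par.Phi cosh R (lin R) G - 1 / 2 * (G R - (∑ l ∈ range R, q l * G l) / R)

/-- the profile of a derivative of the kernel -/
noncomputable def Gr (β : ℝ) (F' : ℝ → ℝ) (R : ℕ) (q : ℕ → ℝ) (l : ℕ) : ℝ :=
  β ^ 2 * ∫ s in (0:ℝ)..q l, F' (β * xiD R q s)

/-- the functional of a trial for a kernel and its derivative -/
noncomputable def valF (β : ℝ) (F F' : ℝ → ℝ) (R : ℕ) (q : ℕ → ℝ) : ℝ :=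
  β / 2 * (∫ s in (0:ℝ)..1, F (β * xiD R q s)) + spinV R q (Gr β F' R q)

/-- the functional of a trial for a free infinitely divisible law -/
noncomputable def valR (β γ : ℝ) (ρ : Measure ℝ) (R : ℕ) (q : ℕ → ℝ) : ℝ :=
  valF β (Rt γ ρ) (dRt ρ) R q

/-- the values over all trials -/
def rValues (β γ : ℝ) (ρ : Measure ℝ) : Set ℝ :=
  {v | ∃ (R : ℕ) (q : ℕ → ℝ), 1 ≤ R ∧ Prof R q 1 ∧ q R = 1 ∧ v = valR β γ ρ R q}

/-- finitely many quadratic potentials `c j u²/2` at rates `α j` -/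
noncomputable def formQ {s : ℕ} (α c : Fin s → ℝ) (R : ℕ) (q : ℕ → ℝ) : ℝ :=
  ∑ j, α j * P157.Par.Phi (fun y => exp (qf (c j) y)) R (lin R) q +
    spinV R q fun l => ∑ j, α j * Gamma (fun y => exp (qf (c j) y)) (deriv (qf (c j))) R (lin R) q l

variable {R : ℕ} {q : ℕ → ℝ}

lemma esG_spin (hR : 1 ≤ R) (hq : q R = 1) (α : ℝ) (G : ℕ → ℝ) :
    EsG α G R q = spinV R q fun l => α * G l := by
  unfold EsG spinV
  rw [sum_range_succ _ R, coef_top hR, hq, one_mul, mul_one,
    sum_congr rfl (fun l hl => by rw [coef_lt (mem_range.1 hl)] :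
      ∀ l ∈ range R, coef R l * (G l * q l) = -(1 / (R:ℝ)) * (G l * q l)), ← mul_sum]
  have e : ∑ l ∈ range R, q l * (α * G l) = α * ∑ l ∈ range R, G l * q l := by
    rw [mul_sum]; exact sum_congr rfl fun l _ => by ring
  rw [e]
  ring

/-! ### the mean of `1 - max s Q` -/

lemma continuous_xiD (R : ℕ) (q : ℕ → ℝ) : Continuous (xiD R q) := by unfold xiD; fun_prop

lemma q_mono (hq : Prof R q 1) {i j : ℕ} (hij : i ≤ j) (hj : j ≤ R) : q i ≤ q j := by
  induction hij with
  | refl => exact le_rfl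
  | @step k _ ih => exact (ih (by omega)).trans (hq.mono k (by omega))

lemma xiD_mem (hq : Prof R q 1) {s : ℝ} (h0 : 0 ≤ s) (h1 : s ≤ 1) : 0 ≤ xiD R q s ∧ xiD R q s ≤ 1 := by
  refine ⟨div_nonneg (sum_nonneg fun l hl => ?_) (Nat.cast_nonneg R),
    div_le_one_of_le₀ ((sum_le_sum fun l _ => (?_ : 1 - max s (q l) ≤ (1:ℝ))).trans_eq (by simp))
      (Nat.cast_nonneg R)⟩
  · exact sub_nonneg.2 (max_le h1 ((hq.upper (mem_range.1 hl).le).2))
  · linarith [le_max_left s (q l)]

lemma xiD_step (hq : Prof R q 1) {k : ℕ} (hk : k < R) {s : ℝ} (h0 : q (R - (k + 1)) ≤ s) (h1 : s ≤ q (R - k)) :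
    xiD R q s = xiD R q (q (R - k)) + lin R (R - k) * (q (R - k) - s) := by
  have e : ∑ l ∈ range R, (1 - max s (q l)) =
      (∑ l ∈ range R, (1 - max (q (R - k)) (q l))) + ((R - k : ℕ) : ℝ) * (q (R - k) - s) := by
    rw [← sum_range_add_sum_Ico _ (show R - k ≤ R by omega),
      ← sum_range_add_sum_Ico (fun l => 1 - max (q (R - k)) (q l)) (show R - k ≤ R by omega),
      sum_congr rfl (fun l hl => by
        rw [max_eq_left ((q_mono hq (by rw [mem_range] at hl; omega) (by omega)).trans h0)] :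
        ∀ l ∈ range (R - k), 1 - max s (q l) = 1 - s),
      sum_congr rfl (fun l hl => by
        rw [max_eq_left (q_mono hq (by rw [mem_range] at hl; omega) (by omega))] :
        ∀ l ∈ range (R - k), 1 - max (q (R - k)) (q l) = 1 - q (R - k)),
      sum_congr rfl (fun l hl => by
        rw [mem_Ico] at hl
        have := q_mono hq hl.1 (by omega)
        rw [max_eq_right (h1.trans this), max_eq_right this] :
        ∀ l ∈ Ico (R - k) R, 1 - max s (q l) = 1 - max (q (R - k)) (q l))]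
    simp only [sum_const, card_range, nsmul_eq_mul]
    ring
  simp only [xiD, lin, if_pos (show R - k ≤ R by omega)]
  rw [e]
  ring

lemma xiD_top (hq : Prof R q 1) (h1 : q R = 1) : xiD R q (q R) = 0 := by
  rw [h1, xiD, sum_eq_zero fun l hl => by rw [max_eq_left (hq.upper (mem_range.1 hl).le).2, sub_self],
    zero_div]

lemma xiD_node (hq : Prof R q 1) (h1 : q R = 1) : ∀ k, k ≤ R → xiD R q (q (R - k)) = Dn R (lin R) q k
  | 0, _ => by simp [Dn, xiD_top hq h1]
  | k + 1, hk => by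
    have hle : q (R - (k + 1)) ≤ q (R - k) := q_mono hq (by omega) (by omega)
    rw [xiD_step hq (show k < R by omega) le_rfl hle, xiD_node hq h1 k (by omega), Dn, Dn, sum_range_succ, dn]

lemma xiD_low (hq : Prof R q 1) {s : ℝ} (hs : s ≤ q 0) : xiD R q s = xiD R q (q 0) := by
  simp only [xiD]
  refine congrArg (fun x => x / (R:ℝ)) (sum_congr rfl fun l hl => ?_)
  have := q_mono hq (Nat.zero_le l) (mem_range.1 hl).le
  rw [max_eq_right (hs.trans this), max_eq_right this]

/-! ### the two integrals of one quadratic potential -/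

section closed
variable {c : ℝ} (h : Dat c R (lin R) q) (h1 : q R = 1)
include h h1

omit h1 in
lemma den_pos {s : ℝ} (h0 : 0 ≤ s) (hs : s ≤ 1) : 0 < 1 - c * xiD R q s := by
  obtain ⟨a, b⟩ := xiD_mem h.hq h0 hs
  obtain ⟨c0, c1⟩ := abs_le.1 h.hc
  nlinarith

omit h1 in
lemma den_ne {u v : ℝ} (hu : u ∈ Set.Icc (0:ℝ) 1) (hv : v ∈ Set.Icc (0:ℝ) 1) :
    ∀ s ∈ Set.uIcc u v, 1 - c * xiD R q s ≠ 0 := fun s hs => by
  have := Set.uIcc_subset_Icc hu hv hs
  exact (den_pos h this.1 this.2).ne'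

omit h1 in
lemma q_icc {l : ℕ} (hl : l ≤ R) : q l ∈ Set.Icc (0:ℝ) 1 := h.hq.upper hl

lemma piece_log {k : ℕ} (hk : k < R) :
    ∫ s in q (R - (k + 1))..q (R - k), c / (1 - c * xiD R q s) =
      (log (bn c R (lin R) q k) - log (bn c R (lin R) q (k + 1))) / lin R (R - k) := by
  set m := lin R (R - k)
  set b := bn c R (lin R) q k
  set u := q (R - k)
  have hm : 0 < m := (h.hm.mem hk).1
  have hle : q (R - (k + 1)) ≤ u := q_mono h.hq (by omega) (by omega)
  have e : ∀ s ∈ Set.Icc (q (R - (k + 1))) u, 1 - c * xiD R q s = b - c * m * (u - s) := fun s hs => by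
    rw [xiD_step h.hq hk hs.1 hs.2, xiD_node h.hq h1 k hk.le]
    simp only [b, bn, m, u]
    ring
  have pos : ∀ s ∈ Set.Icc (q (R - (k + 1))) u, 0 < b - c * m * (u - s) := fun s hs => by
    rw [← e s hs]
    exact den_pos h ((q_icc h (by omega)).1.trans hs.1) (hs.2.trans (q_icc h (by omega)).2)
  rw [intervalIntegral.integral_congr (g := fun s => c / (b - c * m * (u - s))) fun s hs => by
    rw [Set.uIcc_of_le hle] at hs; simp only [e s hs]]
  rw [intervalIntegral.integral_eq_sub_of_hasDerivAt (f := fun s => log (b - c * m * (u - s)) / m)]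
  · have e2 : b - c * m * (u - q (R - (k + 1))) = bn c R (lin R) q (k + 1) := by
      rw [bn_succ]; simp only [b, m, u, dn]; ring
    simp only [sub_self, mul_zero, sub_zero, e2]
    ring
  · intro s hs
    rw [Set.uIcc_of_le hle] at hs
    exact (((((hasDerivAt_id' s).const_sub u).const_mul (c * m)).const_sub b).log (pos s hs).ne'
      |>.div_const m).congr_deriv (by have := (pos s hs).ne'; field_simp)
  · refine ContinuousOn.intervalIntegrable (continuousOn_const.div (by fun_prop) fun s hs => ?_)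
    rw [Set.uIcc_of_le hle] at hs
    exact (pos s hs).ne'

lemma piece_sq {k : ℕ} (hk : k < R) :
    ∫ s in q (R - (k + 1))..q (R - k), 1 / (1 - c * xiD R q s) ^ 2 =
      dn R q k / (bn c R (lin R) q k * bn c R (lin R) q (k + 1)) := by
  set m := lin R (R - k)
  set b := bn c R (lin R) q k
  set u := q (R - k)
  have hle : q (R - (k + 1)) ≤ u := q_mono h.hq (by omega) (by omega)
  have hb : 0 < b := bn_pos h hk.le
  have e : ∀ s ∈ Set.Icc (q (R - (k + 1))) u, 1 - c * xiD R q s = b - c * m * (u - s) := fun s hs => by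
    rw [xiD_step h.hq hk hs.1 hs.2, xiD_node h.hq h1 k hk.le]
    simp only [b, bn, m, u]
    ring
  have pos : ∀ s ∈ Set.Icc (q (R - (k + 1))) u, 0 < b - c * m * (u - s) := fun s hs => by
    rw [← e s hs]
    exact den_pos h ((q_icc h (by omega)).1.trans hs.1) (hs.2.trans (q_icc h (by omega)).2)
  rw [intervalIntegral.integral_congr (g := fun s => 1 / (b - c * m * (u - s)) ^ 2) fun s hs => by
    rw [Set.uIcc_of_le hle] at hs; simp only [e s hs]]
  rw [intervalIntegral.integral_eq_sub_of_hasDerivAt (f := fun s => -((u - s) / (b * (b - c * m * (u - s)))))]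
  · have e2 : b - c * m * (u - q (R - (k + 1))) = bn c R (lin R) q (k + 1) := by
      rw [bn_succ]; simp only [b, m, u, dn]; ring
    simp only [sub_self, zero_div, neg_zero, zero_sub, neg_neg, e2, dn, u]
  · intro s hs
    rw [Set.uIcc_of_le hle] at hs
    have hd := (pos s hs).ne'
    exact ((((hasDerivAt_id' s).const_sub u).div
      (((((hasDerivAt_id' s).const_sub u).const_mul (c * m)).const_sub b).const_mul b)
      (mul_ne_zero hb.ne' hd)).neg).congr_deriv (by field_simp; ring)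
  · refine ContinuousOn.intervalIntegrable (continuousOn_const.div (by fun_prop) fun s hs => ?_)
    rw [Set.uIcc_of_le hle] at hs
    exact pow_ne_zero 2 (pos s hs).ne'

lemma ii_c {u v : ℝ} (hu : u ∈ Set.Icc (0:ℝ) 1) (hv : v ∈ Set.Icc (0:ℝ) 1) :
    IntervalIntegrable (fun s => c / (1 - c * xiD R q s)) volume u v ∧
      IntervalIntegrable (fun s => 1 / (1 - c * xiD R q s) ^ 2) volume u v :=
  ⟨ContinuousOn.intervalIntegrable (continuousOn_const.div
      (continuous_const.sub (continuous_const.mul (continuous_xiD R q))).continuousOn (den_ne h hu hv)),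
    ContinuousOn.intervalIntegrable (continuousOn_const.div
      ((continuous_const.sub (continuous_const.mul (continuous_xiD R q))).pow 2).continuousOn
      fun s hs => pow_ne_zero 2 (den_ne h hu hv s hs))⟩

lemma den_low {s : ℝ} (hs : s ∈ Set.uIcc (0:ℝ) (q 0)) : 1 - c * xiD R q s = bn c R (lin R) q R := by
  rw [Set.uIcc_of_le h.hq.zero] at hs
  have e := xiD_node h.hq h1 R le_rfl
  rw [Nat.sub_self] at e
  rw [xiD_low h.hq hs.2, e]
  rfl

/-- the nested functional is half the integral of `c/(1 - c D)` -/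
theorem phi_int : P157.Par.Phi (fun y => exp (qf c y)) R (lin R) q =
    1 / 2 * ∫ s in (0:ℝ)..1, c / (1 - c * xiD R q s) := by
  have z0 : (0:ℝ) ∈ Set.Icc (0:ℝ) 1 := Set.left_mem_Icc.2 zero_le_one
  have key : ∀ k, k ≤ R → ∫ s in q (R - k)..q R, c / (1 - c * xiD R q s) = 2 * lA c R (lin R) q k := by
    intro k
    induction k with
    | zero => simp [lA]
    | succ k ih =>
      intro hk
      rw [← intervalIntegral.integral_add_adjacent_intervals
        (ii_c h h1 (q_icc h (by omega)) (q_icc h (show R - k ≤ R by omega))).1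
        (ii_c h h1 (q_icc h (show R - k ≤ R by omega)) (q_icc h le_rfl)).1,
        piece_log h h1 (by omega), ih (by omega)]
      simp only [lA, sum_range_succ]
      have := (h.hm.mem (show k < R by omega)).1.ne'
      field_simp
      ring
  have e := key R le_rfl
  rw [Nat.sub_self, h1] at e
  show P157.Par.Phi (eQ c) R (lin R) q = _
  rw [Phi_quad h, ← intervalIntegral.integral_add_adjacent_intervals (ii_c h h1 z0 (q_icc h (Nat.zero_le R))).1
      (ii_c h h1 (q_icc h (Nat.zero_le R)) (Set.right_mem_Icc.2 zero_le_one)).1,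
    e, intervalIntegral.integral_congr (g := fun _ => c / bn c R (lin R) q R) fun s hs => by
      simp only [den_low h h1 hs]]
  simp only [intervalIntegral.integral_const, smul_eq_mul, sub_zero]
  ring

/-- the correlations are the integrals of `c²/(1 - c D)²` -/
theorem gamma_int : ∀ l, l ≤ R → Gamma (fun y => exp (qf c y)) (deriv (qf c)) R (lin R) q l =
    c ^ 2 * ∫ s in (0:ℝ)..q l, 1 / (1 - c * xiD R q s) ^ 2 := by
  intro l hl
  rw [deriv_qf]
  show Gamma (eQ c) (fun u => c * u) R (lin R) q l = _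
  rw [Gamma_quad_sum h hl]
  congr 1
  have z0 : (0:ℝ) ∈ Set.Icc (0:ℝ) 1 := Set.left_mem_Icc.2 zero_le_one
  induction l with
  | zero =>
    rw [intervalIntegral.integral_congr (g := fun _ => 1 / bn c R (lin R) q R ^ 2) fun s hs => by
      simp only [den_low h h1 hs]]
    simp only [range_zero, sum_empty, add_zero, intervalIntegral.integral_const, smul_eq_mul, sub_zero]
    ring
  | succ l ih =>
    have hp := piece_sq h h1 (show R - (l + 1) < R by omega)
    rw [show R - (R - (l + 1) + 1) = l by omega, show R - (R - (l + 1)) = l + 1 by omega] at hp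
    rw [← intervalIntegral.integral_add_adjacent_intervals (ii_c h h1 z0 (q_icc h (show l ≤ R by omega))).2
      (ii_c h h1 (q_icc h (show l ≤ R by omega)) (q_icc h hl)).2, ← ih (by omega), hp,
      sum_range_succ' _ l, Nat.add_zero, ← add_assoc]
    congr 2
    exact sum_congr rfl fun i _ => by rw [show R - (l + 1) + (i + 1) = R - l + i by omega]

end closed

/-! ### finitely many jump sizes -/

lemma rt_jump {r : ℕ} {a α : Fin r → ℝ} (hα : ∀ j, 0 < α j) (c0 : ℝ) {y : ℝ} (hy : ∀ j, y * a j < 1) :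
    Rt (c0 + ∑ j, α j * a j) (jumpMeas a α) y = c0 + ∑ j, α j * (a j / (1 - y * a j)) := by
  rw [show Rt (c0 + ∑ j, α j * a j) (jumpMeas a α) y =
    Pattern.Multi.Rk (c0 + ∑ j, α j * a j) (jumpMeas a α) y from rfl, Rk_jump hα c0 hy, Pattern.Signed.Ra]
  ring

lemma drt_jump {r : ℕ} {a α : Fin r → ℝ} (hα : ∀ j, 0 < α j) (y : ℝ) :
    dRt (jumpMeas a α) y = ∑ j, α j * a j ^ 2 * (1 / (1 - a j * y) ^ 2) := by
  simp only [dRt, jumpMeas]
  rw [integral_finsetSum_measure fun j _ =>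
    (integrable_dirac (by finiteness)).smul_measure ENNReal.ofReal_ne_top]
  simp only [integral_smul_measure, integral_dirac,
    fun j => ENNReal.toReal_ofReal (mul_nonneg (hα j).le (sq_nonneg (a j))), smul_eq_mul]

lemma spinV_congr {G G' : ℕ → ℝ} (h : ∀ l ≤ R, G l = G' l) : spinV R q G = spinV R q G' := by
  have hV : ∀ k, Vale.Agent.P157.Par.Vn cosh R (lin R) G k = Vale.Agent.P157.Par.Vn cosh R (lin R) G' k := by
    intro k
    induction k with
    | zero => rfl
    | succ k ih =>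
      funext y
      simp only [Vale.Agent.P157.Par.Vn, ih, h (R - k) (by omega), h (R - (k + 1)) (by omega)]
  simp only [spinV, P157.Par.Phi, hV, h 0 (Nat.zero_le R), h R le_rfl]
  congr 3
  exact congrArg (fun x => x / (R:ℝ)) (sum_congr rfl fun l hl => by rw [h l (mem_range.1 hl).le])

/-- **the functional of finitely many species is the one of the kernel** -/
theorem valR_jump {r : ℕ} {a α : Fin r → ℝ} (hα : ∀ j, 0 < α j) (c0 : ℝ) {β : ℝ}
    (hc : ∀ j, |β * a j| ≤ 1 / 10) (hq : Prof R q 1) (h1 : q R = 1) :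
    valR β (c0 + ∑ j, α j * a j) (jumpMeas a α) R q = β * c0 / 2 + formQ α (fun j => β * a j) R q := by
  have hd : ∀ j, Dat (β * a j) R (lin R) q := fun j => ⟨hc j, ex_lin R, hq⟩
  have hy : ∀ s ∈ Set.uIcc (0:ℝ) 1, ∀ j, β * xiD R q s * a j < 1 := fun s hs j => by
    rw [Set.uIcc_of_le zero_le_one] at hs
    have := den_pos (hd j) hs.1 hs.2
    nlinarith
  have i1 : ∀ j, IntervalIntegrable (fun s => α j * (β * a j / (1 - β * a j * xiD R q s))) volume 0 1 := fun j =>
    (ii_c (hd j) h1 (Set.left_mem_Icc.2 zero_le_one) (Set.right_mem_Icc.2 zero_le_one)).1.const_mul _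
  have e1 : β / 2 * (∫ s in (0:ℝ)..1, Rt (c0 + ∑ j, α j * a j) (jumpMeas a α) (β * xiD R q s)) =
      β * c0 / 2 + ∑ j, α j * P157.Par.Phi (fun y => exp (qf (β * a j) y)) R (lin R) q := by
    rw [← intervalIntegral.integral_const_mul,
      intervalIntegral.integral_congr (g := fun s => β * c0 / 2 + 1 / 2 *
        ∑ j, α j * (β * a j / (1 - β * a j * xiD R q s))) fun s hs => by
        simp only [rt_jump hα c0 (hy s hs), mul_add, mul_sum]
        congr 1
        · ring
        · exact sum_congr rfl fun j _ => by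
            rw [show β * xiD R q s * a j = β * a j * xiD R q s by ring]; ring,
      intervalIntegral.integral_add intervalIntegrable_const
        ((IntervalIntegrable.sum univ fun j _ => i1 j).const_mul (1 / 2) |>.congr
          (fun s _ => by simp only [Finset.sum_apply])),
      intervalIntegral.integral_const, intervalIntegral.integral_const_mul,
      intervalIntegral.integral_finsetSum fun j _ => i1 j]
    simp only [intervalIntegral.integral_const_mul, sub_zero, one_smul, fun j => phi_int (hd j) h1, mul_sum]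
    congr 1
    exact sum_congr rfl fun j _ => by ring
  rw [valR, valF, e1, formQ, ← add_assoc]
  congr 1
  refine spinV_congr fun l hl => ?_
  have hv : q l ∈ Set.Icc (0:ℝ) 1 := hq.upper hl
  simp only [Gr, drt_jump hα, fun j => gamma_int (hd j) h1 l hl]
  rw [intervalIntegral.integral_finsetSum fun j _ => ?_]
  · rw [mul_sum]
    refine sum_congr rfl fun j _ => ?_
    rw [intervalIntegral.integral_const_mul,
      intervalIntegral.integral_congr (g := fun s => 1 / (1 - β * a j * xiD R q s) ^ 2) fun s _ => by ring_nf]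
    ring
  · refine ((ii_c (hd j) h1 (Set.left_mem_Icc.2 zero_le_one) hv).2.congr fun s _ => ?_).const_mul _
    ring_nf

/-! ### continuity in the kernel -/

lemma ii_F {β : ℝ} (hβ : 0 ≤ β) {F : ℝ → ℝ} (hF : ContinuousOn F (Set.Icc 0 β)) (hq : Prof R q 1)
    {u v : ℝ} (hu : u ∈ Set.Icc (0:ℝ) 1) (hv : v ∈ Set.Icc (0:ℝ) 1) :
    IntervalIntegrable (fun s => F (β * xiD R q s)) volume u v :=
  (hF.comp ((continuous_const.mul (continuous_xiD R q))).continuousOn fun s hs => by
    obtain ⟨a, b⟩ := xiD_mem hq (Set.uIcc_subset_Icc hu hv hs).1 (Set.uIcc_subset_Icc hu hv hs).2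
    exact ⟨mul_nonneg hβ a, mul_le_of_le_one_right hβ b⟩).intervalIntegrable

lemma int_close {β δ : ℝ} (hβ : 0 ≤ β) {F G : ℝ → ℝ} (hF : ContinuousOn F (Set.Icc 0 β))
    (hG : ContinuousOn G (Set.Icc 0 β)) (hd : ∀ y ∈ Set.Icc 0 β, |F y - G y| ≤ δ) (hq : Prof R q 1)
    {v : ℝ} (hv : v ∈ Set.Icc (0:ℝ) 1) :
    |(∫ s in (0:ℝ)..v, F (β * xiD R q s)) - ∫ s in (0:ℝ)..v, G (β * xiD R q s)| ≤ δ := by
  have hδ : 0 ≤ δ := (abs_nonneg _).trans (hd 0 (Set.left_mem_Icc.2 hβ))
  have z0 : (0:ℝ) ∈ Set.Icc (0:ℝ) 1 := Set.left_mem_Icc.2 zero_le_one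
  rw [← intervalIntegral.integral_sub (ii_F hβ hF hq z0 hv) (ii_F hβ hG hq z0 hv), ← Real.norm_eq_abs]
  refine (intervalIntegral.norm_integral_le_of_norm_le_const (C := δ) fun s hs => ?_).trans ?_
  · rw [Set.uIoc_of_le hv.1] at hs
    obtain ⟨a, b⟩ := xiD_mem hq hs.1.le (hs.2.trans hv.2)
    exact (Real.norm_eq_abs _).trans_le (hd _ ⟨mul_nonneg hβ a, mul_le_of_le_one_right hβ b⟩)
  · rw [sub_zero, abs_of_nonneg hv.1]
    exact mul_le_of_le_one_right hδ hv.2

lemma gr_prof {β Λ : ℝ} (hβ : 0 ≤ β) {F' : ℝ → ℝ} (hF : ContinuousOn F' (Set.Icc 0 β))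
    (hb : ∀ y ∈ Set.Icc 0 β, 0 ≤ F' y ∧ F' y ≤ Λ) (hq : Prof R q 1) :
    Prof R (Gr β F' R q) (β ^ 2 * Λ) := by
  have hmem : ∀ s, 0 ≤ s → s ≤ 1 → β * xiD R q s ∈ Set.Icc (0:ℝ) β := fun s a b => by
    obtain ⟨c, d⟩ := xiD_mem hq a b
    exact ⟨mul_nonneg hβ c, mul_le_of_le_one_right hβ d⟩
  have z0 : (0:ℝ) ∈ Set.Icc (0:ℝ) 1 := Set.left_mem_Icc.2 zero_le_one
  refine ⟨mul_nonneg (sq_nonneg β) (intervalIntegral.integral_nonneg (hq.upper (Nat.zero_le R)).1 fun s hs =>
    (hb _ (hmem s hs.1 (hs.2.trans (hq.upper (Nat.zero_le R)).2))).1), fun l hl => ?_, ?_⟩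
  · refine mul_le_mul_of_nonneg_left ?_ (sq_nonneg β)
    rw [← intervalIntegral.integral_add_adjacent_intervals (ii_F hβ hF hq z0 (hq.upper hl.le))
      (ii_F hβ hF hq (hq.upper hl.le) (hq.upper hl))]
    refine le_add_of_nonneg_right (intervalIntegral.integral_nonneg (hq.mono l hl) fun s hs => ?_)
    exact (hb _ (hmem s ((hq.upper hl.le).1.trans hs.1) (hs.2.trans (hq.upper hl).2))).1
  · have hR := hq.upper (le_refl R)
    refine mul_le_mul_of_nonneg_left ((intervalIntegral.integral_mono_on hR.1 (ii_F hβ hF hq z0 hR)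
      intervalIntegrable_const fun s hs => (hb _ (hmem s hs.1 (hs.2.trans hR.2))).2).trans ?_) (sq_nonneg β)
    rw [intervalIntegral.integral_const, sub_zero, smul_eq_mul]
    have := (hb _ (hmem 0 le_rfl zero_le_one))
    exact mul_le_of_le_one_left (this.1.trans this.2) hR.2

/-- the spin part is Lipschitz in the profile, uniformly over the trials -/
theorem spinV_close (V : ℝ) :
    ∃ K : ℝ, 0 ≤ K ∧ ∀ (R : ℕ) (q G G' : ℕ → ℝ) (δ : ℝ), 1 ≤ R → Prof R q 1 → Prof R G V → Prof R G' V →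
      (∀ l ≤ R, |G l - G' l| ≤ δ) → |spinV R q G - spinV R q G'| ≤ K * δ := by
  obtain ⟨L, hL, hlip⟩ := Vale.Agent.P157.Par.Phi_lip Vale.Agent.P157.Par.sm_logcosh V
  refine ⟨2 * L + 1, by positivity, fun R q G G' δ hR hq p1 p2 hg => ?_⟩
  have hR0 : (0:ℝ) < R := Nat.cast_pos.2 (by omega)
  have hphi : |P157.Par.Phi cosh R (lin R) G - P157.Par.Phi cosh R (lin R) G'| ≤ L * (2 * δ) := by
    have := (hlip R _ _ hR p1 p2).1
    rw [Vale.Agent.P157.Par.cosh_eq_exp] at this
    refine this.trans (mul_le_mul_of_nonneg_left ?_ hL)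
    have hs : (∑ l ∈ range R, |G l - G' l|) / R ≤ δ := by
      rw [div_le_iff₀ hR0]
      refine (sum_le_sum fun l hl => hg l (mem_range.1 hl).le).trans (le_of_eq ?_)
      rw [sum_const, card_range, nsmul_eq_mul, mul_comm]
    linarith [hg R le_rfl]
  have hsum : |(∑ l ∈ range R, q l * G l) / R - (∑ l ∈ range R, q l * G' l) / R| ≤ δ := by
    rw [← sub_div, ← sum_sub_distrib, abs_div, abs_of_pos hR0, div_le_iff₀ hR0]
    refine (abs_sum_le_sum_abs _ _).trans ((sum_le_sum fun l hl => ?_).trans_eq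
      (show ∑ _l ∈ range R, δ = δ * R by rw [sum_const, card_range, nsmul_eq_mul, mul_comm]))
    rw [mem_range] at hl
    obtain ⟨a, b⟩ := hq.upper hl.le
    rw [← mul_sub, abs_mul, abs_of_nonneg a]
    exact (mul_le_mul b (hg l hl.le) (abs_nonneg _) zero_le_one).trans_eq (one_mul _)
  have e1 := abs_le.1 hphi
  have e3 := abs_le.1 hsum
  have e4 := abs_le.1 (hg R le_rfl)
  simp only [spinV]
  rw [abs_le]
  constructor <;> linarith

/-- the functional is Lipschitz in the kernel and its derivative, uniformly over the trials -/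
theorem valF_close {β : ℝ} (hβ : 0 ≤ β) (Λ : ℝ) :
    ∃ K : ℝ, 0 ≤ K ∧ ∀ (F F' G G' : ℝ → ℝ) (δ : ℝ), ContinuousOn F (Set.Icc 0 β) →
      ContinuousOn F' (Set.Icc 0 β) → ContinuousOn G (Set.Icc 0 β) → ContinuousOn G' (Set.Icc 0 β) →
      (∀ y ∈ Set.Icc 0 β, |F y - G y| ≤ δ ∧ |F' y - G' y| ≤ δ ∧ (0 ≤ F' y ∧ F' y ≤ Λ) ∧ (0 ≤ G' y ∧ G' y ≤ Λ)) →
      ∀ (R : ℕ) (q : ℕ → ℝ), 1 ≤ R → Prof R q 1 → |valF β F F' R q - valF β G G' R q| ≤ K * δ := by
  obtain ⟨L, hL, hlip⟩ := spinV_close (β ^ 2 * Λ)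
  refine ⟨β / 2 + L * β ^ 2, by positivity, fun F F' G G' δ hF hF' hG hG' hd R q hR hq => ?_⟩
  have hg : ∀ l ≤ R, |Gr β F' R q l - Gr β G' R q l| ≤ β ^ 2 * δ := fun l hl => by
    rw [Gr, Gr, ← mul_sub, abs_mul, abs_of_nonneg (sq_nonneg β)]
    exact mul_le_mul_of_nonneg_left (int_close hβ hF' hG' (fun y hy => (hd y hy).2.1) hq (hq.upper hl))
      (sq_nonneg β)
  have e1 := abs_le.1 (hlip R q _ _ _ hR hq (gr_prof hβ hF' (fun y hy => (hd y hy).2.2.1) hq)
    (gr_prof hβ hG' (fun y hy => (hd y hy).2.2.2) hq) hg)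
  have e2 := abs_le.1 (int_close hβ hF hG (fun y hy => (hd y hy).1) hq (Set.right_mem_Icc.2 zero_le_one))
  simp only [valF]
  rw [abs_le]
  constructor <;> nlinarith [hβ]

lemma spinV_zero (R : ℕ) (q : ℕ → ℝ) : spinV R q (fun _ => 0) = 0 := by
  have hV : ∀ k, k ≤ R → ∀ y, Vale.Agent.P157.Par.Vn cosh R (lin R) (fun _ => 0) k y = cosh y := by
    intro k
    induction k with
    | zero => exact fun _ _ => rfl
    | succ k ih =>
      intro hk y
      have hm : lin R (R - k) ≠ 0 := ((ex_lin R).mem (show k < R by omega)).1.ne'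
      simp only [Vale.Agent.P157.Par.Vn, sub_self, sqrt_zero, zero_mul, add_zero, ih (by omega), integral_const,
        probReal_univ, one_smul, one_div]
      exact rpow_rpow_inv (cosh_pos y).le hm
  simp [spinV, P157.Par.Phi, hV R le_rfl]

/-- a crude bound for the functional -/
theorem valF_bdd {β : ℝ} (hβ : 0 ≤ β) (Λ : ℝ) :
    ∃ K : ℝ, ∀ (F F' : ℝ → ℝ), ContinuousOn F (Set.Icc 0 β) → ContinuousOn F' (Set.Icc 0 β) →
      (∀ y ∈ Set.Icc 0 β, |F y| ≤ Λ ∧ 0 ≤ F' y ∧ F' y ≤ Λ) →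
      ∀ (R : ℕ) (q : ℕ → ℝ), 1 ≤ R → Prof R q 1 → |valF β F F' R q| ≤ K := by
  obtain ⟨K, hK, h⟩ := valF_close hβ Λ
  refine ⟨K * Λ, fun F F' hF hF' hb R q hR hq => ?_⟩
  have := h F F' (fun _ => 0) (fun _ => 0) Λ hF hF' continuousOn_const continuousOn_const (fun y hy => by
    obtain ⟨a, b, c⟩ := hb y hy
    exact ⟨by simpa using a, by simpa [abs_of_nonneg b] using c, ⟨b, c⟩, le_rfl, b.trans c⟩) R q hR hq
  have e : valF β (fun _ => 0) (fun _ => 0) R q = 0 := by
    rw [valF, intervalIntegral.integral_zero, mul_zero, zero_add,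
      show Gr β (fun _ => 0) R q = fun _ => 0 from funext fun l => by simp [Gr], spinV_zero]
  rwa [e, sub_zero] at this

end Vale.Agent.P166.Par.Multi
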