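import Vale.Agent.P166.Par.Multi.Defs

/-! Facts on the correlation profiles of several species: ranges, Lipschitz dependence, and the
distance between the frequencies of random labels and their weights. -/

open MeasureTheory ProbabilityTheory Real Finset
open Vale.Agent.P150 (gauss dot)
open Vale.Agent.P168.MP (lin Ok ok_lin)
open Vale.Agent.P157.Par

namespace Vale.Agent.P166.Par.Multi

variable {s M : ℕ} {p : Fin s → ℝ} {R : ℕ} {q q' : ℕ → ℝ}

lemma Fam.nonneg (P : Fam s) (j : Fin s) : 0 ≤ P.D := (P.sm j).nonneg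

lemma sum_prof {ι : Type*} (S : Finset ι) {c : ι → ℝ} {G : ι → ℕ → ℝ} {V : ℝ} (hc : ∀ i, 0 ≤ c i)
    (hs : ∑ i ∈ S, c i ≤ 1) (hV : 0 ≤ V) (hG : ∀ i, Prof R (G i) V) :
    Prof R (fun l => ∑ i ∈ S, c i * G i l) V := by
  refine ⟨sum_nonneg fun i _ => mul_nonneg (hc i) (hG i).zero,
    fun l hl => sum_le_sum fun i _ => mul_le_mul_of_nonneg_left ((hG i).mono l hl) (hc i), ?_⟩
  refine (sum_le_sum fun i _ => mul_le_mul_of_nonneg_left (hG i).top (hc i)).trans ?_
  rw [← sum_mul]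
  exact mul_le_of_le_one_left hV hs

lemma gam_prof (P : Fam s) (hp : Wts p) (hR : 1 ≤ R) {m : ℕ → ℝ}
    (hm : ∀ {Ω : Type} (w : List Ω → ℝ), (∀ p, 0 < w p) → Ok R m w) (hq : Prof R q 1) :
    Prof R (Gam P p R m q) (P.D ^ 2) :=
  sum_prof univ hp.nn hp.one.le (sq_nonneg _) fun j => Gamma_prof (P.sm j) hR hq hm

lemma gbV_prof (P : Fam s) (k : Fin M → Fin s) (hR : 1 ≤ R) (hq : Prof R q 1) :
    Prof R (GbV P k R q) (P.D ^ 2) := by
  have h := sum_prof (R := R) (univ : Finset (Fin M)) (c := fun _ => (M:ℝ)⁻¹) (G := fun a => Gm (P.f (k a)) (P.f1 (k a)) R q)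
    (V := P.D ^ 2) (fun _ => by positivity) (by
      rw [sum_const, card_univ, Fintype.card_fin, nsmul_eq_mul]; exact mul_inv_le_one)
    (sq_nonneg _) fun a => gm_prof (P.sm (k a)) hR hq
  have e : (fun l => ∑ a, (M:ℝ)⁻¹ * Gm (P.f (k a)) (P.f1 (k a)) R q l) = GbV P k R q := by
    funext l
    rw [GbV, ← mul_sum, div_eq_inv_mul]
  rwa [e] at h

/-- a constant that serves every species -/
lemma exists_uniform {C : Fin s → ℝ → Prop} (h : ∀ j, ∃ K, 0 ≤ K ∧ C j K)
    (hm : ∀ j K K', K ≤ K' → C j K → C j K') : ∃ K, 0 ≤ K ∧ ∀ j, C j K := by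
  choose K hK hC using h
  exact ⟨∑ j, K j, sum_nonneg fun j _ => hK j,
    fun j => hm j _ _ (single_le_sum (fun i _ => hK i) (mem_univ j)) (hC j)⟩

lemma gamma_lip (P : Fam s) : ∃ K : ℝ, 0 ≤ K ∧ ∀ j, GammaLip (P.f j) (P.f1 j) K :=
  exists_uniform (C := fun j K => GammaLip (P.f j) (P.f1 j) K) (fun j => by
    obtain ⟨K, hK, h⟩ := Phi_lip (P.sm j) 1
    exact ⟨K, hK, fun R q q' hR hq hq' l hl => (h R q q' hR hq hq').2 l hl⟩)
    fun j K K' hKK h R q q' hR hq hq' l hl =>
      (h R q q' hR hq hq' l hl).trans (mul_le_mul_of_nonneg_right hKK (by positivity))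

lemma dist1_gm {f f1 : ℝ → ℝ} {K : ℝ} (h : GammaLip f f1 K) (hR : 1 ≤ R) (hq : Prof R q 1) (hq' : Prof R q' 1) :
    dist1 R (Gm f f1 R q) (Gm f f1 R q') ≤ K * 3 * dist1 R q q' := by
  have hR' : (0:ℝ) < R := by exact_mod_cast hR
  have hl : ∀ l ≤ R, |Gm f f1 R q l - Gm f f1 R q' l| ≤ K * (|q l - q' l| + dist1 R q q') := fun l hl => by
    refine (h R q q' hR hq hq' l hl).trans_eq ?_
    unfold dist1; ring
  calc dist1 R (Gm f f1 R q) (Gm f f1 R q')
      ≤ (∑ l ∈ range R, K * (|q l - q' l| + dist1 R q q')) / R + K * (|q R - q' R| + dist1 R q q') :=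
        add_le_add (div_le_div_of_nonneg_right (sum_le_sum fun l h => hl l (mem_range.1 h).le) hR'.le)
          (hl R le_rfl)
    _ = K * (((∑ l ∈ range R, |q l - q' l|) / R + |q R - q' R|) + 2 * dist1 R q q') := by
        rw [← mul_sum, sum_add_distrib, sum_const, card_range, nsmul_eq_mul]; field_simp; ring
    _ = K * 3 * dist1 R q q' := by unfold dist1; ring

lemma dist1_sum_le {ι : Type*} (S : Finset ι) (c : ι → ℝ) (G G' : ι → ℕ → ℝ) :
    dist1 R (fun l => ∑ i ∈ S, c i * G i l) (fun l => ∑ i ∈ S, c i * G' i l) ≤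
      ∑ i ∈ S, |c i| * dist1 R (G i) (G' i) := by
  have hl : ∀ l, |(∑ i ∈ S, c i * G i l) - ∑ i ∈ S, c i * G' i l| ≤ ∑ i ∈ S, |c i| * |G i l - G' i l| := fun l => by
    rw [← sum_sub_distrib]
    refine (abs_sum_le_sum_abs _ _).trans_eq (sum_congr rfl fun i _ => ?_)
    rw [← mul_sub, abs_mul]
  refine (add_le_add (div_le_div_of_nonneg_right (sum_le_sum fun l _ => hl l) (Nat.cast_nonneg _)) (hl R)).trans_eq ?_
  simp only [dist1, mul_add, sum_add_distrib]
  congr 1
  rw [sum_comm, sum_div]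
  exact sum_congr rfl fun i _ => by rw [← mul_sum, mul_div_assoc]

/-- **Lipschitz dependence of the mean profiles on the trial** -/
lemma gbV_lip (P : Fam s) : ∃ K : ℝ, 0 ≤ K ∧ ∀ (R : ℕ) (q q' : ℕ → ℝ), 1 ≤ R → Prof R q 1 → Prof R q' 1 →
    (∀ {M : ℕ} (k : Fin M → Fin s), dist1 R (GbV P k R q) (GbV P k R q') ≤ K * dist1 R q q') ∧
    ∀ {p : Fin s → ℝ}, Wts p → dist1 R (Gam P p R (lin R) q) (Gam P p R (lin R) q') ≤ K * dist1 R q q' := by
  obtain ⟨K, hK, h⟩ := gamma_lip P
  refine ⟨K * 3, by positivity, fun R q q' hR hq hq' => ⟨fun {M} k => ?_, fun {p} hp => ?_⟩⟩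
  · have e : ∀ q, GbV P k R q = fun l => ∑ a, (M:ℝ)⁻¹ * Gm (P.f (k a)) (P.f1 (k a)) R q l := fun q => by
      funext l; rw [GbV, ← mul_sum, div_eq_inv_mul]
    rw [e, e]
    refine (dist1_sum_le _ _ _ _).trans ((sum_le_sum fun a _ =>
      mul_le_mul_of_nonneg_left (dist1_gm (h (k a)) hR hq hq') (abs_nonneg _)).trans ?_)
    rw [← sum_mul, sum_const, card_univ, Fintype.card_fin, nsmul_eq_mul, abs_of_nonneg (by positivity)]
    exact mul_le_of_le_one_left (mul_nonneg (by positivity) (dist1_nonneg _ _ _)) mul_inv_le_one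
  · refine (dist1_sum_le univ p _ _).trans ((sum_le_sum fun j _ =>
      mul_le_mul_of_nonneg_left (dist1_gm (h j) hR hq hq') (abs_nonneg _)).trans_eq ?_)
    rw [← sum_mul, sum_congr rfl fun j _ => abs_of_nonneg (hp.nn j), hp.one, one_mul]

/-- **Lipschitz dependence of the site value** -/
lemma esG_lip (D : ℝ) (A : ℝ) : ∃ K : ℝ, 0 ≤ K ∧ ∀ (α : ℝ) (R : ℕ) (G G' q q' : ℕ → ℝ), 0 ≤ α → α ≤ A → 1 ≤ R →
    Prof R G (D ^ 2) → Prof R G' (D ^ 2) → Prof R q 1 → Prof R q' 1 →
    |EsG α G R q - EsG α G' R q'| ≤ K * (dist1 R G G' + dist1 R q q') := by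
  obtain ⟨Kc, hKc, hc⟩ := Phi_lip sm_logcosh (|A| * D ^ 2)
  refine ⟨|A| * Kc + |A| / 2 * (1 + D ^ 2), by positivity, fun α R G G' q q' h0 h1 hR hG hG' hq hq' => ?_⟩
  have hA : α ≤ |A| := h1.trans (le_abs_self A)
  have hR' : (0:ℝ) < R := by exact_mod_cast hR
  have h2 := (hc R (fun l => α * G l) (fun l => α * G' l) hR
    ((hG.scale h0).weaken (mul_le_mul_of_nonneg_right hA (sq_nonneg D)))
    ((hG'.scale h0).weaken (mul_le_mul_of_nonneg_right hA (sq_nonneg D)))).1
  have e2 : (∑ l ∈ range R, |α * G l - α * G' l|) / (R:ℝ) + |α * G R - α * G' R| = α * dist1 R G G' := by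
    simp only [← mul_sub, abs_mul, abs_of_nonneg h0, ← mul_sum, dist1]; ring
  rw [cosh_eq_exp, e2] at h2
  have h3 : |∑ l ∈ range (R + 1), coef R l * (G l * q l) - ∑ l ∈ range (R + 1), coef R l * (G' l * q' l)| ≤
      dist1 R G G' + D ^ 2 * dist1 R q q' := by
    have hp : ∀ l ≤ R, |G l * q l - G' l * q' l| ≤ |G l - G' l| + D ^ 2 * |q l - q' l| := fun l hl => by
      rw [show G l * q l - G' l * q' l = (G l - G' l) * q l + G' l * (q l - q' l) by ring]
      refine (abs_add_le _ _).trans (add_le_add ?_ ?_) <;> rw [abs_mul]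
      · have := hq.upper hl
        exact mul_le_of_le_one_right (abs_nonneg _) (abs_le.2 ⟨by linarith, this.2⟩)
      · have := hG'.upper hl
        exact mul_le_mul_of_nonneg_right (abs_le.2 ⟨by linarith, this.2⟩) (abs_nonneg _)
    rw [← sum_sub_distrib, sum_range_succ, coef_top hR, one_mul, one_mul]
    refine (abs_add_le _ _).trans ?_
    have := hp R le_rfl
    have h4 : |∑ l ∈ range R, (coef R l * (G l * q l) - coef R l * (G' l * q' l))| ≤
        (∑ l ∈ range R, |G l - G' l|) / R + D ^ 2 * ((∑ l ∈ range R, |q l - q' l|) / R) := by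
      refine (abs_sum_le_sum_abs _ _).trans ?_
      rw [← mul_div_assoc, mul_sum, ← add_div, ← sum_add_distrib, sum_div]
      refine sum_le_sum fun l hl => ?_
      rw [← mul_sub, coef_lt (mem_range.1 hl), abs_mul, abs_neg, abs_of_nonneg (by positivity),
        one_div_mul_eq_div]
      exact div_le_div_of_nonneg_right (hp l (mem_range.1 hl).le) hR'.le
    unfold dist1
    linarith
  unfold EsG
  rw [show ∀ a b c d : ℝ, a - c - (b - d) = (a - b) - (c - d) from fun a b c d => by ring, ← mul_sub]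
  refine (abs_sub _ _).trans ?_
  rw [abs_mul (α / 2), abs_of_nonneg (by positivity : 0 ≤ α / 2)]
  have d1 := dist1_nonneg R G G'
  have d2 := dist1_nonneg R q q'
  have m1 : Kc * (α * dist1 R G G') ≤ |A| * Kc * dist1 R G G' := by
    calc Kc * (α * dist1 R G G') ≤ Kc * (|A| * dist1 R G G') :=
          mul_le_mul_of_nonneg_left (mul_le_mul_of_nonneg_right hA d1) hKc
      _ = _ := by ring
  have m2 := (mul_le_mul_of_nonneg_left h3 (by positivity : (0:ℝ) ≤ α / 2)).trans
    (mul_le_mul_of_nonneg_right (div_le_div_of_nonneg_right hA zero_le_two) (by positivity))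
  refine (add_le_add (h2.trans m1) m2).trans ?_
  nlinarith [mul_nonneg (mul_nonneg (abs_nonneg A) hKc) d2, mul_nonneg (abs_nonneg A) d2,
    mul_nonneg (mul_nonneg (abs_nonneg A) (sq_nonneg D)) d1]

/-! ### frequencies of the labels -/

/-- frequency of a species -/
noncomputable def freq (k : Fin M → Fin s) (j : Fin s) : ℝ := (∑ a, if k a = j then (1:ℝ) else 0) / M

/-- profile at given labels against the mean profile -/
lemma gbV_freq (P : Fam s) (k : Fin M → Fin s) (hR : 1 ≤ R) (hq : Prof R q 1) :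
    dist1 R (GbV P k R q) (Gam P p R (lin R) q) ≤ 2 * P.D ^ 2 * ∑ j, |freq k j - p j| := by
  have hR' : (0:ℝ) < R := by exact_mod_cast hR
  have hl : ∀ l ≤ R, |GbV P k R q l - Gam P p R (lin R) q l| ≤ P.D ^ 2 * ∑ j, |freq k j - p j| := fun l hl => by
    have e : GbV P k R q l = ∑ j, freq k j * Gm (P.f j) (P.f1 j) R q l := by
      simp only [GbV, freq, div_mul_eq_mul_div, ← sum_div, sum_mul, ite_mul, one_mul, zero_mul]
      rw [sum_comm]
      simp
    rw [e, Gam, ← sum_sub_distrib, mul_sum]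
    refine (abs_sum_le_sum_abs _ _).trans (sum_le_sum fun j _ => ?_)
    have hg := (gm_prof (P.sm j) hR hq).upper hl
    show |freq k j * Gm (P.f j) (P.f1 j) R q l - p j * Gm (P.f j) (P.f1 j) R q l| ≤ _
    rw [← sub_mul, abs_mul, mul_comm (P.D ^ 2)]
    exact mul_le_mul_of_nonneg_left (abs_le.2 ⟨by linarith, hg.2⟩) (abs_nonneg _)
  refine (add_le_add (div_le_div_of_nonneg_right (sum_le_sum fun l h => hl l (mem_range.1 h).le) hR'.le)
    (hl R le_rfl)).trans_eq ?_
  rw [sum_const, card_range, nsmul_eq_mul, mul_div_cancel_left₀ _ hR'.ne']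
  ring

/-- first two moments of a count of labels -/
lemma lavg_count (hp : Wts p) (j : Fin s) : ∀ M : ℕ,
    lavg (M := M) p (fun k => ∑ a, if k a = j then (1:ℝ) else 0) = M * p j ∧
    lavg (M := M) p (fun k => ((∑ a, if k a = j then (1:ℝ) else 0) - M * p j) ^ 2) ≤ M := by
  intro M
  induction M with
  | zero => simp [lavg]
  | succ M ih =>
    set C : (Fin M → Fin s) → ℝ := fun k => ∑ a, if k a = j then (1:ℝ) else 0
    have e : ∀ (i : Fin s) (k : Fin M → Fin s), (∑ a, if (0 : Fin (M + 1)).insertNth (α := fun _ => Fin s) i k a = j then (1:ℝ) else 0) =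
        (if i = j then 1 else 0) + C k := fun i k => by
      rw [Fin.sum_univ_succAbove _ 0]
      simp [C]
    have hsum : ∑ i, p i * (if i = j then (1:ℝ) else 0) = p j := by simp
    constructor
    · rw [lavg_succ 0]
      simp only [e, lavg_add, lavg_const hp, C, ih.1, mul_add, sum_add_distrib, hsum, ← sum_mul, hp.one]
      push_cast; ring
    · rw [lavg_succ 0]
      have hx : ∀ i k, ((if i = j then (1:ℝ) else 0) + C k - ((M + 1 : ℕ) : ℝ) * p j) ^ 2 =
          ((if i = j then (1:ℝ) else 0) - p j) ^ 2 +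
            (2 * ((if i = j then (1:ℝ) else 0) - p j) * (C k - M * p j) + (C k - M * p j) ^ 2) := fun i k => by
        push_cast; ring
      simp only [e, hx, lavg_add, lavg_const hp, lavg_const_mul, lavg_sub, C, ih.1, sub_self, mul_zero, zero_add,
        mul_add, sum_add_distrib, ← sum_mul, hp.one, one_mul]
      push_cast
      have hp1 : p j ≤ 1 := hp.one ▸ single_le_sum (fun i _ => hp.nn i) (mem_univ j)
      have h1 : ∑ i, p i * ((if i = j then (1:ℝ) else 0) - p j) ^ 2 ≤ 1 := by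
        refine (sum_le_sum (g := fun i => p i * 1) fun i _ => mul_le_mul_of_nonneg_left ?_ (hp.nn i)).trans_eq
          (by simp [hp.one])
        split_ifs <;> nlinarith [hp.nn j]
      linarith [ih.2]

/-- **the frequencies of random labels are near their weights** -/
lemma lavg_freq (hp : Wts p) (M : ℕ) (hM : 1 ≤ M) :
    lavg (M := M) p (fun k => ∑ j, |freq k j - p j|) ≤ s / √(M : ℝ) := by
  have hM' : (0:ℝ) < M := by exact_mod_cast hM
  have hs : 0 < √(M : ℝ) := Real.sqrt_pos.2 hM'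
  rw [lavg_sum]
  refine (sum_le_sum (g := fun _ => 1 / √(M:ℝ)) fun j _ => ?_).trans_eq (by simp [div_eq_mul_inv])
  set C : (Fin M → Fin s) → ℝ := fun k => ∑ a, if k a = j then (1:ℝ) else 0
  have e : ∀ k, freq k j - p j = (C k - M * p j) / M := fun k => by
    simp only [freq, C]; field_simp
  have key : ∀ k, |freq k j - p j| ≤ 1 / (2 * M * √(M:ℝ)) * (C k - M * p j) ^ 2 + √(M:ℝ) / (2 * M) := fun k => by
    rw [e, abs_div, Nat.abs_cast, div_le_iff₀ hM']
    have h := two_mul_le_add_sq |C k - M * p j| (√(M:ℝ))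
    rw [sq_abs, Real.sq_sqrt hM'.le] at h
    field_simp
    rw [Real.sq_sqrt hM'.le]
    linarith
  refine (lavg_mono hp key).trans ?_
  rw [lavg_add, lavg_const_mul, lavg_const hp]
  refine (add_le_add (mul_le_mul_of_nonneg_left (lavg_count hp j M).2 (by positivity)) le_rfl).trans_eq ?_
  field_simp
  rw [Real.sq_sqrt hM'.le]
  ring

end Vale.Agent.P166.Par.Multi
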