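import Vale.Agent.P166.Par.Multi.Formula

/-! The Parisi formula for every free infinitely divisible law with `|β t| ≤ 1/10` on the jumps: the
limit of the pressure is the infimum of the functional written with the kernel of the law. -/

open MeasureTheory Filter Finset
open scoped Topology
open Vale.Agent.P157.Par (Prof)
open Vale.Agent.P166.Pattern.Multi (Rk cauchy)
open Vale.Agent.P166.Pattern.Signed (Carried)

noncomputable section

namespace Vale.Agent.P166.Par.Multi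

/-- the variational value of a free infinitely divisible law -/
def parisiR (β γ : ℝ) (ρ : Measure ℝ) : ℝ := sInf (rValues β γ ρ)

/-! ### the kernel and its derivative on `[0, β]` -/

lemma den_bd {β B t y : ℝ} (hB : β * B ≤ 1 / 10) (ht : |t| ≤ B) (hy : y ∈ Set.Icc 0 β) :
    9 / 10 ≤ 1 - t * y := by
  have h : |t * y| ≤ 1 / 10 := by
    rw [abs_mul, abs_of_nonneg hy.1]
    exact (mul_le_mul ht hy.2 hy.1 ((abs_nonneg t).trans ht)).trans (by linarith)
  linarith [(abs_le.1 h).2]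

lemma ker_bd {β B t y : ℝ} (hB : β * B ≤ 1 / 10) (ht : |t| ≤ B) (hy : y ∈ Set.Icc 0 β) :
    |y / (1 - t * y)| ≤ 2 * β ∧ 0 ≤ 1 / (1 - t * y) ^ 2 ∧ 1 / (1 - t * y) ^ 2 ≤ 2 := by
  have hu := den_bd hB ht hy
  refine ⟨?_, by positivity, ?_⟩
  · rw [abs_div, abs_of_nonneg hy.1, abs_of_pos (show 0 < 1 - t * y by linarith), div_le_iff₀ (by linarith)]
    nlinarith [hy.1, hy.2]
  · rw [div_le_iff₀ (by positivity)]
    nlinarith

lemma ker_close {β B t t' y : ℝ} (hB : β * B ≤ 1 / 10) (ht : |t| ≤ B) (ht' : |t'| ≤ B) (hy : y ∈ Set.Icc 0 β) :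
    |y / (1 - t * y) - y / (1 - t' * y)| ≤ 2 * β ^ 2 * |t - t'| ∧
      |1 / (1 - t * y) ^ 2 - 1 / (1 - t' * y) ^ 2| ≤ 5 * β * |t - t'| := by
  have hu := den_bd hB ht hy
  have hv := den_bd hB ht' hy
  have hy2 : y ^ 2 ≤ β ^ 2 := pow_le_pow_left₀ hy.1 hy.2 2
  constructor
  · rw [div_sub_div _ _ (by linarith : (1 - t * y : ℝ) ≠ 0) (by linarith : (1 - t' * y : ℝ) ≠ 0),
      show y * (1 - t' * y) - (1 - t * y) * y = y ^ 2 * (t - t') by ring, abs_div, abs_mul,
      abs_of_nonneg (sq_nonneg y), abs_of_pos (mul_pos (by linarith) (by linarith : 0 < 1 - t' * y)),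
      div_le_iff₀ (mul_pos (by linarith) (by linarith))]
    have h1 : (81:ℝ) / 100 ≤ (1 - t * y) * (1 - t' * y) := le_trans (by norm_num)
      (mul_le_mul hu hv (by norm_num) (by linarith))
    calc y ^ 2 * |t - t'| ≤ β ^ 2 * |t - t'| * 1 := by
          rw [mul_one]; exact mul_le_mul_of_nonneg_right hy2 (abs_nonneg _)
      _ ≤ β ^ 2 * |t - t'| * (2 * ((1 - t * y) * (1 - t' * y))) :=
          mul_le_mul_of_nonneg_left (by linarith) (by positivity)
      _ = _ := by ring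
  · set u := 1 - t * y with hudef
    set v := 1 - t' * y with hvdef
    rw [div_sub_div _ _ (by positivity : u ^ 2 ≠ 0) (by positivity : v ^ 2 ≠ 0),
      show 1 * v ^ 2 - u ^ 2 * 1 = (v - u) * (v + u) by ring, abs_div, abs_mul,
      abs_of_pos (show 0 < v + u by linarith), abs_of_pos (show 0 < u ^ 2 * v ^ 2 by positivity),
      div_le_iff₀ (by positivity)]
    have h0 : |v - u| ≤ β * |t - t'| := by
      rw [show v - u = y * (t - t') by simp only [u, v]; ring, abs_mul, abs_of_nonneg hy.1]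
      exact mul_le_mul_of_nonneg_right hy.2 (abs_nonneg _)
    have hmax : ∀ s, |s| ≤ B → 1 - s * y ≤ 11 / 10 := fun s hs => by
      have : |s * y| ≤ 1 / 10 := by
        rw [abs_mul, abs_of_nonneg hy.1]
        exact (mul_le_mul hs hy.2 hy.1 ((abs_nonneg s).trans hs)).trans (by linarith)
      linarith [(abs_le.1 this).1]
    have h1 : v + u ≤ 11 / 5 := by linarith [hmax t ht, hmax t' ht']
    have h2 : (81:ℝ) / 100 ≤ u ^ 2 := by nlinarith
    have h3 : (81:ℝ) / 100 ≤ v ^ 2 := by nlinarith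
    have h4 := mul_le_mul h2 h3 (by norm_num) (sq_nonneg u)
    calc |v - u| * (v + u) ≤ β * |t - t'| * (11 / 5) :=
          mul_le_mul h0 h1 (by linarith) ((abs_nonneg _).trans h0)
      _ ≤ β * |t - t'| * (5 * (u ^ 2 * v ^ 2)) :=
          mul_le_mul_of_nonneg_left (by linarith) ((abs_nonneg _).trans h0)
      _ = _ := by ring

variable {ρ : Measure ℝ} {A β : ℝ}

/-- continuity and bounds of the kernel and its derivative -/
lemma kernel_facts (h : Carried ρ A) (hA : β * A ≤ 1 / 10) (γ : ℝ) :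
    ContinuousOn (Rt γ ρ) (Set.Icc 0 β) ∧ ContinuousOn (dRt ρ) (Set.Icc 0 β) ∧
      ∀ y ∈ Set.Icc 0 β, |Rt γ ρ y| ≤ |γ| + 2 * β * ρ.real Set.univ ∧ 0 ≤ dRt ρ y ∧ dRt ρ y ≤ 2 * ρ.real Set.univ := by
  have := h.finite
  have hae : ∀ y ∈ Set.Icc 0 β, ∀ᵐ t ∂ρ, |y / (1 - t * y)| ≤ 2 * β ∧ 0 ≤ 1 / (1 - t * y) ^ 2 ∧
      1 / (1 - t * y) ^ 2 ≤ 2 := fun y hy => h.mem.mono fun t ht => ker_bd hA (abs_le.2 ht) hy
  refine ⟨?_, ?_, fun y hy => ⟨?_, ?_, ?_⟩⟩
  · refine continuousOn_const.add (continuousOn_of_dominated (bound := fun _ => 2 * β)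
      (fun y _ => Measurable.aestronglyMeasurable (by fun_prop))
      (fun y hy => (hae y hy).mono fun t ht => (Real.norm_eq_abs _).trans_le ht.1) (integrable_const _)
      (h.mem.mono fun t ht => continuousOn_id.div (by fun_prop) fun y hy => ?_))
    exact (lt_of_lt_of_le (by norm_num) (den_bd hA (abs_le.2 ht) hy)).ne'
  · refine continuousOn_of_dominated (bound := fun _ => 2)
      (fun y _ => Measurable.aestronglyMeasurable (by fun_prop))
      (fun y hy => (hae y hy).mono fun t ht => by rw [Real.norm_eq_abs, abs_of_nonneg ht.2.1]; exact ht.2.2)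
      (integrable_const _)
      (h.mem.mono fun t ht => continuousOn_const.div (by fun_prop) fun y hy => ?_)
    exact pow_ne_zero 2 (lt_of_lt_of_le (by norm_num) (den_bd hA (abs_le.2 ht) hy)).ne'
  · refine (abs_add_le _ _).trans (add_le_add le_rfl ?_)
    rw [← Real.norm_eq_abs]
    exact norm_integral_le_of_norm_le_const ((hae y hy).mono fun t ht => (Real.norm_eq_abs _).trans_le ht.1)
  · exact integral_nonneg_of_ae ((hae y hy).mono fun t ht => ht.2.1)
  · refine (le_abs_self _).trans ((Real.norm_eq_abs _).symm.trans_le ?_)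
    exact norm_integral_le_of_norm_le_const ((hae y hy).mono fun t ht => by
      rw [Real.norm_eq_abs, abs_of_nonneg ht.2.1]; exact ht.2.2)

open Pattern.Signed (An tn jn idx wt alf RT Lb En Rn jn_abs jn_small alf_pos alf_sq idx_close measurable_idx sum_wt sum_wt_le)

variable {δ : ℝ} {n : ℕ}

/-- the discretised integral of a bounded Lipschitz function -/
lemma disc_close (h : Carried ρ A) (hδ : 0 < δ) {f : ℝ → ℝ} (hf : Measurable f) {C K : ℝ} (hK : 0 ≤ K)
    (hb : ∀ t, |t| ≤ max A δ → |f t| ≤ C)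
    (hl : ∀ t t', |t| ≤ max A δ → |t'| ≤ max A δ → |f t - f t'| ≤ K * |t - t'|) :
    |∑ i, wt ρ A δ n i * f (jn ρ A δ n i) - ∫ t, f t ∂ρ| ≤
      (K * (2 * max A δ + 2 * δ) * ρ.real Set.univ + C) / ((n:ℝ) + 1) := by
  have := h.finite
  have hn : (0:ℝ) < (n:ℝ) + 1 := by positivity
  have hmem : ∀ᵐ x ∂ρ, |x| ≤ max A δ := h.mem.mono fun x hx => (abs_le.2 hx).trans (le_max_left _ _)
  have i1 : Integrable (fun x => f (jn ρ A δ n (idx A δ n x))) ρ :=
    Integrable.of_bound ((measurable_of_countable fun i => f (jn ρ A δ n i)).comp measurable_idx).aestronglyMeasurable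
      C (.of_forall fun x => (Real.norm_eq_abs _).trans_le (hb _ (jn_abs h hδ _)))
  have i2 : Integrable f ρ := Integrable.of_bound hf.aestronglyMeasurable C
    (hmem.mono fun x hx => (Real.norm_eq_abs _).trans_le (hb _ hx))
  rw [sum_wt, add_sub_right_comm, ← integral_sub i1 i2]
  refine (abs_add_le _ _).trans (le_trans (add_le_add ?_ ?_) (add_div _ _ _).ge)
  · rw [← Real.norm_eq_abs]
    refine (norm_integral_le_of_norm_le_const (C := K * ((2 * max A δ + 2 * δ) / ((n:ℝ) + 1)))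
      (h.ae_top.mono fun x hx => ?_)).trans (le_of_eq (by ring))
    rw [Real.norm_eq_abs]
    refine (hl _ _ (jn_abs h hδ _) ((abs_le.2 ⟨hx.1, hx.2.trans h.top_le⟩).trans (le_max_left _ _))).trans ?_
    exact mul_le_mul_of_nonneg_left (idx_close hδ hx h) hK
  · rw [abs_mul, abs_of_pos (by positivity : (0:ℝ) < 1 / ((n:ℝ) + 1) ^ 2)]
    refine (mul_le_mul_of_nonneg_left ((abs_sum_le_sum_abs _ _).trans
      (sum_le_card_nsmul _ _ C fun i _ => hb _ (jn_abs h hδ i))) (by positivity)).trans (le_of_eq ?_)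
    rw [card_univ, Fintype.card_fin, nsmul_eq_mul]
    push_cast
    field_simp

lemma carried_disc (h : Carried ρ A) (hδ : 0 < δ) : Carried (jumpMeas (jn ρ A δ n) (alf ρ A δ n)) (max A δ) := by
  refine ⟨(carried _ _).finite, le_trans hδ.le (le_max_right _ _), ?_⟩
  rw [ae_iff]
  simp only [jumpMeas, Measure.coe_finsetSum, Finset.sum_apply, Measure.smul_apply]
  refine sum_eq_zero fun j _ => ?_
  have hnot : jn ρ A δ n j ∉ {x | ¬x ∈ Set.Icc (-max A δ) (max A δ)} := fun hh =>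
    hh (abs_le.1 (jn_abs h hδ j))
  rw [Measure.dirac_apply, Set.indicator_of_notMem hnot, smul_zero]

lemma integral_disc (hδ : 0 < δ) (f : ℝ → ℝ) :
    ∫ t, f t ∂jumpMeas (jn ρ A δ n) (alf ρ A δ n) = ∑ i, wt ρ A δ n i * f (jn ρ A δ n i) := by
  simp only [jumpMeas]
  rw [integral_finsetSum_measure fun j _ =>
    (integrable_dirac (by finiteness)).smul_measure ENNReal.ofReal_ne_top]
  simp only [integral_smul_measure, integral_dirac, smul_eq_mul, alf_sq hδ,
    fun i => ENNReal.toReal_ofReal (Pattern.Signed.wt_pos (ρ := ρ) (A := A) (δ := δ) (n := n) i).le]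

lemma univ_disc (h : Carried ρ A) (hδ : 0 < δ) :
    (jumpMeas (jn ρ A δ n) (alf ρ A δ n)).real Set.univ ≤ RT ρ := by
  have := h.finite
  have e := integral_disc (ρ := ρ) (A := A) (n := n) hδ fun _ => (1:ℝ)
  simp only [integral_const, smul_eq_mul, mul_one] at e
  rw [e]
  exact sum_wt_le

/-- **the limits of the discretisations tend to the variational value** -/
theorem disc_tendsto (h : Carried ρ A) (γ : ℝ) (hβ : 0 ≤ β) (hδ : 0 < δ) (hB : β * max A δ ≤ 1 / 10) :
    Tendsto (fun n : ℕ => sInf (qValues (alf ρ A δ n) fun j => β * jn ρ A δ n j) + β * Pattern.Signed.shift γ ρ A δ n / 2)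
      atTop (𝓝 (parisiR β γ ρ)) := by
  have := h.finite
  have hA : β * A ≤ 1 / 10 := (mul_le_mul_of_nonneg_left (le_max_left _ _) hβ).trans hB
  set Λ := |γ| + 2 * (β + 1) * RT ρ
  obtain ⟨K, hK, hclose⟩ := valF_close hβ Λ
  obtain ⟨K', hbdd⟩ := valF_bdd hβ Λ
  set D := (5 * (β + 1) ^ 2 * (2 * max A δ + 2 * δ) * ρ.real Set.univ + 2 * (β + 1))
  have hR : ρ.real Set.univ ≤ RT ρ := by unfold Pattern.Signed.RT; linarith
  have hR0 : 0 ≤ RT ρ := measureReal_nonneg.trans hR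
  have hB0 : 0 ≤ 2 * max A δ + 2 * δ := by have := h.nonneg; positivity
  -- bounds shared by the law and its discretisations
  have facts : ∀ (ρ' : Measure ℝ) (A' : ℝ), Carried ρ' A' → β * A' ≤ 1 / 10 → ρ'.real Set.univ ≤ RT ρ →
      ContinuousOn (Rt γ ρ') (Set.Icc 0 β) ∧ ContinuousOn (dRt ρ') (Set.Icc 0 β) ∧
        ∀ y ∈ Set.Icc 0 β, |Rt γ ρ' y| ≤ Λ ∧ 0 ≤ dRt ρ' y ∧ dRt ρ' y ≤ Λ := fun ρ' A' h' hA' hu => by
    obtain ⟨a, b, c⟩ := kernel_facts h' hA' γ
    refine ⟨a, b, fun y hy => ⟨(c y hy).1.trans ?_, (c y hy).2.1, (c y hy).2.2.trans ?_⟩⟩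
    · simp only [Λ]; nlinarith [measureReal_nonneg (μ := ρ') (s := Set.univ)]
    · simp only [Λ]; nlinarith [abs_nonneg γ, measureReal_nonneg (μ := ρ') (s := Set.univ)]
  obtain ⟨fc, fd, fb⟩ := facts ρ A h hA hR
  have hlow : BddBelow (rValues β γ ρ) := ⟨-K', by
    rintro v ⟨R, q, hR', hq, -, rfl⟩
    exact (abs_le.1 (hbdd _ _ fc fd fb R q hR' hq)).1⟩
  have main : ∀ n : ℕ, |sInf (qValues (alf ρ A δ n) fun j => β * jn ρ A δ n j) + β * Pattern.Signed.shift γ ρ A δ n / 2 -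
      parisiR β γ ρ| ≤ K * (D / ((n:ℝ) + 1)) := fun n => by
    obtain ⟨gc, gd, gb⟩ := facts _ _ (carried_disc (n := n) h hδ) hB (univ_disc h hδ)
    have hd : ∀ y ∈ Set.Icc 0 β,
        |Rt γ (jumpMeas (jn ρ A δ n) (alf ρ A δ n)) y - Rt γ ρ y| ≤ D / ((n:ℝ) + 1) ∧
        |dRt (jumpMeas (jn ρ A δ n) (alf ρ A δ n)) y - dRt ρ y| ≤ D / ((n:ℝ) + 1) := fun y hy => by
      have hn : (0:ℝ) < (n:ℝ) + 1 := by positivity
      have hsq : 2 * β ^ 2 ≤ 5 * (β + 1) ^ 2 ∧ 5 * β ≤ 5 * (β + 1) ^ 2 := ⟨by nlinarith, by nlinarith⟩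
      have hru : 0 ≤ (2 * max A δ + 2 * δ) * ρ.real Set.univ := mul_nonneg hB0 measureReal_nonneg
      constructor
      · rw [Rt, Rt, add_sub_add_left_eq_sub, integral_disc hδ]
        refine (disc_close h hδ (f := fun t => y / (1 - t * y)) (by fun_prop) (K := 2 * β ^ 2) (C := 2 * β)
          (by positivity) (fun t ht => (ker_bd hB ht hy).1)
          (fun t t' ht ht' => (ker_close hB ht ht' hy).1)).trans (div_le_div_of_nonneg_right ?_ hn.le)
        simp only [D]
        nlinarith [mul_le_mul_of_nonneg_right hsq.1 hru]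
      · rw [dRt, dRt, integral_disc hδ]
        refine (disc_close h hδ (f := fun t => 1 / (1 - t * y) ^ 2) (by fun_prop) (K := 5 * β) (C := 2)
          (by positivity) (fun t ht => by rw [abs_of_nonneg (ker_bd hB ht hy).2.1]; exact (ker_bd hB ht hy).2.2)
          (fun t t' ht ht' => (ker_close hB ht ht' hy).2)).trans (div_le_div_of_nonneg_right ?_ hn.le)
        simp only [D]
        nlinarith [mul_le_mul_of_nonneg_right hsq.2 hru]
    have hval : ∀ (R : ℕ) (q : ℕ → ℝ), 1 ≤ R → Prof R q 1 → q R = 1 →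
        |formQ (alf ρ A δ n) (fun j => β * jn ρ A δ n j) R q + β * Pattern.Signed.shift γ ρ A δ n / 2 - valR β γ ρ R q| ≤
          K * (D / ((n:ℝ) + 1)) := fun R q hR' hq h1 => by
      have e := valR_jump (a := jn ρ A δ n) (α := alf ρ A δ n) (alf_pos hδ) (Pattern.Signed.shift γ ρ A δ n) (jn_small h hδ hβ hB) hq h1
      rw [show Pattern.Signed.shift γ ρ A δ n + ∑ j, alf ρ A δ n j * jn ρ A δ n j = γ by unfold Pattern.Signed.shift; ring] at e
      rw [show formQ (alf ρ A δ n) (fun j => β * jn ρ A δ n j) R q + β * Pattern.Signed.shift γ ρ A δ n / 2 =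
        valR β γ (jumpMeas (jn ρ A δ n) (alf ρ A δ n)) R q by linarith]
      exact hclose _ _ _ _ _ gc gd fc fd (fun y hy => ⟨(hd y hy).1, (hd y hy).2,
        ⟨(gb y hy).2.1, (gb y hy).2.2⟩, (fb y hy).2.1, (fb y hy).2.2⟩) R q hR' hq
    have hq0 := qValues_bddBelow (jn_small (n := n) h hδ hβ hB) fun j => (alf_pos (ρ := ρ) (A := A) hδ j).le
    have hne : (rValues β γ ρ).Nonempty :=
      ⟨_, 1, fun _ => 1, le_rfl, ⟨zero_le_one, fun _ _ => le_rfl, le_rfl⟩, rfl, rfl⟩
    rw [abs_le]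
    constructor
    · have := le_csInf (qValues_nonempty _ _) (a := parisiR β γ ρ - K * (D / ((n:ℝ) + 1)) - β * Pattern.Signed.shift γ ρ A δ n / 2)
        (s := qValues (alf ρ A δ n) fun j => β * jn ρ A δ n j) (by
        rintro v ⟨R, q, hR', hq, h1, rfl⟩
        have h2 : parisiR β γ ρ ≤ valR β γ ρ R q := csInf_le hlow ⟨R, q, hR', hq, h1, rfl⟩
        linarith [(abs_le.1 (hval R q hR' hq h1)).1])
      linarith
    · have : sInf (qValues (alf ρ A δ n) fun j => β * jn ρ A δ n j) + β * Pattern.Signed.shift γ ρ A δ n / 2 -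
          K * (D / ((n:ℝ) + 1)) ≤ parisiR β γ ρ := le_csInf hne (by
        rintro v ⟨R, q, hR', hq, h1, rfl⟩
        have h2 : sInf (qValues (alf ρ A δ n) fun j => β * jn ρ A δ n j) ≤ _ :=
          csInf_le hq0 ⟨R, q, hR', hq, h1, rfl⟩
        linarith [(abs_le.1 (hval R q hR' hq h1)).2])
      linarith
  have hz : Tendsto (fun n : ℕ => K * (D / ((n:ℝ) + 1))) atTop (𝓝 0) := by
    simpa using (tendsto_const_nhds.div_atTop
      (tendsto_atTop_add_const_right _ 1 tendsto_natCast_atTop_atTop) : Tendsto (fun n : ℕ => D / ((n:ℝ) + 1)) atTop (𝓝 0)).const_mul K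
  exact tendsto_iff_norm_sub_tendsto_zero.2 (squeeze_zero (fun _ => norm_nonneg _)
    (fun n => (Real.norm_eq_abs _).trans_le (main n)) hz)

/-- **the Parisi formula for free infinitely divisible laws**: for every law with kernel
`γ + ∫ y/(1 - t y) dρ`, at every `β` with `|β t| ≤ 1/10` almost everywhere, the pressure tends in
probability to `parisiR β γ ρ` -/
theorem free_id_formula (γ : ℝ) (h : Carried ρ A) :
    ∃ μ : Measure ℝ, IsProbabilityMeasure μ ∧ IsCompact μ.support ∧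
      (∀ᶠ w in atTop, 0 < cauchy μ w ∧ w = 1 / cauchy μ w + Rk γ ρ (cauchy μ w)) ∧
      (∃ lam, Admissible μ lam) ∧
      ∀ β : ℝ, 0 ≤ β → (∀ᵐ x ∂ρ, |β * x| ≤ 1 / 10) → ∀ lam : ∀ N : ℕ, Fin N → ℝ, Admissible μ lam →
        ∀ ν : ∀ N : ℕ, Measure (Mat N), (∀ N, IsHaarOrthogonal (ν N)) → ∀ ε : ℝ, 0 < ε →
          Tendsto (fun N : ℕ => (ν N).real {U | ε ≤ |pressure β (lam N) U - parisiR β γ ρ|}) atTop (𝓝 0) := by
  obtain ⟨μ, hμ, hμc, heq, hadm, hlim⟩ := Pattern.Signed.limit_free_id_at γ h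
  refine ⟨μ, hμ, hμc, heq, hadm, fun β hβ hβρ => ?_⟩
  obtain ⟨A', h', hA', hl⟩ := hlim β hβ hβρ
  set δ := min (1:ℝ) (1 / (10 * β + 1))
  have hδ : 0 < δ := lt_min one_pos (by positivity)
  have hδ1 : δ ≤ 1 := min_le_left _ _
  have hβB : β * max A' δ ≤ 1 / 10 := by
    rw [mul_max_of_nonneg _ _ hβ]
    refine max_le hA' ((mul_le_mul_of_nonneg_left (min_le_right _ _) hβ).trans ?_)
    rw [mul_one_div, div_le_iff₀ (by positivity)]
    linarith
  exact hl _ (Pattern.Signed.core_of h' γ hβ hδ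
    (P := fun n => sInf (qValues (alf ρ A' δ n) fun j => β * jn ρ A' δ n j) + β * Pattern.Signed.shift γ ρ A' δ n / 2)
    (fun n ν hν => Pattern.Signed.stage_at h' hδ hδ1 γ n hβ hβB
      (species_formula n.succ_pos (alf_pos hδ) (jn_small h' hδ hβ hβB)) ν hν)
    strictMono_id (by simpa using disc_tendsto h' γ hβ hδ hβB))

lemma rValues_ok (γ : ℝ) (h : Carried ρ A) (hβ : 0 ≤ β) (hρ : ∀ᵐ t ∂ρ, |β * t| ≤ 1 / 10) :
    (rValues β γ ρ).Nonempty ∧ BddBelow (rValues β γ ρ) := by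
  have := h.finite
  refine ⟨⟨_, 1, fun _ => 1, le_rfl, ⟨zero_le_one, fun _ _ => le_rfl, le_rfl⟩, rfl, rfl⟩, ?_⟩
  obtain ⟨A', h', hA'⟩ : ∃ A', Carried ρ A' ∧ β * A' ≤ 1 / 10 := by
    rcases eq_or_lt_of_le hβ with h0 | h0
    · exact ⟨A, h, by rw [← h0]; norm_num⟩
    · refine ⟨min A (1 / (10 * β)), ⟨h.finite, le_min h.nonneg (by positivity), ?_⟩, ?_⟩
      · filter_upwards [h.mem, hρ] with x hx hx'
        refine abs_le.1 (le_min (abs_le.2 hx) ?_)
        rw [abs_mul, abs_of_pos h0] at hx'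
        rw [le_div_iff₀ (by positivity)]
        linarith
      · refine (mul_le_mul_of_nonneg_left (min_le_right _ _) hβ).trans (le_of_eq ?_)
        field_simp
  obtain ⟨a, b, c⟩ := kernel_facts h' hA' γ
  set U := ρ.real Set.univ
  have hU : 0 ≤ U := measureReal_nonneg
  obtain ⟨K, hK⟩ := valF_bdd hβ (|γ| + 2 * (β + 1) * U)
  refine ⟨-K, ?_⟩
  rintro v ⟨R, q, hR, hq, -, rfl⟩
  refine (abs_le.1 (hK _ _ a b (fun y hy => ?_) R q hR hq)).1
  obtain ⟨c1, c2, c3⟩ := c y hy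
  exact ⟨c1.trans (by nlinarith), c2, c3.trans (by nlinarith [abs_nonneg γ])⟩

lemma law_of_compact {μ : Measure ℝ} (hp : IsProbabilityMeasure μ) (hc : IsCompact μ.support) {L : ℝ}
    (hL : |sInf μ.support| + |sSup μ.support| ≤ L) : Pattern.Multi.Law μ (-L) L :=
  ⟨hp, Filter.Eventually.mono Measure.support_mem_ae fun x hx => by
    have h1 := csInf_le hc.bddBelow hx
    have h2 := le_csSup hc.bddAbove hx
    constructor <;> linarith [neg_abs_le (sInf μ.support), le_abs_self (sSup μ.support),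
      abs_nonneg (sSup μ.support), abs_nonneg (sInf μ.support)]⟩

/-- the formula for every compact law with the given kernel -/
theorem free_id_formula_all (γ : ℝ) (h : Carried ρ A) {μ : Measure ℝ} (hp : IsProbabilityMeasure μ)
    (hc : IsCompact μ.support) (heq : ∀ᶠ w in atTop, w = 1 / cauchy μ w + Rk γ ρ (cauchy μ w))
    {β : ℝ} (hβ : 0 ≤ β) (hρ : ∀ᵐ t ∂ρ, |β * t| ≤ 1 / 10) {lam : ∀ N : ℕ, Fin N → ℝ} (hlam : Admissible μ lam)
    {ν : ∀ N : ℕ, Measure (Mat N)} (hν : ∀ N, IsHaarOrthogonal (ν N)) {ε : ℝ} (hε : 0 < ε) :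
    Tendsto (fun N : ℕ => (ν N).real {U | ε ≤ |pressure β (lam N) U - parisiR β γ ρ|}) atTop (𝓝 0) := by
  obtain ⟨μ', hp', hc', heq', -, hlim⟩ := free_id_formula γ h
  set L := max (|sInf μ.support| + |sSup μ.support|) (|sInf μ'.support| + |sSup μ'.support|)
  have h1 := law_of_compact hp hc (L := L) (le_max_left _ _)
  have h2 := law_of_compact hp' hc' (L := L) (le_max_right _ _)
  have he : μ = μ' := ext_of_forall_integral_eq_of_IsFiniteMeasure fun g =>
    Pattern.Multi.integral_unique h1 h2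
      (Pattern.Signed.cauchy_unique h γ h1 h2 heq (heq'.mono fun _ hw => hw.2)) g
  subst he
  exact hlim β hβ hρ lam hlam ν hν ε hε

end Vale.Agent.P166.Par.Multi
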