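import Vale.Agent.P166.Par.Multi.SiteInt
import Vale.Agent.P157.Par.SiteTotal

/-! The mean gain of one site, several species. -/

open MeasureTheory ProbabilityTheory Real Finset
open Vale.Agent.P150 (gauss dot)
open Vale.Agent.P168.MP (lin ET att nest Ok Valid valid_single ok_lin)
open Vale.Agent.P157.Lim (xv)
open Vale.Agent.P157.Par

namespace Vale.Agent.P166.Par.Multi

set_option linter.unusedSectionVars false

variable {s : ℕ} [NeZero s]
variable {Ω : Type} [Fintype Ω] [Nonempty Ω] {R N M : ℕ}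

/-- sum of the mean squares of the fields -/
noncomputable def usumV (P : Fam s) (k : Fin M → Fin s) (w₀ : List Ω → ℝ) (rd : List Ω → Fin N → Bool) (R : ℕ)
    (g : Fin M → Fin N → ℝ) : ℝ :=
  ∑ a, ET R (lin R) (wgV P k w₀ rd g) [(0, 0)] fun ps => uat rd g (ps.getD 0 []) a ^ 2

/-- the mean shrinking term -/
noncomputable def shrV (P : Fam s) (k : Fin M → Fin s) (w₀ : List Ω → ℝ) (rd : List Ω → Fin N → Bool) (R : ℕ)
    (g : Fin M → Fin N → ℝ) : ℝ :=
  ∑ a, ET R (lin R) (wgV P k w₀ rd g) [(0, 0)] fun ps =>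
    P.f2 (k a) (uat rd g (ps.getD 0 []) a) - uat rd g (ps.getD 0 []) a * P.f1 (k a) (uat rd g (ps.getD 0 []) a)

/-- the pointwise bounds of the shrinking term, per base system -/
lemma psi_boundsV (P : Fam s) (k : Fin M → Fin s) [NeZero N] {w₀ : List Ω → ℝ} (hw : ∀ p, 0 < w₀ p)
    (rd : List Ω → Fin N → Bool) (g : Fin M → Fin N → ℝ) {c t : ℝ} (hc : 0 ≤ c)
    (hct : c ^ 2 + t ^ 2 = 1) :
    t ^ 2 / 2 * shrV P k w₀ rd R g - t ^ 2 * t ^ 2 * P.D * (3 * usumV P k w₀ rd R g + 3 * M) ≤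
        ET R (lin R) (wgV P k w₀ rd g) [(0, 0)] (fun ps => ∑ a, (P.f (k a) (c * uat rd g (ps.getD 0 []) a) -
            P.f (k a) (uat rd g (ps.getD 0 []) a) + t ^ 2 / 2 * P.f2 (k a) (c * uat rd g (ps.getD 0 []) a))) ∧
      ET R (lin R) (wgV P k w₀ rd g) [(0, 0)] (fun ps => (∑ a, (P.f (k a) (c * uat rd g (ps.getD 0 []) a) -
            P.f (k a) (uat rd g (ps.getD 0 []) a) + t ^ 2 / 2 * P.f2 (k a) (c * uat rd g (ps.getD 0 []) a))) ^ 2) ≤
        2 * (t ^ 2 * t ^ 2 * P.D ^ 2) * M * (usumV P k w₀ rd R g + M) := by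
  set w := wgV P k w₀ rd g
  have hwp : ∀ p, 0 < w p := wgV_pos P k hw rd g
  set Ψ : List Ω → ℝ := fun p => ∑ a, (P.f (k a) (c * uat rd g p a) - P.f (k a) (uat rd g p a) + t ^ 2 / 2 * P.f2 (k a) (c * uat rd g p a))
  have hb := fun p a => (P.sm (k a)).shrink_term hc hct (uat rd g p a)
  have hU : usumV P k w₀ rd R g = ET R (lin R) w [(0, 0)] fun ps => ∑ a, uat rd g (ps.getD 0 []) a ^ 2 :=
    (Vale.Agent.P168.MP.ET_sum _ _ _).symm
  have hP : shrV P k w₀ rd R g = ET R (lin R) w [(0, 0)] fun ps => ∑ a,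
      (P.f2 (k a) (uat rd g (ps.getD 0 []) a) - uat rd g (ps.getD 0 []) a * P.f1 (k a) (uat rd g (ps.getD 0 []) a)) :=
    (Vale.Agent.P168.MP.ET_sum _ _ _).symm
  constructor
  · rw [hU, hP]
    refine le_trans (le_of_eq ?_) (Vale.Agent.P168.MP.ET_mono hwp (F := fun ps =>
      t ^ 2 / 2 * ∑ a, (P.f2 (k a) (uat rd g (ps.getD 0 []) a) -
        uat rd g (ps.getD 0 []) a * P.f1 (k a) (uat rd g (ps.getD 0 []) a)) -
      (t ^ 2 * t ^ 2 * P.D * 3 * (∑ a, uat rd g (ps.getD 0 []) a ^ 2) + t ^ 2 * t ^ 2 * P.D * 3 * M))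
      fun ps => ?_)
    · rw [Vale.Agent.P168.MP.ET_sub, Vale.Agent.P168.MP.ET_add, Vale.Agent.P168.MP.ET_const_mul,
        Vale.Agent.P168.MP.ET_const_mul, Vale.Agent.P168.MP.ET_const hwp]
      ring
    · have := sum_le_sum (s := univ) fun a _ => (abs_le.1 (hb (ps.getD 0 []) a).2).1
      simp only [sum_sub_distrib, ← mul_sum, sum_neg_distrib, sum_add_distrib, sum_const, card_univ,
        Fintype.card_fin, nsmul_eq_mul] at this ⊢
      linarith
  · rw [hU]
    refine (Vale.Agent.P168.MP.ET_mono hwp (G := fun ps => 2 * (t ^ 2 * t ^ 2 * P.D ^ 2) * M *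
      (∑ a, uat rd g (ps.getD 0 []) a ^ 2) + 2 * (t ^ 2 * t ^ 2 * P.D ^ 2) * M * M) fun ps => ?_).trans_eq ?_
    · have hcs := sq_sum_le_card_mul_sum_sq (s := (univ : Finset (Fin M)))
        (f := fun a => P.f (k a) (c * uat rd g (ps.getD 0 []) a) - P.f (k a) (uat rd g (ps.getD 0 []) a) +
          t ^ 2 / 2 * P.f2 (k a) (c * uat rd g (ps.getD 0 []) a))
      rw [card_univ, Fintype.card_fin] at hcs
      refine hcs.trans ((mul_le_mul_of_nonneg_left (sum_le_sum (g := fun a =>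
        t ^ 2 * t ^ 2 * P.D ^ 2 * (2 * uat rd g (ps.getD 0 []) a ^ 2 + 2)) fun a _ => ?_) (Nat.cast_nonneg M)).trans_eq ?_)
      · have h := pow_le_pow_left₀ (abs_nonneg _) (hb (ps.getD 0 []) a).1 2
        rw [sq_abs] at h
        refine h.trans ?_
        rw [mul_pow, mul_pow, ← sq (t ^ 2)]
        refine mul_le_mul_of_nonneg_left ?_ (by positivity)
        nlinarith [sq_abs (uat rd g (ps.getD 0 []) a), sq_nonneg (|uat rd g (ps.getD 0 []) a| - 1)]
      · simp only [← mul_sum, sum_add_distrib, sum_const, card_univ, Fintype.card_fin, nsmul_eq_mul]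
        ring
    · rw [Vale.Agent.P168.MP.ET_add, Vale.Agent.P168.MP.ET_const_mul, Vale.Agent.P168.MP.ET_const hwp]
      ring

lemma usum_propsV (P : Fam s) (k : Fin M → Fin s) (hR : 1 ≤ R) [NeZero N]
    {w₀ : List Ω → ℝ} (hw : ∀ p, 0 < w₀ p) (rd : List Ω → Fin N → Bool) :
    Integrable (usumV P k w₀ rd R : (Fin M → Fin N → ℝ) → ℝ) (pats N M) ∧
      ∫ g : Fin M → Fin N → ℝ, usumV P k w₀ rd R g ∂pats N M ≤ M * exp (2 * P.B) := by
  unfold usumV
  refine ⟨integrable_finsetSum _ fun a _ => (integral_usqV_le P k hR hw rd a).1, ?_⟩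
  rw [integral_finsetSum _ fun a _ => (integral_usqV_le P k hR hw rd a).1]
  exact (sum_le_sum fun a _ => (integral_usqV_le P k hR hw rd a).2).trans_eq (by simp)

lemma shr_propsV (P : Fam s) (k : Fin M → Fin s) (hR : 1 ≤ R) [NeZero N]
    {w₀ : List Ω → ℝ} (hw : ∀ p, 0 < w₀ p) (rd : List Ω → Fin N → Bool) :
    Integrable (shrV P k w₀ rd R : (Fin M → Fin N → ℝ) → ℝ) (pats N M) ∧
      Integrable (fun g : Fin M → Fin N → ℝ => ∑ a, ∑ l ∈ range (R + 1), coef R l *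
        ET R (lin R) (wgV P k w₀ rd g) [(0, l), (0, 0)] (fun ps => ovK rd (ps.getD 0 []) (ps.getD 1 []) *
          (P.f1 (k a) (uat rd g (ps.getD 0 []) a) * P.f1 (k a) (uat rd g (ps.getD 1 []) a)))) (pats N M) ∧
      ∫ g : Fin M → Fin N → ℝ, shrV P k w₀ rd R g ∂pats N M =
        -∫ g : Fin M → Fin N → ℝ, (∑ a, ∑ l ∈ range (R + 1), coef R l *
          ET R (lin R) (wgV P k w₀ rd g) [(0, l), (0, 0)] (fun ps => ovK rd (ps.getD 0 []) (ps.getD 1 []) *
            (P.f1 (k a) (uat rd g (ps.getD 0 []) a) * P.f1 (k a) (uat rd g (ps.getD 1 []) a)))) ∂pats N M := by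
  have hp : ∀ g : Fin M → Fin N → ℝ, ∀ p, 0 < wgV P k w₀ rd g p := fun g => wgV_pos P k hw rd g
  have hc := fun p => continuous_wgV (M := M) P k w₀ rd p
  have hD := P.nn
  have hl : ∀ a : Fin M, Integrable (fun g => ET R (lin R) (wgV P k w₀ rd g) [(0, 0)] fun ps =>
      P.f2 (k a) (uat rd g (ps.getD 0 []) a) - uat rd g (ps.getD 0 []) a * P.f1 (k a) (uat rd g (ps.getD 0 []) a))
      (pats N M) := fun a => by
    refine integrable_of_gsq (C := P.D) (C' := 2 * P.D) (continuous_ET hc hp R _ fun ps =>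
      ((P.sm (k a)).cont2.comp (continuous_uat rd _ a)).sub ((continuous_uat rd _ a).mul
        ((P.sm (k a)).cont1.comp (continuous_uat rd _ a)))) fun g => ?_
    refine Vale.Agent.P168.MP.ET_bound (hp g) fun ps => (abs_sub _ _).trans ?_
    have h1 := (P.sm (k a)).b2 (uat rd g (ps.getD 0 []) a)
    have h0 : |uat rd g (ps.getD 0 []) a| ≤ gsq g + 1 := by
      nlinarith [sq_abs (uat rd g (ps.getD 0 []) a), abs_nonneg (uat rd g (ps.getD 0 []) a),
        sq_uat_le rd g (ps.getD 0 []) a]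
    have h2 := mul_le_mul h0 ((P.sm (k a)).b1 (uat rd g (ps.getD 0 []) a)) (abs_nonneg _) ((abs_nonneg _).trans h0)
    rw [← abs_mul] at h2
    linarith
  have hr : ∀ a : Fin M, Integrable (fun g => ∑ l ∈ range (R + 1), coef R l *
      ET R (lin R) (wgV P k w₀ rd g) [(0, l), (0, 0)] fun ps => ovK rd (ps.getD 0 []) (ps.getD 1 []) *
        (P.f1 (k a) (uat rd g (ps.getD 0 []) a) * P.f1 (k a) (uat rd g (ps.getD 1 []) a))) (pats N M) := fun a =>
    integrable_finsetSum _ fun l _ => (integrable_of_gsq (C := 0) (C' := P.D * P.D) (continuous_ET hc hp R _ fun ps =>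
      continuous_const.mul (((P.sm (k a)).cont1.comp (continuous_uat rd _ a)).mul
        ((P.sm (k a)).cont1.comp (continuous_uat rd _ a)))) fun g => by
        refine Vale.Agent.P168.MP.ET_bound (hp g) fun ps => ?_
        simp only [Pi.mul_apply, Function.comp_apply]
        rw [abs_mul, abs_mul, zero_mul, zero_add]
        exact (mul_le_of_le_one_left (mul_nonneg (abs_nonneg _) (abs_nonneg _)) (abs_ov_le _ _)).trans
          (mul_le_mul ((P.sm (k a)).b1 _) ((P.sm (k a)).b1 _) (abs_nonneg _) hD)).const_mul _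
  unfold shrV
  refine ⟨integrable_finsetSum _ fun a _ => hl a, integrable_finsetSum _ fun a _ => hr a, ?_⟩
  rw [integral_finsetSum _ fun a _ => hl a, integral_finsetSum _ fun a _ => hr a, ← sum_neg_distrib]
  exact sum_congr rfl fun a _ => integral_ibpV P k hR hw rd a

lemma continuous_siteGV (P : Fam s) (k : Fin M → Fin s) (hR : 1 ≤ R)
    {w₀ : List Ω → ℝ} (hw : ∀ p, 0 < w₀ p) (rd : List Ω → Fin N → Bool) (c t : ℝ) :
    Continuous fun x : (Fin M → Fin N → ℝ) × (Fin M → ℝ) =>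
      log (nest (lin R) (wgV P k w₀ rd x.1) (siteYV P k c t rd x.1 x.2) R []) := by
  have hp : ∀ (x : (Fin M → Fin N → ℝ) × (Fin M → ℝ)) p, 0 < siteYV P k c t rd x.1 x.2 p := fun x p =>
    (exp_pos _).trans_le (siteYV_bounds P k c t rd x.1 x.2 p).1
  have hw' : ∀ (x : (Fin M → Fin N → ℝ) × (Fin M → ℝ)) p, 0 < wgV P k w₀ rd x.1 p := fun x p =>
    wgV_pos P k hw rd x.1 p
  exact (continuous_nest (m := lin R) (fun p => (continuous_wgV P k w₀ rd p).comp continuous_fst) hw'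
    (fun p => continuous_siteYV P k c t rd p) hp R []).log fun x =>
      (Vale.Agent.P168.MP.nest_pos (hw' x) (hp x) R []).ne'

/-- one site, at least one species -/
theorem site_total_pos (P : Fam s) (A : ℝ) : ∃ K : ℝ, 0 ≤ K ∧
    ∀ {Ω : Type} [Fintype Ω] [Nonempty Ω] {R N M : ℕ} [NeZero N], 1 ≤ R → 2 ≤ M →
      ∀ (k : Fin M → Fin s) {w₀ : List Ω → ℝ}, (∀ p, 0 < w₀ p) → ∀ (rd : List Ω → Fin N → Bool) {c t α θ θ' : ℝ},
      0 ≤ c → 0 < t → c ^ 2 + t ^ 2 = 1 → (M : ℝ) * t ^ 2 ≤ A → t ^ 2 * N ≤ 1 → 0 ≤ α → α ≤ A →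
      0 < θ → θ ≤ 1 → 0 < θ' →
      ∫ g : Fin M → Fin N → ℝ, EsG α (GbV P k R (qbV P k w₀ rd R g)) R (qbV P k w₀ rd R g) ∂pats N M -
          K * (θ + (θ' + (ADevV P k w₀ rd R + 1 / M) / θ' + |(M : ℝ) * t ^ 2 - α| + t) / θ) ≤
        ∫ g : Fin M → Fin N → ℝ, ∫ z, log (nest (lin R) (wgV P k w₀ rd g) (siteYV P k c t rd g z) R [])
          ∂gauss (Fin M) ∂pats N M := by
  obtain ⟨K1, hK1, hfix⟩ := site_fixedV P A
  obtain ⟨K2, hK2, hqc⟩ := qconc_sumV P
  obtain ⟨KE, hKE, hlip⟩ := esG_lip P.D A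
  obtain ⟨Kg, hKg, hgl⟩ := gbV_lip P
  refine ⟨3 * P.D * |A| * (exp (2 * P.B) + 1) + P.D ^ 2 + (|A| / 2 + K1) * (2 + K2) +
    K1 * (2 * P.D ^ 2 * (|A| * |A| * (exp (2 * P.B) + 1)) + 2 * |A| + 1), by
      have := P.nn; positivity, ?_⟩
  intro Ω _ _ R N M _ hR hM k w₀ hw rd c t α θ θ' hc ht hct hMt htN hα hαA hθ hθ1 hθ'
  have hD := P.nn
  have hMt' : (M : ℝ) * t ^ 2 ≤ |A| := hMt.trans (le_abs_self A)
  have ht1 : t ≤ 1 := by nlinarith [sq_nonneg c]
  set μ := pats N M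
  set dl := |(M : ℝ) * t ^ 2 - α|
  set q : (Fin M → Fin N → ℝ) → ℕ → ℝ := qbV P k w₀ rd R
  -- integrable pieces
  have hEs : Integrable (fun g => EsG α (GbV P k R (q g)) R (q g)) μ := by
    obtain ⟨h1, h2⟩ := cont_functional hR (K := KE * (Kg + 1)) (by positivity)
      (F := fun q => EsG α (GbV P k R q) R q)
      (fun q q' h h' => (hlip α R _ _ q q' hα hαA hR (gbV_prof P k hR h) (gbV_prof P k hR h') h h').trans (by
        rw [mul_assoc, add_mul, one_mul]
        exact mul_le_mul_of_nonneg_left (add_le_add ((hgl R q q' hR h h').1 k) le_rfl) hKE))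
      (fun g => (qbV_prof (R := R) P k hw rd g).1)
      (continuous_qbV P k hw rd)
    exact Integrable.of_bound h1.aestronglyMeasurable _ (Filter.Eventually.of_forall fun g =>
      (Real.norm_eq_abs _).trans_le (h2 g))
  obtain ⟨hAi, -⟩ := integrable_adev_of hR (μ := μ) (w := fun g => wgV P k w₀ rd g) (C := fun g => qKV P k rd g)
    (q := fun g => GbV P k R (q g)) fun l hl => integrable_qKVdev P k hR hw rd hl
  obtain ⟨hUi, hUe⟩ := usum_propsV (M := M) P k hR hw rd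
  obtain ⟨hPi, hTi, hPe⟩ := shr_propsV (M := M) P k hR hw rd
  obtain ⟨hgi, hge⟩ := integral_gsum_le (M := M) (N := N)
  set G : (Fin M → Fin N → ℝ) → ℝ := fun g =>
    ∫ z, log (nest (lin R) (wgV P k w₀ rd g) (siteYV P k c t rd g z) R []) ∂gauss (Fin M)
  have hGi : Integrable G μ := by
    have h : Integrable (fun x : (Fin M → Fin N → ℝ) × (Fin M → ℝ) =>
        log (nest (lin R) (wgV P k w₀ rd x.1) (siteYV P k c t rd x.1 x.2) R [])) (μ.prod (gauss (Fin M))) :=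
      Integrable.of_bound (continuous_siteGV P k hR hw rd c t).aestronglyMeasurable (2 * P.B * M)
        (Filter.Eventually.of_forall fun x => by
          rw [Real.norm_eq_abs]; exact abs_log_nest_siteYV P k hR (wgV_pos P k hw rd x.1) c t rd x.1 x.2)
    exact h.integral_prod_left
  -- per base system
  set SG : (Fin M → Fin N → ℝ) → ℝ := fun g =>
    α / 2 * ∑ l ∈ range (R + 1), coef R l * (GbV P k R (q g) l * q g l)
  set ADK : (Fin M → Fin N → ℝ) → ℝ := fun g => adev R (wgV P k w₀ rd g) (qKV P k rd g) (GbV P k R (q g))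
  set U : (Fin M → Fin N → ℝ) → ℝ := fun g => usumV P k w₀ rd R g
  set Ps : (Fin M → Fin N → ℝ) → ℝ := fun g => shrV P k w₀ rd R g
  set T2 : (Fin M → Fin N → ℝ) → ℝ := fun g => ∑ a, ∑ l ∈ range (R + 1), coef R l *
    ET R (lin R) (wgV P k w₀ rd g) [(0, l), (0, 0)] (fun ps => ovK rd (ps.getD 0 []) (ps.getD 1 []) *
      (P.f1 (k a) (uat rd g (ps.getD 0 []) a) * P.f1 (k a) (uat rd g (ps.getD 1 []) a)))
  have hpt : ∀ g, t ^ 2 / 2 * T2 g - |A| / 2 * ADK g - dl * P.D ^ 2 - SG g +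
      (EsG α (GbV P k R (q g)) R (q g) + SG g) + t ^ 2 / 2 * Ps g - 3 * P.D * (t ^ 2 * t ^ 2 * (U g + M)) -
      K1 * (θ * (2 * P.D ^ 2 * (t ^ 2 * t ^ 2 * M * (U g + M))) +
        (ADK g + dl + t ^ 2 * t ^ 2 * gsum g + t) / θ) ≤ G g := fun g => by
    obtain ⟨b1, b2⟩ := psi_boundsV (R := R) P k hw rd g hc hct
    have h := hfix hR k rd (wgV_pos P k hw rd g) g hc ht hct hMt hα hαA hθ hθ1 (qbV_prof P k hw rd g).1
    have hcc := corr_closeV P k hR hw rd g hα hMt'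
    have b2' := mul_le_mul_of_nonneg_left (mul_le_mul_of_nonneg_left b2 hθ.le) hK1
    have e : EsG α (GbV P k R (q g)) R (q g) + SG g = Phi cosh R (lin R) (fun l => α * GbV P k R (q g) l) := by
      simp only [SG, EsG]; ring
    rw [e]
    simp only [SG, ADK, U, Ps, T2, G, q, mul_add, dl] at *
    linarith
  have hSGi : Integrable SG μ := by
    obtain ⟨Kh, hKh, hl2⟩ := Phi_lip sm_logcosh (|A| * P.D ^ 2)
    have hcG : ∀ l ≤ R, Continuous fun g => GbV P k R (q g) l := fun l hl =>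
      (cont_functional (X := Fin M → Fin N → ℝ) hR (F := fun q => GbV P k R q l) (K := (R + 1 : ℝ) * Kg)
        (by positivity) (fun q q' hq hq' => by
          rw [mul_assoc]
          refine le_trans ?_ (mul_le_mul_of_nonneg_left ((hgl R q q' hR hq hq').1 k) (by positivity))
          set G := GbV P k R q
          set G' := GbV P k R q'
          have hd := dist1_nonneg R G G'
          have hR' : (0:ℝ) < R := by exact_mod_cast hR
          rcases Nat.lt_or_eq_of_le hl with h | rfl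
          · have := single_le_sum (f := fun j => |G j - G' j|) (fun j _ => abs_nonneg _) (mem_range.2 h)
            have h2 : (∑ j ∈ range R, |G j - G' j|) ≤ (R:ℝ) * dist1 R G G' := by
              rw [← div_le_iff₀' hR']; exact le_add_of_nonneg_right (abs_nonneg _)
            linarith
          · have : |G l - G' l| ≤ dist1 l G G' := le_add_of_nonneg_left (by positivity)
            nlinarith [mul_nonneg (Nat.cast_nonneg (α := ℝ) l) hd])
        (fun g => (qbV_prof P k hw rd g).1) (continuous_qbV P k hw rd)).1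
    refine Integrable.of_bound (Continuous.aestronglyMeasurable ?_) (α / 2 * ∑ l ∈ range (R + 1), |coef R l| * P.D ^ 2)
      (Filter.Eventually.of_forall fun g => ?_)
    · exact continuous_const.mul (continuous_finsetSum _ fun l hl => continuous_const.mul
        ((hcG l (by have := mem_range.1 hl; omega)).mul (continuous_qbV P k hw rd l)))
    · rw [Real.norm_eq_abs, abs_mul, abs_of_nonneg (by linarith : 0 ≤ α / 2)]
      refine mul_le_mul_of_nonneg_left ((abs_sum_le_sum_abs _ _).trans (sum_le_sum fun l hl => ?_)) (by linarith)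
      have hl' : l ≤ R := by have := mem_range.1 hl; omega
      have h1 := (gbV_prof P k hR (qbV_prof P k hw rd g).1).upper hl'
      have h2 := (qbV_prof (R := R) P k hw rd g).1.upper hl'
      rw [abs_mul, abs_mul, abs_of_nonneg h1.1, abs_of_nonneg h2.1]
      exact mul_le_mul_of_nonneg_left ((mul_le_of_le_one_right h1.1 h2.2).trans h1.2) (abs_nonneg _)
  -- integrate
  have i1 : Integrable (fun g => U g + M) μ := hUi.add (integrable_const _)
  have i2 : Integrable (fun g => t ^ 2 / 2 * T2 g - |A| / 2 * ADK g - dl * P.D ^ 2 - SG g +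
      (EsG α (GbV P k R (q g)) R (q g) + SG g) + t ^ 2 / 2 * Ps g - 3 * P.D * (t ^ 2 * t ^ 2 * (U g + M)) -
      K1 * (θ * (2 * P.D ^ 2 * (t ^ 2 * t ^ 2 * M * (U g + M))) +
        (ADK g + dl + t ^ 2 * t ^ 2 * gsum g + t) / θ)) μ := by
    fun_prop
  have hI := integral_mono i2 hGi hpt
  rw [integral_sub (by fun_prop) (by fun_prop), integral_sub (by fun_prop) (by fun_prop),
    integral_add (by fun_prop) (by fun_prop), integral_add (by fun_prop) (by fun_prop),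
    integral_sub (by fun_prop) (by fun_prop), integral_sub (by fun_prop) (by fun_prop),
    integral_sub (by fun_prop) (by fun_prop)] at hI
  have hc0 : ∀ x : ℝ, ∫ _g : Fin M → Fin N → ℝ, x ∂μ = x := fun x => by simp [μ]
  have hUM : ∫ g, U g + (M : ℝ) ∂μ = ∫ g, U g ∂μ + M := by rw [integral_add hUi (integrable_const _), hc0]
  have k1 : Integrable (fun g => ADK g + dl) μ := hAi.add (integrable_const dl)
  have k2 : Integrable (fun g => t ^ 2 * t ^ 2 * gsum g) μ := hgi.const_mul _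
  have k3 : Integrable (fun g => ADK g + dl + t ^ 2 * t ^ 2 * gsum g) μ := k1.add k2
  have k4 : Integrable (fun g => (ADK g + dl + t ^ 2 * t ^ 2 * gsum g + t) / θ) μ :=
    (k3.add (integrable_const t)).div_const θ
  have k5 : Integrable (fun g => θ * (2 * P.D ^ 2 * (t ^ 2 * t ^ 2 * M * (U g + M)))) μ :=
    ((i1.const_mul _).const_mul _).const_mul _
  have hlast : ∫ g, θ * (2 * P.D ^ 2 * (t ^ 2 * t ^ 2 * M * (U g + M))) +
      (ADK g + dl + t ^ 2 * t ^ 2 * gsum g + t) / θ ∂μ =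
      θ * (2 * P.D ^ 2 * (t ^ 2 * t ^ 2 * M * (∫ g, U g ∂μ + M))) +
        (∫ g, ADK g ∂μ + dl + t ^ 2 * t ^ 2 * ∫ g, gsum g ∂μ + t) / θ := by
    rw [integral_add k5 k4, integral_div, integral_add k3 (integrable_const t), integral_add k1 k2,
      integral_add hAi (integrable_const dl)]
    simp only [integral_const_mul, hUM, hc0]
  simp only [integral_const_mul, hc0, hUM, hlast, integral_add hEs hSGi] at hI
  have hQ : ∫ g, ADK g ∂μ ≤ 2 * θ' + K2 / θ' * (ADevV P k w₀ rd R + 1 / M) := hqc hR hM k hw rd hθ'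
  have hADv : 0 ≤ ADevV P k w₀ rd R + 1 / M := add_nonneg
    (integral_nonneg fun g => adev_nn (wgV_pos P k hw rd g)) (by positivity)
  have hM1 : (1:ℝ) ≤ M := by exact_mod_cast (show 1 ≤ M by omega)
  have e2 := exp_pos (2 * P.B)
  have hE : t ^ 2 * t ^ 2 * M * (∫ g, U g ∂μ + M) ≤ |A| * |A| * (exp (2 * P.B) + 1) :=
    calc t ^ 2 * t ^ 2 * M * (∫ g, U g ∂μ + M) ≤ t ^ 2 * t ^ 2 * M * (M * (exp (2 * P.B) + 1)) :=
          mul_le_mul_of_nonneg_left (by linarith [hUe]) (by positivity)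
      _ = ((M:ℝ) * t ^ 2) * ((M:ℝ) * t ^ 2) * (exp (2 * P.B) + 1) := by ring
      _ ≤ _ := by gcongr
  have hU : t ^ 2 * t ^ 2 * (∫ g, U g ∂μ + M) ≤ t * (|A| * (exp (2 * P.B) + 1)) :=
    calc t ^ 2 * t ^ 2 * (∫ g, U g ∂μ + M) ≤ t ^ 2 * t ^ 2 * (M * (exp (2 * P.B) + 1)) :=
          mul_le_mul_of_nonneg_left (by linarith [hUe]) (by positivity)
      _ = t * t * (((M:ℝ) * t ^ 2) * (exp (2 * P.B) + 1)) := by ring
      _ ≤ t * 1 * (|A| * (exp (2 * P.B) + 1)) := by gcongr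
      _ = _ := by ring
  have hGs : t ^ 2 * t ^ 2 * ∫ g, gsum g ∂μ ≤ t * (2 * |A|) := by
    have hs : t * √(N : ℝ) ≤ 1 := by
      rw [← Real.sqrt_sq ht.le, ← Real.sqrt_mul (sq_nonneg t), Real.sqrt_le_one]
      exact htN
    calc t ^ 2 * t ^ 2 * ∫ g, gsum g ∂μ ≤ t ^ 2 * t ^ 2 * (2 * (M * √(N : ℝ))) :=
          mul_le_mul_of_nonneg_left hge (by positivity)
      _ = t * (t * √(N : ℝ)) * (2 * ((M:ℝ) * t ^ 2)) := by ring
      _ ≤ t * 1 * (2 * |A|) := by gcongr
      _ = _ := by ring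
  refine total_arith (E := t ^ 2 * t ^ 2 * M * (∫ g, U g ∂μ + M)) (S := 0)
    (P := -(|A| / 2 * ∫ g, ADK g ∂μ) - dl * P.D ^ 2) (U := t ^ 2 * t ^ 2 * (∫ g, U g ∂μ + M))
    (Ph := ∫ g, EsG α (GbV P k R (q g)) R (q g) ∂μ) (Gs := t ^ 2 * t ^ 2 * ∫ g, gsum g ∂μ)
    (ADK := ∫ g, ADK g ∂μ) ?_ (by linarith) hU hE hGs hQ (abs_nonneg A) hD e2.le hK1 hK2 hθ hθ1
    hθ' ht.le (abs_nonneg _) hADv |>.trans_eq' ?_
  · simp only [T2, Ps, μ] at hI hPe ⊢
    rw [hPe] at hI
    linarith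
  · simp only [sub_zero, dl, q, μ]

/-- **one site, averaged over the base system** -/
theorem site_total {r : ℕ} (P : Fam r) (A : ℝ) : ∃ K : ℝ, 0 ≤ K ∧
    ∀ {Ω : Type} [Fintype Ω] [Nonempty Ω] {R N M : ℕ} [NeZero N], 1 ≤ R → 2 ≤ M →
      ∀ (k : Fin M → Fin r) {w₀ : List Ω → ℝ}, (∀ p, 0 < w₀ p) → ∀ (rd : List Ω → Fin N → Bool) {c t α θ θ' : ℝ},
      0 ≤ c → 0 < t → c ^ 2 + t ^ 2 = 1 → (M : ℝ) * t ^ 2 ≤ A → t ^ 2 * N ≤ 1 → 0 ≤ α → α ≤ A →
      0 < θ → θ ≤ 1 → 0 < θ' →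
      ∫ g : Fin M → Fin N → ℝ, EsG α (GbV P k R (qbV P k w₀ rd R g)) R (qbV P k w₀ rd R g) ∂pats N M -
          K * (θ + (θ' + (ADevV P k w₀ rd R + 1 / M) / θ' + |(M : ℝ) * t ^ 2 - α| + t) / θ) ≤
        ∫ g : Fin M → Fin N → ℝ, ∫ z, log (nest (lin R) (wgV P k w₀ rd g) (siteYV P k c t rd g z) R [])
          ∂gauss (Fin M) ∂pats N M := by
  rcases Nat.eq_zero_or_pos r with rfl | hr
  · refine ⟨0, le_rfl, ?_⟩
    intro Ω _ _ R N M _ _ hM k
    exact (k ⟨0, by omega⟩).elim0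
  · have : NeZero r := ⟨hr.ne'⟩
    exact site_total_pos P A

end Vale.Agent.P166.Par.Multi
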