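import Vale.Agent.P166.Par.Multi.Incr
import Vale.Agent.P166.Par.Multi.SiteTotal
import Vale.Agent.P157.Par.GridRep
import Vale.Agent.P157.Par.QConc

/-! The lower bound for several species: averaged increments. -/

open MeasureTheory ProbabilityTheory Finset Real Filter
open scoped Topology
open Vale.Agent.P168.MP (lin pw spinAt allBatch BIdx gu Batch growC gainCap logZ0 ok_lin)
open Vale.Agent.P157.Lim (xv wt)
open Vale.Agent.P157.Par

namespace Vale.Agent.P166.Par.Multi

set_option linter.unusedSectionVars false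

variable {s : ℕ} {p : Fin s → ℝ} {ι : Type} [Fintype ι] [DecidableEq ι] {N M R S : ℕ} [NeZero N]
  {β : ι → Batch} {h u : ι → ℝ}

/-- one more pattern raises the perturbed functional by at most `B` -/
lemma pertV_cons_le (P : Fam s) (hR : 1 ≤ R) (j : Fin s) (k : Fin M → Fin s) :
    pertV P R S β h u N (Fin.cons j k : Fin (M + 1) → Fin s) ≤ pertV P R S β h u N k + P.B := by
  have iL := integrable_logZ0_wV (P := P) (N := N) (κ := k) (S := S) (β := β) (h := h) (u := u) hR
  have iH := integrable_logZ0_wV (P := P) (N := N) (κ := (Fin.cons j k : Fin (M + 1) → Fin s)) (S := S) (β := β)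
    (h := h) (u := u) hR
  have e : ∫ g, (logZ0 R (lin R) (wV (N := N) P R S β h u k g) + P.B) ∂pats N M =
      (∫ g, logZ0 R (lin R) (wV (N := N) P R S β h u k g) ∂pats N M) + P.B := by
    rw [integral_add iL (integrable_const _), integral_const, probReal_univ, one_smul]
  rw [pertV, pertV, integral_pats_succ 0 iH, ← e]
  refine integral_mono (integrable_ins iH) (iL.add (integrable_const _)) fun g => ?_
  set w := wV (N := N) P R S β h u k g
  have hw : ∀ q, 0 < w q := wV_pos g
  have hb : ∀ y, logZ0 R (lin R) (wV (N := N) P R S β h u (Fin.cons j k : Fin (M + 1) → Fin s) (ins 0 y g)) ≤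
      logZ0 R (lin R) w + P.B := fun y => by
    have h1 := Vale.Agent.P168.MP.logZ0_mul (R := R) (m := lin R) hw
      (Y := fac (P.f j) (fun q => xv N (spinAt R q)) y) fun q => exp_pos _
    have h2 := (abs_le.1 (abs_log_nest_le (ok_lin hR hw) (b := P.B)
      fun q => fac_mem (P.sm j) (P.ub j) (fun q => xv N (spinAt R q)) y q)).2
    rw [wV_cons]
    show logZ0 R (lin R) (fun q => w q * fac (P.f j) (fun q => xv N (spinAt R q)) y q) ≤ _
    linarith
  show (∫ y, _ ∂Vale.Agent.P150.gauss (Fin N)) ≤ _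
  rcases Classical.em (Integrable (fun y => logZ0 R (lin R)
      (wV (N := N) P R S β h u (Fin.cons j k : Fin (M + 1) → Fin s) (ins 0 y g))) (Vale.Agent.P150.gauss (Fin N))) with hi | hi
  · exact (integral_mono hi (integrable_const _) hb).trans_eq (by simp)
  · exfalso
    refine hi (Integrable.of_bound ?_ (|logZ0 R (lin R) w| + P.B) (Eventually.of_forall fun y => ?_))
    · exact ((continuous_logZ0 continuous_wV wV_pos R).comp (continuous_ins g)).aestronglyMeasurable
    · have h1 := Vale.Agent.P168.MP.logZ0_mul (R := R) (m := lin R) hw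
        (Y := fac (P.f j) (fun q => xv N (spinAt R q)) y) fun q => exp_pos _
      have h2 := abs_log_nest_le (ok_lin hR hw) (b := P.B)
        fun q => fac_mem (P.sm j) (P.ub j) (fun q => xv N (spinAt R q)) y q
      rw [Real.norm_eq_abs, wV_cons]
      show |logZ0 R (lin R) (fun q => w q * fac (P.f j) (fun q => xv N (spinAt R q)) y q)| ≤ _
      rw [show logZ0 R (lin R) (fun q => w q * fac (P.f j) (fun q => xv N (spinAt R q)) y q) =
        logZ0 R (lin R) w + log (Vale.Agent.P168.MP.nest (lin R) w (fac (P.f j) (fun q => xv N (spinAt R q)) y) R [])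
        by linarith]
      exact (abs_add_le _ _).trans (by linarith)

/-- the perturbed functional is within a constant of `N` times the pressure -/
lemma pertV_le (P : Fam s) (hR : 1 ≤ R) (hh : ∀ j, |h j| ≤ 1) (hu : ∀ j, |u j| ≤ 1) (k : Fin M → Fin s) :
    pertV P R S β h u N k ≤ N * pressV P N k + gainCap S β := by
  have hN : (N:ℝ) ≠ 0 := Nat.cast_ne_zero.2 (NeZero.ne N)
  set L := fun g : Fin M → Fin N → ℝ => log (Vale.Agent.P168.MP.avg (hamV P k g))
  have hfree : N * pressV P N k = ∫ g, L g ∂pats N M := by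
    rw [pressV, mul_div_cancel₀ _ hN]
    refine integral_congr_ae (Eventually.of_forall fun g => ?_)
    simp only [L, Vale.Agent.P168.MP.avg, wt, Fintype.card_fun, Fintype.card_bool, Fintype.card_fin]
    rw [Finset.sum_div]
    refine congrArg log (sum_congr rfl fun σ _ => ?_)
    push_cast
    rw [div_pow, one_pow]
    ring
  have hbd : ∀ g, |logZ0 R (lin R) (wV (N := N) P R S β h u k g) - L g| ≤ gainCap S β := fun g => by
    rw [wV_eq_pw]
    exact Vale.Agent.P168.MP.abs_logZ0_pw_sub_le hR (hamV_pos P k g) hh hu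
  have hi := integrable_logZ0_wV (P := P) (N := N) (κ := k) (S := S) (β := β) (h := h) (u := u) hR
  have hLi : Integrable L (pats N M) := by
    refine (hi.norm.add (integrable_const (gainCap S β))).mono' ?_ (Eventually.of_forall fun g => ?_)
    · refine (Continuous.log ?_ fun g => (Vale.Agent.P168.MP.avg_pos (hamV_pos P k g)).ne').aestronglyMeasurable
      simp only [Vale.Agent.P168.MP.avg]
      exact (continuous_finsetSum _ fun σ _ => continuous_hamV P k σ).div_const _
    · have := abs_le.1 (hbd g)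
      simp only [Pi.add_apply, Real.norm_eq_abs]
      rw [abs_le]
      constructor <;> linarith [le_abs_self (logZ0 R (lin R) (wV (N := N) P R S β h u k g)),
        neg_abs_le (logZ0 R (lin R) (wV (N := N) P R S β h u k g))]
  rw [hfree, pertV, ← sub_le_iff_le_add', ← integral_sub hi hLi]
  refine (le_abs_self _).trans ?_
  simpa using norm_integral_le_of_norm_le_const (μ := pats N M)
    (f := fun g => logZ0 R (lin R) (wV (N := N) P R S β h u k g) - L g) (Eventually.of_forall hbd)

lemma pertB_succ_le (P : Fam s) (hp : Wts p) (hR : 1 ≤ R) :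
    pertB p P R S β h u N (M + 1) ≤ pertB p P R S β h u N M + P.B := by
  rw [pertB, pertB, lavg_head, ← lavg_const (M := M) hp P.B, ← lavg_add]
  refine lavg_mono hp fun k => (sum_le_sum fun j _ =>
    mul_le_mul_of_nonneg_left (pertV_cons_le P hR j k) (hp.nn j)).trans_eq ?_
  rw [← sum_mul, hp.one, one_mul]

lemma pertB_le (P : Fam s) (hp : Wts p) (hR : 1 ≤ R) (hh : ∀ j, |h j| ≤ 1) (hu : ∀ j, |u j| ≤ 1) :
    pertB p P R S β h u N M ≤ N * pressBar P p N M + gainCap S β := by
  rw [pertB, pressBar, ← lavg_const_mul, ← lavg_const (M := M) hp (gainCap S β), ← lavg_add]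
  exact lavg_mono hp fun k => pertV_le P hR hh hu k

/-- the interpolated perturbed functional stays within a constant of `N` times the pressure -/
lemma pertBI_near (P : Fam s) (hp : Wts p) (hR : 1 ≤ R) (hh : ∀ j, |h j| ≤ 1) (hu : ∀ j, |u j| ≤ 1)
    {x : ℝ} (hx : 0 ≤ x) :
    pertBI p P R S β h u N x ≤ N * pressBar P p N ⌊x⌋₊ + gainCap S β + |P.B| := by
  have h1 := pertB_succ_le (P := P) (N := N) (M := ⌊x⌋₊) (S := S) (β := β) (h := h) (u := u) hp hR
  have h2 := pertB_le (P := P) (N := N) (M := ⌊x⌋₊) (S := S) (β := β) hp hR hh hu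
  have hθ0 : 0 ≤ x - ⌊x⌋₊ := sub_nonneg.2 (Nat.floor_le hx)
  have hθ1 : x - ⌊x⌋₊ ≤ 1 := by linarith [Nat.lt_floor_add_one x]
  have h3 := mul_le_mul_of_nonneg_left (show pertB p P R S β h u N (⌊x⌋₊ + 1) - pertB p P R S β h u N ⌊x⌋₊ ≤ |P.B| by
    linarith [le_abs_self P.B]) hθ0
  have := mul_le_of_le_one_left (abs_nonneg P.B) hθ1
  unfold pertBI
  linarith

/-- **Lower bound** for several species -/
theorem lower_of_site (P : Fam s) (hp : Wts p) {α : ℝ} (hα : 0 < α) (hst : SiteBound P (α + 1)) {v : ℝ}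
    (hv : ∀ R q, 1 ≤ R → Prof R q 1 → q R = 1 → v ≤ Fmix α P p R (lin R) q) :
    ∀ ε > 0, ∀ᶠ N : ℕ in atTop, v - ε ≤ pressBar P p N ⌊α * N⌋₊ := by
  intro ε hε
  set δ := ε / 4
  have hδ : 0 < δ := by positivity
  obtain ⟨C, N₀, J, hC, hinc⟩ := increment P hp hα hst δ hδ
  obtain ⟨R₀, hR₀⟩ := grid_rep (show 0 < δ / (C * J + 1) by positivity)
  set R := max R₀ 2
  have hR2 : 2 ≤ R := le_max_right _ _
  have hR1 : 1 ≤ R := by omega
  obtain ⟨S, M, hp0', ub, -, hM, hp0, hp1, hub, hub1, hgrid⟩ := hR₀ R (le_max_left _ _)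
  have : NeZero M := ⟨hM.ne'⟩
  set β := allBatch R 2
  set G := BIdx R 2 → Fin M
  have hh : ∀ _j : BIdx R 2, |hp0'| ≤ 1 := fun _ => by rw [abs_of_pos hp0]; exact hp1
  have hu : ∀ (g : G) j, |gu ub M g j| ≤ 1 := fun g j => by
    obtain ⟨a, b⟩ := Vale.Agent.P168.MP.gu_mem hub g j
    rw [abs_of_pos a]; exact b.trans hub1
  have hcard : (0 : ℝ) < Fintype.card G := Vale.Agent.P168.MP.card_pos_real
  set T : ℕ → G → ℝ := fun n g =>
    pertBI p P R S β (fun _ => hp0') (gu ub M g) (n + 1) (α * ((n + 1 : ℕ) : ℝ))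
  set a : ℕ → ℝ := fun n => Vale.Agent.P168.MP.avg (T n)
  obtain ⟨n₁, hn₁⟩ := exists_nat_ge (growC R S β / δ)
  set m₀ := max N₀ n₁
  set c := v - 3 * δ
  have hstep : ∀ n, m₀ ≤ n → a n + c ≤ a (n + 1) := by
    intro n hn
    set I : ℕ → G → ℝ := fun i g =>
      ADb p P R S β (fun _ => hp0') (gu ub M g) (n + 1) (⌊α * (n + 1 : ℕ)⌋₊ + i)
    have hI : ∀ i, Vale.Agent.P168.MP.avg (I i) ≤ δ / (C * J + 1) := by
      intro i
      simp only [I, ADb, Vale.Agent.P168.MP.avg]
      rw [← lavg_sum, div_eq_inv_mul, ← lavg_const_mul]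
      refine (lavg_mono hp fun k => ?_).trans_eq (lavg_const hp _)
      simp only [ADV]
      rw [← integral_finsetSum _ fun (g : G) _ => integrable_adV (P := P) (κ := k) (h := fun _ => hp0') (u := gu ub M g) hR1,
        ← integral_const_mul]
      refine (integral_mono ((integrable_finsetSum _ fun (g : G) _ =>
        integrable_adV (P := P) (κ := k) (h := fun _ => hp0') (u := gu ub M g) hR1).const_mul _)
        (integrable_const (δ / (C * J + 1))) fun X => ?_).trans_eq (by simp)
      simp only [adV, qV, qbV, ← wV.eq_def, wV_eq_pw, ← div_eq_inv_mul]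
      exact hgrid (n + 1) (hamV P k X) fun σ => hamV_pos P k X σ
    have hg : ∀ g : G, v - δ - C * (∑ i ∈ range J, I i g) - δ ≤ T (n + 1) g - T n g := by
      intro g
      have h1 := hinc β (R := R) (S := S) (fun _ => hp0') (gu ub M g) hR2 hh (hu g) (n + 1)
        (by have := le_of_max_le_left hn; omega)
      have h2 : v ≤ meanFmix α p P R S β (fun _ => hp0') (gu ub M g) (n + 1) ⌊α * (n + 1 : ℕ)⌋₊ := by
        obtain ⟨KL, hKL, hL⟩ := phiLip_all P
        obtain ⟨KE, hKE, hE⟩ := em_facts P α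
        refine (lavg_const hp v).symm.trans_le (lavg_mono hp fun k => ?_)
        calc v = ∫ _X : Fin ⌊α * (n + 1 : ℕ)⌋₊ → Fin (n + 1) → ℝ, v ∂pats (n + 1) ⌊α * (n + 1 : ℕ)⌋₊ := by simp
          _ ≤ _ := integral_mono (integrable_const v) ?_ fun X => hv R _ hR1 (qV_prof X) (qV_top X)
        refine (((integrable_lipV (P := P) (N := n + 1) (κ := k) (S := S) (β := β) (h := fun _ => hp0') (u := gu ub M g)
            hR1 hKL fun q q' hq hq' => phim_lip P hp hL hR1 hq hq').const_mul α).add
          (integrable_lipV (P := P) (N := n + 1) (κ := k) (S := S) (β := β) (h := fun _ => hp0') (u := gu ub M g)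
            hR1 hKE (hE hp α R hα.le le_rfl hR1).1)).congr (Eventually.of_forall fun X => ?_)
        exact (fmix_site P p hR1 (qV_top X) α).symm
      have h3 : growC R S β / (((n + 1 : ℕ) : ℝ) + 1) ≤ δ := by
        rw [div_le_iff₀ (by positivity)]
        rw [div_le_iff₀ hδ] at hn₁
        have h4 : (n₁ : ℝ) ≤ n := by exact_mod_cast le_of_max_le_right hn
        have := mul_le_mul_of_nonneg_right h4 hδ.le
        push_cast
        linarith
      simp only [T, I] at h1 ⊢
      linarith
    have h5 := Vale.Agent.P168.MP.avg_le_avg hg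
    have h6 : C * ∑ i ∈ range J, Vale.Agent.P168.MP.avg (I i) ≤ δ := by
      refine (mul_le_mul_of_nonneg_left (Finset.sum_le_sum fun i _ => hI i) hC).trans ?_
      rw [Finset.sum_const, Finset.card_range, nsmul_eq_mul, ← mul_assoc, mul_div_left_comm]
      exact mul_le_of_le_one_right hδ.le ((div_le_one (by positivity)).2 (by linarith))
    simp only [a, Vale.Agent.P168.MP.avg, Finset.sum_sub_distrib, Finset.sum_const, Finset.card_univ,
      nsmul_eq_mul, ← Finset.mul_sum, ← Finset.sum_div, sub_div, mul_div_assoc] at h5 h6 ⊢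
    rw [Finset.sum_comm] at h5
    simp only [← mul_div_assoc, mul_div_cancel_left₀ _ hcard.ne'] at h5 h6 ⊢
    simp only [c] at *
    linarith
  have hlow : ∀ j : ℕ, a m₀ + j * c ≤ a (m₀ + j) := by
    intro j
    induction j with
    | zero => simp
    | succ j ih =>
      have := hstep (m₀ + j) (Nat.le_add_right _ _)
      rw [show m₀ + (j + 1) = m₀ + j + 1 by omega]
      push_cast
      linarith
  set D₀ := |a m₀| + ((m₀ : ℝ) + 1) * |c| + gainCap S β + |P.B|
  obtain ⟨n₂, hn₂⟩ := exists_nat_ge (D₀ / δ)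
  refine eventually_atTop.2 ⟨max (m₀ + 1) (n₂ + 1), fun n hn => ?_⟩
  obtain ⟨j, rfl⟩ : ∃ j, n = m₀ + j + 1 := ⟨n - m₀ - 1, by have := le_of_max_le_left hn; omega⟩
  have hup : a (m₀ + j) ≤ ((m₀ + j + 1 : ℕ) : ℝ) *
      pressBar P p (m₀ + j + 1) ⌊α * ((m₀ + j + 1 : ℕ) : ℝ)⌋₊ + gainCap S β + |P.B| := by
    refine (Vale.Agent.P168.MP.avg_le_avg fun g => pertBI_near P hp hR1 hh (hu g)
      (by positivity)).trans_eq ?_
    exact Vale.Agent.P168.MP.avg_const _
  have hn2 : (n₂ : ℝ) + 1 ≤ ((m₀ + j + 1 : ℕ) : ℝ) := by exact_mod_cast le_of_max_le_right hn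
  have hnj : ((m₀ + j + 1 : ℕ) : ℝ) = m₀ + j + 1 := by push_cast; ring
  set n := ((m₀ + j + 1 : ℕ) : ℝ) with hnn
  have hnpos : 0 < n := by linarith [Nat.cast_nonneg (α := ℝ) n₂]
  have hDn : D₀ ≤ n * δ := by
    rw [div_le_iff₀ hδ] at hn₂
    exact hn₂.trans (mul_le_mul_of_nonneg_right (by linarith) hδ.le)
  have hl := hlow j
  rw [show (j : ℝ) * c = n * c - ((m₀ : ℝ) + 1) * c by rw [hnj]; ring] at hl
  have := mul_le_mul_of_nonneg_left (le_abs_self c) (show 0 ≤ (m₀ : ℝ) + 1 by positivity)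
  have := neg_abs_le (a m₀)
  refine le_of_mul_le_mul_left ?_ hnpos
  simp only [D₀, c, δ] at *
  linarith

/-- the lower bound, with the one-site estimate supplied -/
theorem lower_of_le (P : Fam s) (hp : Wts p) {α : ℝ} (hα : 0 < α) {v : ℝ}
    (hv : ∀ R q, 1 ≤ R → Prof R q 1 → q R = 1 → v ≤ Fmix α P p R (lin R) q) :
    ∀ ε > 0, ∀ᶠ N : ℕ in atTop, v - ε ≤ pressBar P p N ⌊α * N⌋₊ :=
  lower_of_site P hp hα (site_total P _) hv

end Vale.Agent.P166.Par.Multi
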