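import Vale.Agent.P166.Par.Multi.Shift
import Vale.Agent.P157.Par.Grow

/-! One more site with species: the patterns get one more coordinate. -/

open MeasureTheory ProbabilityTheory Finset Real
open Vale.Agent.P150 (gauss dot)
open Vale.Agent.P168 (sg)
open Vale.Agent.P168.MP (lin logZ0 pw spinAt nest Batch growC gainCap avg gain1)
open Vale.Agent.P157.Lim (xv sgn)
open Vale.Agent.P157.Par

namespace Vale.Agent.P166.Par.Multi

set_option linter.unusedSectionVars false

variable {s N M : ℕ} [NeZero N] {ι : Type} [Fintype ι] [DecidableEq ι] {β : ι → Batch} {R S : ℕ}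
  {h u : ι → ℝ} {P : Fam s} {k : Fin M → Fin s}

lemma wV_eq_pw (P : Fam s) (k : Fin M → Fin s) (g : Fin M → Fin N → ℝ) :
    wV P R S β h u k g = pw (N := N) (S := S) (β := β) R (hamV P k g) h u :=
  funext fun _ => mul_comm _ _

lemma hamV_addC (P : Fam s) (k : Fin M → Fin s) (g : Fin M → Fin N → ℝ) (z : Fin M → ℝ)
    (τ : Fin (N + 1) → Bool) :
    hamV P k (addC g z) τ = hamV P k g (fun i => τ i.castSucc) *
      siteFV P k (√(N:ℝ) / √((N:ℝ) + 1)) (1 / √((N:ℝ) + 1)) g z (fun i => τ i.castSucc) (τ (Fin.last N)) := by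
  rw [hamV, hamV, siteFV, ← exp_add, ← Finset.sum_add_distrib]
  refine congrArg exp (Finset.sum_congr rfl fun a _ => ?_)
  rw [addC, dot_addC]
  ring

/-- **One more site**: the increment is the nested mean of the factor of the new spin -/
theorem pertV_grow (hR : 2 ≤ R)
    (hh : ∀ j, |h j| ≤ 1) (hu : ∀ j, |u j| ≤ 1) :
    |pertV P R S β h u (N + 1) k - pertV P R S β h u N k -
      ∫ g, ∫ z, log (nest (lin R) (wV (N := N) P R S β h u k g)
        (fun p => avg fun s => siteFV P k (√(N:ℝ) / √((N:ℝ) + 1)) (1 / √((N:ℝ) + 1)) g z (spinAt R p) s)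
        R []) ∂gauss (Fin M) ∂pats N M| ≤ growC R S β / ((N:ℝ) + 1) := by
  set c := √(N:ℝ) / √((N:ℝ) + 1)
  set t := 1 / √((N:ℝ) + 1)
  have hc0 : 0 ≤ growC R S β / ((N:ℝ) + 1) := by unfold growC; positivity
  have hs : ∀ (g : Fin M → Fin N → ℝ) z σ s, 0 < siteFV P k c t g z σ s := fun _ _ _ _ => exp_pos _
  set L := fun g : Fin M → Fin N → ℝ => logZ0 R (lin R) (wV (N := N) P R S β h u k g)
  set T := fun G : Fin M → Fin (N + 1) → ℝ =>
    logZ0 R (lin R) (wV (N := N + 1) P R S β h u k G)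
  set Y := fun (g : Fin M → Fin N → ℝ) (z : Fin M → ℝ) =>
    log (nest (lin R) (wV (N := N) P R S β h u k g)
        (fun p => avg fun s => siteFV P k c t g z (spinAt R p) s) R [])
  have key : ∀ g z, |T (addC g z) - (L g + Y g z)| ≤ growC R S β / ((N:ℝ) + 1) := fun g z => by
    have h1 := Vale.Agent.P168.MP.grow_bound (S := S) (β := β) hR (W := hamV P k g)
      (fun σ => hamV_pos P k g σ) (c := siteFV P k c t g z) (hs g z) hh hu
    rw [Vale.Agent.P168.MP.logZ0_pw_mul (fun σ => hamV_pos P k g σ)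
      fun σ => Vale.Agent.P168.MP.avg_pos (hs g z σ)] at h1
    simp only [T, L, Y, c, t, wV_eq_pw, funext (hamV_addC P k g z)] at h1 ⊢
    exact h1
  have hT : Integrable (fun p : (Fin M → Fin N → ℝ) × (Fin M → ℝ) => T (addC p.1 p.2))
      ((pats N M).prod (gauss (Fin M))) :=
    measurePreserving_addC.integrable_comp_of_integrable (integrable_logZ0_wV (by omega))
  have hL : Integrable (fun p : (Fin M → Fin N → ℝ) × (Fin M → ℝ) => L p.1)
      ((pats N M).prod (gauss (Fin M))) := (integrable_logZ0_wV (by omega)).comp_fst _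
  have hYc : Continuous fun p : (Fin M → Fin N → ℝ) × (Fin M → ℝ) => Y p.1 p.2 := by
    have hsc : ∀ σ s, Continuous fun p : (Fin M → Fin N → ℝ) × (Fin M → ℝ) => siteFV P k c t p.1 p.2 σ s :=
      fun σ s => by have := fun j => (P.sm j).cont0; unfold siteFV dot; fun_prop
    refine (continuous_nest (fun p => continuous_const.mul ((continuous_hamV P k _).comp continuous_fst))
      (fun x p => mul_pos (exp_pos _) (hamV_pos P k _ _))
      (fun p => ?_) (fun x p => Vale.Agent.P168.MP.avg_pos (hs _ _ _)) R []).log fun x => ?_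
    · exact (continuous_finsetSum _ fun s _ => hsc _ s).div_const _
    · exact (Vale.Agent.P168.MP.nest_pos (fun p => mul_pos (exp_pos _) (hamV_pos P k _ _))
        (fun p => Vale.Agent.P168.MP.avg_pos (hs _ _ _)) R []).ne'
  have hY : Integrable (fun p : (Fin M → Fin N → ℝ) × (Fin M → ℝ) => Y p.1 p.2)
      ((pats N M).prod (gauss (Fin M))) := by
    refine ((hT.sub hL).norm.add (integrable_const (growC R S β / ((N:ℝ) + 1)))).mono'
      hYc.aestronglyMeasurable (Filter.Eventually.of_forall fun p => ?_)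
    have := abs_le.1 (key p.1 p.2)
    simp only [Pi.add_apply, Pi.sub_apply, Real.norm_eq_abs]
    rw [abs_le]
    constructor <;> linarith [le_abs_self (T (addC p.1 p.2) - L p.1), neg_abs_le (T (addC p.1 p.2) - L p.1)]
  have e1 : pertV P R S β h u (N + 1) k = ∫ p, T (addC p.1 p.2) ∂(pats N M).prod (gauss (Fin M)) := by
    rw [pertV, ← measurePreserving_addC.map_eq, integral_map measurePreserving_addC.measurable.aemeasurable]
    exact (continuous_logZ0 continuous_wV wV_pos R).aestronglyMeasurable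
  have e2 : pertV P R S β h u N k = ∫ p, L p.1 ∂(pats N M).prod (gauss (Fin M)) := by
    rw [integral_fun_fst, probReal_univ, one_smul]; rfl
  have e3 : (∫ g, ∫ z, Y g z ∂gauss (Fin M) ∂pats N M) = ∫ p, Y p.1 p.2 ∂(pats N M).prod (gauss (Fin M)) :=
    (integral_prod (fun p : (Fin M → Fin N → ℝ) × (Fin M → ℝ) => Y p.1 p.2) hY).symm
  have e4 : ∫ p, (T (addC p.1 p.2) - L p.1 - Y p.1 p.2) ∂(pats N M).prod (gauss (Fin M)) =
      pertV P R S β h u (N + 1) k - pertV P R S β h u N k - ∫ g, ∫ z, Y g z ∂gauss (Fin M) ∂pats N M := by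
    rw [e1, e2, e3, ← integral_sub hT hL]
    exact integral_sub (f := fun p : (Fin M → Fin N → ℝ) × (Fin M → ℝ) => T (addC p.1 p.2) - L p.1)
      (g := fun p : (Fin M → Fin N → ℝ) × (Fin M → ℝ) => Y p.1 p.2) (hT.sub hL) hY
  rw [← e4, ← Real.norm_eq_abs]
  refine (norm_integral_le_of_norm_le_const (μ := (pats N M).prod (gauss (Fin M)))
    (Filter.Eventually.of_forall fun p => ?_)).trans_eq (by rw [probReal_univ, mul_one])
  rw [Real.norm_eq_abs, sub_sub]
  exact key p.1 p.2

end Vale.Agent.P166.Par.Multi
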