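import Vale.Agent.P166.Par.Multi.Site
import Vale.Agent.P157.Par.SiteInt

/-! Moments of the fields and integrability, several species. -/

open MeasureTheory ProbabilityTheory Real Finset
open Vale.Agent.P150 (gauss dot)
open Vale.Agent.P168.MP (lin ET att nest Ok Valid valid_single ok_lin)
open Vale.Agent.P157.Lim (xv)
open Vale.Agent.P157.Par

namespace Vale.Agent.P166.Par.Multi

set_option linter.unusedSectionVars false

variable {s : ℕ} [NeZero s]
variable {Ω : Type} [Fintype Ω] [Nonempty Ω] {R N M : ℕ}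

lemma wgV_ins (P : Fam s) (k : Fin (M + 1) → Fin s) (w₀ : List Ω → ℝ) (rd : List Ω → Fin N → Bool)
    (a : Fin (M + 1)) (y : Fin N → ℝ) (g : Fin M → Fin N → ℝ) :
    wgV P k w₀ rd (ins a y g) =
      fun p => wgV P (fun i => k (a.succAbove i)) w₀ rd g p * fac (P.f (k a)) (fun p => xv N (rd p)) y p := by
  funext p
  have hk : k = a.insertNth (k a) (fun i => k (a.succAbove i)) := by
    funext i
    rcases Fin.eq_self_or_eq_succAbove a i with rfl | ⟨i', rfl⟩ <;> simp
  conv_lhs => rw [hk]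
  rw [wgV, wgV, hamV_ins, fac, mul_assoc]

/-- the squares of the fields have bounded mean under the base system -/
lemma integral_usqV_le (P : Fam s) (k : Fin M → Fin s) (hR : 1 ≤ R) [NeZero N]
    {w₀ : List Ω → ℝ} (hw : ∀ p, 0 < w₀ p) (rd : List Ω → Fin N → Bool) (a : Fin M) :
    Integrable (fun g => ET R (lin R) (wgV P k w₀ rd g) [(0, 0)] fun ps => uat rd g (ps.getD 0 []) a ^ 2)
        (pats N M) ∧
      ∫ g, ET R (lin R) (wgV P k w₀ rd g) [(0, 0)] (fun ps => uat rd g (ps.getD 0 []) a ^ 2) ∂pats N M ≤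
        exp (2 * P.B) := by
  obtain ⟨M, rfl⟩ : ∃ M', M = M' + 1 := ⟨M - 1, by have := a.pos; omega⟩
  have hp : ∀ g : Fin (M + 1) → Fin N → ℝ, ∀ p, 0 < wgV P k w₀ rd g p := fun g => wgV_pos P k hw rd g
  have hi : Integrable (fun g => ET R (lin R) (wgV P k w₀ rd g) [(0, 0)]
      fun ps => uat rd g (ps.getD 0 []) a ^ 2) (pats N (M + 1)) := by
    refine integrable_of_gsq (C := 1) (C' := 0) (continuous_ET (fun p => continuous_wgV P k w₀ rd p) hp R _
      fun ps => (continuous_uat rd _ a).pow 2) fun g => ?_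
    refine Vale.Agent.P168.MP.ET_bound (hp g) fun ps => ?_
    rw [abs_of_nonneg (sq_nonneg _), one_mul, add_zero]
    exact sq_uat_le rd g _ a
  refine ⟨hi, ?_⟩
  rw [integral_pats_succ a hi]
  refine (integral_mono_of_nonneg (Filter.Eventually.of_forall fun g => integral_nonneg fun y =>
    Vale.Agent.P168.MP.ET_nonneg (hp _) fun ps => sq_nonneg _) (integrable_const (exp (2 * P.B)))
    (Filter.Eventually.of_forall fun g => ?_)).trans_eq (by simp)
  set k' : Fin M → Fin s := fun i => k (a.succAbove i)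
  have hw' : ∀ p, 0 < wgV P k' w₀ rd g p := wgV_pos P k' hw rd g
  obtain ⟨hI, hIe⟩ := integral_ET_one (μ := gauss (Fin N)) (R := R) (m := lin R) (w := wgV P k' w₀ rd g)
    (fun y p => dot (xv N (rd p)) y ^ 2 * exp (2 * P.B))
    fun p => (integral_dot_sq (xv N (rd p))).1.mul_const _
  refine (integral_mono_of_nonneg (Filter.Eventually.of_forall fun y =>
    Vale.Agent.P168.MP.ET_nonneg (hp _) fun ps => sq_nonneg _) hI (Filter.Eventually.of_forall fun y => ?_)).trans ?_
  · simp only [wgV_ins, uat_ins]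
    refine (ET_one_tilt hR hw' (exp_pos (-P.B)) (fun p => ?_) fun p => sq_nonneg (dot (xv N (rd p)) y)).trans
      (Vale.Agent.P168.MP.ET_mono hw' fun ps => mul_le_mul_of_nonneg_left ?_ (sq_nonneg _))
    · rw [fac]; exact exp_le_exp.2 ((P.sm (k a)).lb _)
    · rw [fac, div_le_iff₀ (exp_pos _), ← exp_add]
      exact exp_le_exp.2 (by linarith [P.ub (k a) (dot (xv N (rd (ps.getD 0 []))) y)])
  · rw [hIe]
    refine (Vale.Agent.P168.MP.ET_mono hw' (G := fun _ => exp (2 * P.B)) fun ps => ?_).trans_eq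
      (Vale.Agent.P168.MP.ET_const hw' _ _)
    rw [integral_mul_const, (integral_dot_sq _).2, Vale.Agent.P157.Lim.dot_xv (NeZero.pos N), one_mul]

/-- the mean of one shrinking term, by integration by parts in the pattern -/
lemma integral_ibpV (P : Fam s) (k : Fin M → Fin s) (hR : 1 ≤ R) [NeZero N] {w₀ : List Ω → ℝ}
    (hw : ∀ p, 0 < w₀ p) (rd : List Ω → Fin N → Bool) (a : Fin M) :
    ∫ g, ET R (lin R) (wgV P k w₀ rd g) [(0, 0)] (fun ps =>
        P.f2 (k a) (uat rd g (ps.getD 0 []) a) - uat rd g (ps.getD 0 []) a * P.f1 (k a) (uat rd g (ps.getD 0 []) a)) ∂pats N M =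
      -∫ g, (∑ l ∈ range (R + 1), coef R l * ET R (lin R) (wgV P k w₀ rd g) [(0, l), (0, 0)] fun ps =>
        ovK rd (ps.getD 0 []) (ps.getD 1 []) *
          (P.f1 (k a) (uat rd g (ps.getD 0 []) a) * P.f1 (k a) (uat rd g (ps.getD 1 []) a))) ∂pats N M := by
  obtain ⟨M, rfl⟩ : ∃ M', M = M' + 1 := ⟨M - 1, by have := a.pos; omega⟩
  have hD := P.nn
  have hp : ∀ g : Fin (M + 1) → Fin N → ℝ, ∀ p, 0 < wgV P k w₀ rd g p := fun g => wgV_pos P k hw rd g
  have hc := fun p => continuous_wgV (M := M + 1) P k w₀ rd p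
  have hu : ∀ (ps : List (List Ω)) (i : ℕ), Continuous fun g : Fin (M + 1) → Fin N → ℝ =>
      uat rd g (ps.getD i []) a := fun ps i => continuous_uat rd _ a
  have hl : Integrable (fun g => ET R (lin R) (wgV P k w₀ rd g) [(0, 0)] fun ps =>
      P.f2 (k a) (uat rd g (ps.getD 0 []) a) - uat rd g (ps.getD 0 []) a * P.f1 (k a) (uat rd g (ps.getD 0 []) a))
      (pats N (M + 1)) := by
    refine integrable_of_gsq (C := P.D) (C' := 2 * P.D) (continuous_ET hc hp R _ fun ps =>
      ((P.sm (k a)).cont2.comp (hu ps 0)).sub ((hu ps 0).mul ((P.sm (k a)).cont1.comp (hu ps 0)))) fun g => ?_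
    refine Vale.Agent.P168.MP.ET_bound (hp g) fun ps => (abs_sub _ _).trans ?_
    have h1 := (P.sm (k a)).b2 (uat rd g (ps.getD 0 []) a)
    have h2 : |uat rd g (ps.getD 0 []) a * P.f1 (k a) (uat rd g (ps.getD 0 []) a)| ≤ P.D * gsq g + P.D := by
      rw [abs_mul]
      have := sq_uat_le rd g (ps.getD 0 []) a
      have h0 : |uat rd g (ps.getD 0 []) a| ≤ gsq g + 1 := by
        nlinarith [sq_abs (uat rd g (ps.getD 0 []) a), abs_nonneg (uat rd g (ps.getD 0 []) a)]
      refine (mul_le_mul h0 ((P.sm (k a)).b1 _) (abs_nonneg _) ((abs_nonneg _).trans h0)).trans_eq ?_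
      ring
    linarith
  have hr : Integrable (fun g => ∑ l ∈ range (R + 1), coef R l * ET R (lin R) (wgV P k w₀ rd g) [(0, l), (0, 0)]
      fun ps => ovK rd (ps.getD 0 []) (ps.getD 1 []) *
        (P.f1 (k a) (uat rd g (ps.getD 0 []) a) * P.f1 (k a) (uat rd g (ps.getD 1 []) a))) (pats N (M + 1)) :=
    integrable_finsetSum _ fun l _ => (integrable_of_gsq (C := 0) (C' := P.D * P.D) (continuous_ET hc hp R _ fun ps =>
      continuous_const.mul (((P.sm (k a)).cont1.comp (hu ps 0)).mul ((P.sm (k a)).cont1.comp (hu ps 1)))) fun g => by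
        refine Vale.Agent.P168.MP.ET_bound (hp g) fun ps => ?_
        simp only [Pi.mul_apply, Function.comp_apply]
        rw [abs_mul, abs_mul, zero_mul, zero_add]
        exact (mul_le_of_le_one_left (mul_nonneg (abs_nonneg _) (abs_nonneg _)) (abs_ov_le _ _)).trans
          (mul_le_mul ((P.sm (k a)).b1 _) ((P.sm (k a)).b1 _) (abs_nonneg _) hD)).const_mul _
  rw [integral_pats_succ a hl, integral_pats_succ a hr, ← integral_neg]
  refine integral_congr_ae (Filter.Eventually.of_forall fun g => ?_)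
  set k' : Fin M → Fin s := fun i => k (a.succAbove i)
  set w := wgV P k' w₀ rd g
  have hw' : ∀ p, 0 < w p := wgV_pos P k' hw rd g
  set f := P.f (k a)
  set f1 := P.f1 (k a)
  set f2 := P.f2 (k a)
  set av : List Ω → Fin N → ℝ := fun p => xv N (rd p)
  have hcv : ∀ p p', cv av p p' = ovK rd p p' := fun p p' => ov_eq _ _
  have hpy : ∀ y p, 0 < w p * fac f av y p := fun y p => mul_pos (hw' p) (exp_pos _)
  have hcy : ∀ p, Continuous fun y => w p * fac f av y p := fun p => by
    unfold fac; exact continuous_const.mul (continuous_exp.comp ((P.sm (k a)).cont0.comp (continuous_dot_left _)))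
  have h2 : Integrable (fun y => ET R (lin R) (fun p => w p * fac f av y p) [(0, 0)]
      fun ps => f2 (dot (av (ps.getD 0 [])) y)) (gauss (Fin N)) :=
    Integrable.of_bound (continuous_ET hcy hpy R _ fun ps =>
      (P.sm (k a)).cont2.comp (continuous_dot_left _)).aestronglyMeasurable P.D
      (Filter.Eventually.of_forall fun y => by
        rw [Real.norm_eq_abs]; exact Vale.Agent.P168.MP.ET_bound (hpy y) fun ps => (P.sm (k a)).b2 _)
  have h3 : Integrable (fun y => ∑ l ∈ range (R + 1), coef R l * ET R (lin R) (fun p => w p * fac f av y p)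
      [(0, l), (0, 0)] fun ps => cv av (ps.getD 0 []) (ps.getD 1 []) *
        (f1 (dot (av (ps.getD 0 [])) y) * f1 (dot (av (ps.getD 1 [])) y))) (gauss (Fin N)) :=
    integrable_finsetSum _ fun l _ => (Integrable.of_bound (continuous_ET hcy hpy R _ fun ps =>
      continuous_const.mul (((P.sm (k a)).cont1.comp (continuous_dot_left _)).mul
        ((P.sm (k a)).cont1.comp (continuous_dot_left _)))).aestronglyMeasurable (P.D * P.D)
      (Filter.Eventually.of_forall fun y => by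
        rw [Real.norm_eq_abs]
        refine Vale.Agent.P168.MP.ET_bound (hpy y) fun ps => ?_
        simp only [Pi.mul_apply, Function.comp_apply]
        rw [abs_mul, abs_mul, hcv]
        exact (mul_le_of_le_one_left (mul_nonneg (abs_nonneg _) (abs_nonneg _)) (abs_ov_le _ _)).trans
          (mul_le_mul ((P.sm (k a)).b1 _) ((P.sm (k a)).b1 _) (abs_nonneg _) hD))).const_mul _
  have h4 : Integrable (fun y => ET R (lin R) (fun p => w p * fac f av y p) [(0, 0)]
      fun ps => f1 (dot (av (ps.getD 0 [])) y) * dot (av (ps.getD 0 [])) y) (gauss (Fin N)) := by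
    refine Vale.Agent.P150.integrable_of_bound (continuous_ET hcy hpy R _ fun ps =>
      ((P.sm (k a)).cont1.comp (continuous_dot_left _)).mul (continuous_dot_left _)) (C := P.D) (M := 1) fun y => ?_
    refine Vale.Agent.P168.MP.ET_bound (hpy y) fun ps => ?_
    rw [abs_mul, one_mul]
    refine mul_le_mul ((P.sm (k a)).b1 _) ?_ (abs_nonneg _) hD
    refine (Vale.Agent.P150.abs_dot_le (A := 1) (fun i => ?_) y).trans ?_
    · simp only [av, xv, abs_div, abs_of_nonneg (Real.sqrt_nonneg _)]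
      rw [show |Vale.Agent.P157.Lim.sgn (rd (ps.getD 0 []) i)| = 1 by
        unfold Vale.Agent.P157.Lim.sgn; split_ifs <;> simp]
      exact div_le_one_of_le₀ (Real.one_le_sqrt.2 (by exact_mod_cast NeZero.pos N)) (Real.sqrt_nonneg _)
    · linarith [add_one_le_exp (Vale.Agent.P150.l1 y)]
  have hib := ibp_value (f := f) (f1 := f1) (f2 := f2) (P.sm (k a)) hR hw' av
  have e1 : ∀ y, ET R (lin R) (fun p => w p * fac f av y p) [(0, 0)]
      (fun ps => cv av (ps.getD 0 []) (ps.getD 0 []) * f2 (dot (av (ps.getD 0 [])) y)) =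
      ET R (lin R) (fun p => w p * fac f av y p) [(0, 0)] fun ps => f2 (dot (av (ps.getD 0 [])) y) :=
    fun y => by simp only [hcv, ovK, ov_self, one_mul]
  have e2 : ∀ y, ((att R (lin R) [(0, 0)]).map fun c => c.2 * ET R (lin R) (fun p => w p * fac f av y p)
      [c.1, (0, 0)] fun ps => cv av (ps.getD 0 []) (ps.getD 1 []) *
        (f1 (dot (av (ps.getD 0 [])) y) * f1 (dot (av (ps.getD 1 [])) y))).sum =
      ∑ l ∈ range (R + 1), coef R l * ET R (lin R) (fun p => w p * fac f av y p) [(0, l), (0, 0)]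
        fun ps => cv av (ps.getD 0 []) (ps.getD 1 []) *
          (f1 (dot (av (ps.getD 0 [])) y) * f1 (dot (av (ps.getD 1 [])) y)) :=
    fun y => att_lin_sum hR _ (fun x => ET R (lin R) (fun p => w p * fac f av y p) [x, (0, 0)]
      fun ps => cv av (ps.getD 0 []) (ps.getD 1 []) *
        (f1 (dot (av (ps.getD 0 [])) y) * f1 (dot (av (ps.getD 1 [])) y))) fun l => rfl
  simp only [e1, e2] at hib
  rw [integral_add h2 h3] at hib
  have hL : ∀ y, ET R (lin R) (wgV P k w₀ rd (ins a y g)) [(0, 0)] (fun ps =>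
      f2 (uat rd (ins a y g) (ps.getD 0 []) a) -
        uat rd (ins a y g) (ps.getD 0 []) a * f1 (uat rd (ins a y g) (ps.getD 0 []) a)) =
      ET R (lin R) (fun p => w p * fac f av y p) [(0, 0)] (fun ps => f2 (dot (av (ps.getD 0 [])) y)) -
      ET R (lin R) (fun p => w p * fac f av y p) [(0, 0)]
        (fun ps => f1 (dot (av (ps.getD 0 [])) y) * dot (av (ps.getD 0 [])) y) := fun y => by
    rw [← Vale.Agent.P168.MP.ET_sub]
    simp only [wgV_ins, uat_ins, w, av, k', f, f1, f2, mul_comm (P.f1 (k a) _)]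
  have hRr : ∀ y, (∑ l ∈ range (R + 1), coef R l * ET R (lin R) (wgV P k w₀ rd (ins a y g)) [(0, l), (0, 0)]
      fun ps => ovK rd (ps.getD 0 []) (ps.getD 1 []) *
        (f1 (uat rd (ins a y g) (ps.getD 0 []) a) * f1 (uat rd (ins a y g) (ps.getD 1 []) a))) =
      ∑ l ∈ range (R + 1), coef R l * ET R (lin R) (fun p => w p * fac f av y p) [(0, l), (0, 0)]
        fun ps => cv av (ps.getD 0 []) (ps.getD 1 []) *
          (f1 (dot (av (ps.getD 0 [])) y) * f1 (dot (av (ps.getD 1 [])) y)) := fun y => by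
    simp only [wgV_ins, uat_ins, hcv]
    rfl
  simp only [hL, hRr]
  rw [integral_sub h2 h4, hib]
  ring

lemma qbV_prof (P : Fam s) (k : Fin M → Fin s) [NeZero N] {w₀ : List Ω → ℝ} (hw : ∀ p, 0 < w₀ p) (rd : List Ω → Fin N → Bool)
    (g : Fin M → Fin N → ℝ) : Prof R (qbV P k w₀ rd R g) 1 ∧ qbV P k w₀ rd R g R = 1 :=
  qlev_prof (wgV_pos P k hw rd g)

lemma continuous_qbV (P : Fam s) (k : Fin M → Fin s) {w₀ : List Ω → ℝ} (hw : ∀ p, 0 < w₀ p)
    (rd : List Ω → Fin N → Bool) (l : ℕ) :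
    Continuous fun g : Fin M → Fin N → ℝ => qbV P k w₀ rd R g l :=
  continuous_ET (fun p => continuous_wgV P k w₀ rd p) (wgV_pos P k hw rd) R [(0, l), (0, 0)]
    (F := fun _ ps => ovK rd (ps.getD 0 []) (ps.getD 1 [])) fun _ => continuous_const

lemma integrable_devV (P : Fam s) (k : Fin M → Fin s) [NeZero N] {w₀ : List Ω → ℝ} (hw : ∀ p, 0 < w₀ p)
    (rd : List Ω → Fin N → Bool) {C : (Fin M → Fin N → ℝ) → List Ω → List Ω → ℝ}
    (hC : ∀ p p', Continuous fun g => C g p p') {V W : ℝ} (hV : ∀ g p p', |C g p p'| ≤ V)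
    {q : (Fin M → Fin N → ℝ) → ℕ → ℝ} {l : ℕ} (hl : l ≤ R) (hq : Continuous fun g => q g l)
    (hW : ∀ g, |q g l| ≤ W) :
    Integrable (fun g => devOf R (wgV P k w₀ rd g) (C g) (q g) l) (pats N M) := by
  refine Integrable.of_bound (continuous_ET (fun p => continuous_wgV P k w₀ rd p) (wgV_pos P k hw rd) R _
    fun ps => ((hC _ _).sub hq).abs).aestronglyMeasurable (V + W) (Filter.Eventually.of_forall fun g => ?_)
  rw [Real.norm_eq_abs, abs_of_nonneg (devOf_nn (wgV_pos P k hw rd g) l)]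
  exact devOf_le (wgV_pos P k hw rd g) hl (hV g) (hW g)

lemma integrable_ovdevV (P : Fam s) (k : Fin M → Fin s) [NeZero N] {w₀ : List Ω → ℝ} (hw : ∀ p, 0 < w₀ p)
    (rd : List Ω → Fin N → Bool) {l : ℕ} (hl : l ≤ R) :
    Integrable (fun g : Fin M → Fin N → ℝ => devOf R (wgV P k w₀ rd g) (ovK rd) (qbV P k w₀ rd R g) l)
      (pats N M) :=
  integrable_devV P k hw rd (C := fun _ => ovK rd) (fun _ _ => continuous_const) (V := 1)
    (fun _ _ _ => abs_ov_le _ _) hl (continuous_qbV P k hw rd l) (W := 1) fun g => by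
      have := (qbV_prof P k hw rd g).1.upper hl
      rw [abs_le]; constructor <;> linarith

lemma integrable_qKVdev (P : Fam s) (k : Fin M → Fin s) [NeZero N] (hR : 1 ≤ R) {w₀ : List Ω → ℝ}
    (hw : ∀ p, 0 < w₀ p) (rd : List Ω → Fin N → Bool) {l : ℕ} (hl : l ≤ R) :
    Integrable (fun g : Fin M → Fin N → ℝ =>
      devOf R (wgV P k w₀ rd g) (qKV P k rd g) (GbV P k R (qbV P k w₀ rd R g)) l) (pats N M) := by
  obtain ⟨K, hK, hlip⟩ := gbV_lip P
  have hcont := cont_functional (X := Fin M → Fin N → ℝ) hR (F := fun q => GbV P k R q l)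
    (K := (R + 1 : ℝ) * K) (by positivity) (fun q q' hq hq' => by
      rw [mul_assoc]
      refine le_trans ?_ (mul_le_mul_of_nonneg_left ((hlip R q q' hR hq hq').1 k) (by positivity))
      set G := GbV P k R q
      set G' := GbV P k R q'
      have hd := dist1_nonneg R G G'
      have hR' : (0:ℝ) < R := by exact_mod_cast hR
      rcases Nat.lt_or_eq_of_le hl with h | rfl
      · have := single_le_sum (f := fun j => |G j - G' j|) (fun j _ => abs_nonneg _) (mem_range.2 h)
        have h2 : (∑ j ∈ range R, |G j - G' j|) ≤ (R:ℝ) * dist1 R G G' := by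
          rw [← div_le_iff₀' hR']; exact le_add_of_nonneg_right (abs_nonneg _)
        linarith
      · have : |G l - G' l| ≤ dist1 l G G' := le_add_of_nonneg_left (by positivity)
        nlinarith [mul_nonneg (Nat.cast_nonneg (α := ℝ) l) hd])
    (fun g => (qbV_prof P k hw rd g).1) (continuous_qbV P k hw rd)
  refine integrable_devV P k hw rd (C := fun g => qKV P k rd g) (fun p p' => ?_) (V := P.D ^ 2)
    (fun g p p' => abs_qKV_le P k rd g p p') hl hcont.1 (W := P.D ^ 2) fun g => ?_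
  · unfold qKV
    exact (continuous_finsetSum _ fun a _ => ((P.sm (k a)).cont1.comp (continuous_uat rd p a)).mul
      ((P.sm (k a)).cont1.comp (continuous_uat rd p' a))).div_const _
  · have := (gbV_prof P k hR (qbV_prof P k hw rd g).1).upper hl
    rw [abs_le]; constructor <;> linarith

/-- the mean deviation of the correlation of the derivatives -/
lemma qconc_sumV (P : Fam s) : ∃ K : ℝ, 0 ≤ K ∧
    ∀ {Ω : Type} [Fintype Ω] [Nonempty Ω] {R N M : ℕ} [NeZero N], 1 ≤ R → 2 ≤ M →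
      ∀ (k : Fin M → Fin s) {w₀ : List Ω → ℝ}, (∀ p, 0 < w₀ p) → ∀ (rd : List Ω → Fin N → Bool) {θ : ℝ}, 0 < θ →
      ∫ g, adev R (wgV P k w₀ rd g) (qKV P k rd g) (GbV P k R (qbV P k w₀ rd R g)) ∂pats N M ≤
        2 * θ + K / θ * (ADevV P k w₀ rd R + 1 / M) := by
  obtain ⟨K, hK, hq⟩ := qconcV P
  refine ⟨4 * K, by positivity, ?_⟩
  intro Ω _ _ R N M _ hR hM k w₀ hw rd θ hθ
  have hR' : (0:ℝ) < R := by exact_mod_cast hR
  set dq : ℕ → ℝ := fun l => ∫ g : Fin M → Fin N → ℝ,
    devOf R (wgV P k w₀ rd g) (qKV P k rd g) (GbV P k R (qbV P k w₀ rd R g)) l ∂pats N M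
  set dv : ℕ → ℝ := fun l => ∫ g : Fin M → Fin N → ℝ,
    devOf R (wgV P k w₀ rd g) (ovK rd) (qbV P k w₀ rd R g) l ∂pats N M
  set AD := ADevV P k w₀ rd R
  obtain ⟨hia, hae⟩ := integrable_adev_of hR (μ := pats N M) (w := fun g => wgV P k w₀ rd g)
    (C := fun _ => ovK rd) (q := fun g => qbV P k w₀ rd R g) fun l hl => integrable_ovdevV P k hw rd hl
  have hAD : AD = (∑ l ∈ range R, dv l) / R + dv R := hae
  have hl : ∀ l ≤ R, dq l ≤ θ + K / θ * (dv l + AD + 1 / M) := fun l hl => by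
    exact (hq hR hM k w₀ hw rd hθ hl).trans_eq (congrArg (fun x => θ + K / θ * (x + 1 / (M : ℝ)))
      (integral_add (integrable_ovdevV P k hw rd hl) hia))
  have hdv : ∀ l, 0 ≤ dv l := fun l => integral_nonneg fun g => devOf_nn (wgV_pos P k hw rd g) l
  have h1 : dv R ≤ AD := by
    rw [hAD]; exact le_add_of_nonneg_left (div_nonneg (sum_nonneg fun l _ => hdv l) hR'.le)
  rw [(integrable_adev_of hR fun l hl => integrable_qKVdev P k hR hw rd hl).2]
  show (∑ l ∈ range R, dq l) / R + dq R ≤ _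
  refine (add_le_add (div_le_div_of_nonneg_right (sum_le_sum fun l h => hl l (mem_range.1 h).le) hR'.le)
    (hl R le_rfl)).trans ?_
  rw [sum_add_distrib, ← mul_sum, sum_add_distrib, sum_add_distrib, sum_const, sum_const, sum_const,
    card_range, nsmul_eq_mul, nsmul_eq_mul, nsmul_eq_mul]
  have e : (R * θ + K / θ * (∑ l ∈ range R, dv l + R * AD + R * (1 / (M:ℝ)))) / R =
      θ + K / θ * ((∑ l ∈ range R, dv l) / R + AD + 1 / M) := by field_simp
  rw [e]
  have hk : 0 ≤ K / θ := div_nonneg hK hθ.le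
  have hM0 : 0 ≤ 1 / (M:ℝ) := by positivity
  have h2 := mul_le_mul_of_nonneg_left (show (∑ l ∈ range R, dv l) / R + AD + 1 / M + (dv R + AD + 1 / M) ≤
    4 * (AD + 1 / M) by linarith [hdv R]) hk
  rw [mul_add (K / θ)] at h2
  rw [show 4 * K / θ = 4 * (K / θ) by ring]
  linarith

/-- the correlation term of one profile against the correlation of the derivatives -/
lemma corr_closeV (P : Fam s) (k : Fin M → Fin s) (hR : 1 ≤ R) [NeZero N] {w₀ : List Ω → ℝ}
    (hw : ∀ p, 0 < w₀ p) (rd : List Ω → Fin N → Bool) (g : Fin M → Fin N → ℝ) {α t A : ℝ} (hα : 0 ≤ α)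
    (hA : (M : ℝ) * t ^ 2 ≤ A) :
    t ^ 2 / 2 * ∑ a, ∑ l ∈ range (R + 1), coef R l * ET R (lin R) (wgV P k w₀ rd g) [(0, l), (0, 0)]
        (fun ps => ovK rd (ps.getD 0 []) (ps.getD 1 []) *
          (P.f1 (k a) (uat rd g (ps.getD 0 []) a) * P.f1 (k a) (uat rd g (ps.getD 1 []) a))) ≤
      α / 2 * ∑ l ∈ range (R + 1), coef R l * (GbV P k R (qbV P k w₀ rd R g) l * qbV P k w₀ rd R g l) +
        |(M : ℝ) * t ^ 2 - α| * P.D ^ 2 +
        A / 2 * adev R (wgV P k w₀ rd g) (qKV P k rd g) (GbV P k R (qbV P k w₀ rd R g)) := by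
  set w := wgV P k w₀ rd g
  have hwp : ∀ p, 0 < w p := wgV_pos P k hw rd g
  obtain ⟨hq, -⟩ := qbV_prof (R := R) P k hw rd g
  set q := qbV P k w₀ rd R g
  set G := GbV P k R q
  have hR' : (0:ℝ) < R := by exact_mod_cast hR
  set T : ℕ → ℝ := fun l => ET R (lin R) w [(0, l), (0, 0)] fun ps =>
    ovK rd (ps.getD 0 []) (ps.getD 1 []) * qKV P k rd g (ps.getD 0 []) (ps.getD 1 [])
  have e : t ^ 2 / 2 * ∑ a, ∑ l ∈ range (R + 1), coef R l * ET R (lin R) w [(0, l), (0, 0)]
      (fun ps => ovK rd (ps.getD 0 []) (ps.getD 1 []) *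
        (P.f1 (k a) (uat rd g (ps.getD 0 []) a) * P.f1 (k a) (uat rd g (ps.getD 1 []) a))) =
      (M : ℝ) * t ^ 2 / 2 * ∑ l ∈ range (R + 1), coef R l * T l := by
    rw [sum_comm, mul_sum, mul_sum]
    refine sum_congr rfl fun l _ => ?_
    rw [← mul_sum, ← Vale.Agent.P168.MP.ET_sum]
    simp only [← mul_sum, ← mul_qKV, T]
    rw [show (fun ps : List (List Ω) => ovK rd (ps.getD 0 []) (ps.getD 1 []) *
        ((M : ℝ) * qKV P k rd g (ps.getD 0 []) (ps.getD 1 []))) = fun ps =>
        (M : ℝ) * (ovK rd (ps.getD 0 []) (ps.getD 1 []) * qKV P k rd g (ps.getD 0 []) (ps.getD 1 []))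
      from funext fun ps => by ring, Vale.Agent.P168.MP.ET_const_mul]
    ring
  have hT : ∀ l ≤ R, |T l - G l * q l| ≤ devOf R w (qKV P k rd g) G l := fun l hl => by
    have e2 : T l - G l * q l = ET R (lin R) w [(0, l), (0, 0)] fun ps =>
        ovK rd (ps.getD 0 []) (ps.getD 1 []) * (qKV P k rd g (ps.getD 0 []) (ps.getD 1 []) - G l) := by
      simp only [mul_sub, Vale.Agent.P168.MP.ET_sub, Vale.Agent.P168.MP.ET_mul_const, T]
      rw [mul_comm (G l)]
      rfl
    rw [e2]
    refine (Vale.Agent.P168.MP.ET_abs_le hwp _ _).trans (Vale.Agent.P168.MP.ET_mono hwp fun ps => ?_)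
    rw [abs_mul]
    exact mul_le_of_le_one_left (abs_nonneg _) (abs_ov_le _ _)
  have hGq : ∀ l ≤ R, |G l * q l| ≤ P.D ^ 2 := fun l hl => by
    have h1 := (gbV_prof P k hR hq).upper hl
    have h2 := hq.upper hl
    rw [abs_mul]
    exact (mul_le_of_le_one_right (abs_nonneg _) (abs_le.2 ⟨by linarith, h2.2⟩)).trans
      (abs_le.2 ⟨by linarith, h1.2⟩)
  have hsum : ∀ x : ℕ → ℝ, ∀ b : ℕ → ℝ, (∀ l ≤ R, |x l| ≤ b l) →
      |∑ l ∈ range (R + 1), coef R l * x l| ≤ (∑ l ∈ range R, b l) / R + b R := fun x b hb => by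
    rw [sum_range_succ, coef_top hR, one_mul]
    refine (abs_add_le _ _).trans (add_le_add ((abs_sum_le_sum_abs _ _).trans ?_) (hb R le_rfl))
    rw [sum_div]
    refine sum_le_sum fun l hl => ?_
    rw [coef_lt (mem_range.1 hl), abs_mul, abs_neg, abs_of_nonneg (by positivity), one_div_mul_eq_div]
    exact div_le_div_of_nonneg_right (hb l (mem_range.1 hl).le) hR'.le
  have h1 := hsum (fun l => T l - G l * q l) (fun l => devOf R w (qKV P k rd g) G l) hT
  have h2 := hsum (fun l => G l * q l) (fun _ => P.D ^ 2) hGq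
  rw [sum_const, card_range, nsmul_eq_mul, mul_div_cancel_left₀ _ hR'.ne'] at h2
  simp only [mul_sub, sum_sub_distrib] at h1
  set ST := ∑ l ∈ range (R + 1), coef R l * T l
  set SG := ∑ l ∈ range (R + 1), coef R l * (G l * q l)
  rw [e]
  have hAD : 0 ≤ adev R w (qKV P k rd g) G := adev_nn hwp
  have hm : 0 ≤ (M : ℝ) * t ^ 2 / 2 := by positivity
  have p1 := (mul_le_mul_of_nonneg_left ((abs_le.1 h1).2) hm).trans
    (mul_le_mul_of_nonneg_right (div_le_div_of_nonneg_right hA zero_le_two) hAD)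
  have p2 : ((M : ℝ) * t ^ 2 / 2 - α / 2) * SG ≤ |(M : ℝ) * t ^ 2 - α| * P.D ^ 2 := by
    refine (le_abs_self _).trans ?_
    rw [abs_mul, show (M : ℝ) * t ^ 2 / 2 - α / 2 = ((M : ℝ) * t ^ 2 - α) / 2 by ring, abs_div, abs_two]
    calc |(M : ℝ) * t ^ 2 - α| / 2 * |SG| ≤ |(M : ℝ) * t ^ 2 - α| / 2 * (P.D ^ 2 + P.D ^ 2) :=
          mul_le_mul_of_nonneg_left h2 (by positivity)
      _ = _ := by ring
  unfold adev
  linarith

end Vale.Agent.P166.Par.Multi
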