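import Vale.Agent.P166.Par.Multi.QConc
import Vale.Agent.P157.Par.Site

/-! One more site, several species: the gain of the new spin given the base system. -/

open MeasureTheory ProbabilityTheory Real Finset
open Vale.Agent.P150 (gauss dot)
open Vale.Agent.P168.MP (lin ET att nest Ok Valid valid_single ok_lin)
open Vale.Agent.P157.Lim (xv)
open Vale.Agent.P157.Par

namespace Vale.Agent.P166.Par.Multi

set_option linter.unusedSectionVars false

variable {s : ℕ} [NeZero s]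
variable {Ω : Type} [Fintype Ω] [Nonempty Ω] {R N M : ℕ}

lemma Fam.nn (P : Fam s) : 0 ≤ P.D := P.nonneg 0

lemma wgV_pos (P : Fam s) (k : Fin M → Fin s) {w₀ : List Ω → ℝ} (hw : ∀ p, 0 < w₀ p)
    (rd : List Ω → Fin N → Bool) (g : Fin M → Fin N → ℝ) (p : List Ω) : 0 < wgV P k w₀ rd g p :=
  mul_pos (hw p) (exp_pos _)

lemma continuous_wgV (P : Fam s) (k : Fin M → Fin s) (w₀ : List Ω → ℝ) (rd : List Ω → Fin N → Bool)
    (p : List Ω) : Continuous fun g : Fin M → Fin N → ℝ => wgV P k w₀ rd g p :=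
  (continuous_hamV P k _).const_mul _

lemma siteYV_eq (P : Fam s) (k : Fin M → Fin s) (c t : ℝ) (rd : List Ω → Fin N → Bool)
    (g : Fin M → Fin N → ℝ) (z : Fin M → ℝ) (p : List Ω) :
    siteYV P k c t rd g z p = Vale.Agent.P168.MP.avg fun b : Bool =>
      exp (∑ a, (P.f (k a) (c * uat rd g p a + t * Vale.Agent.P168.sg b * z a) - P.f (k a) (uat rd g p a))) := rfl

/-- coefficients of the field of the new spin -/
noncomputable def avecV (P : Fam s) (k : Fin M → Fin s) (c t : ℝ) (rd : List Ω → Fin N → Bool)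
    (g : Fin M → Fin N → ℝ) (p : List Ω) : Fin M → ℝ := fun a => t * P.f1 (k a) (c * uat rd g p a)

lemma abs_qKV_le (P : Fam s) (k : Fin M → Fin s) (rd : List Ω → Fin N → Bool) (g : Fin M → Fin N → ℝ)
    (p p' : List Ω) : |qKV P k rd g p p'| ≤ P.D ^ 2 := by
  have hD := P.nn
  unfold qKV
  rw [abs_div, Nat.abs_cast]
  refine div_le_of_le_mul₀ (Nat.cast_nonneg _) (sq_nonneg P.D) ((abs_sum_le_sum_abs _ _).trans ?_)
  refine (sum_le_sum (g := fun _ => P.D ^ 2) fun a _ => ?_).trans_eq (by simp [mul_comm])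
  rw [abs_mul, sq]
  exact mul_le_mul ((P.sm _).b1 _) ((P.sm _).b1 _) (abs_nonneg _) hD

lemma mul_qKV (P : Fam s) (k : Fin M → Fin s) (rd : List Ω → Fin N → Bool) (g : Fin M → Fin N → ℝ) (p p' : List Ω) :
    (M : ℝ) * qKV P k rd g p p' = ∑ a, P.f1 (k a) (uat rd g p a) * P.f1 (k a) (uat rd g p' a) := by
  rcases Nat.eq_zero_or_pos M with rfl | h
  · simp
  · unfold qKV; field_simp

/-- the covariance of the field of the new spin -/
lemma abs_cv_avecV (P : Fam s) (k : Fin M → Fin s) (rd : List Ω → Fin N → Bool) (g : Fin M → Fin N → ℝ)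
    {c t : ℝ} (hc : 0 ≤ c) (hct : c ^ 2 + t ^ 2 = 1) (p p' : List Ω) {α G : ℝ} (hα : 0 ≤ α) :
    |cv (avecV P k c t rd g) p p' - α * G| ≤
      α * |qKV P k rd g p p' - G| + (|(M : ℝ) * t ^ 2 - α| * P.D ^ 2 + t ^ 2 * t ^ 2 * (2 * P.D ^ 2) * gsum g) := by
  have hD := P.nn
  obtain ⟨h1, -⟩ := shrink hc hct
  have ha : ∀ a, |P.f1 (k a) (c * uat rd g p a) * P.f1 (k a) (c * uat rd g p' a) - P.f1 (k a) (uat rd g p a) * P.f1 (k a) (uat rd g p' a)| ≤
      t ^ 2 * (2 * P.D ^ 2) * ∑ i, |g a i| / √(N : ℝ) := fun a => by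
    have key : ∀ q, |P.f1 (k a) (c * uat rd g q a) - P.f1 (k a) (uat rd g q a)| ≤ P.D * (t ^ 2 * ∑ i, |g a i| / √(N : ℝ)) :=
      fun q => (lip_of_deriv (P.sm (k a)).d1 (P.sm (k a)).b2 _ _).trans (mul_le_mul_of_nonneg_left (by
        rw [show c * uat rd g q a - uat rd g q a = (c - 1) * uat rd g q a by ring, abs_mul]
        exact mul_le_mul h1 (abs_uat_le rd g q a) (abs_nonneg _) (sq_nonneg t)) hD)
    rw [show ∀ x y x' y' : ℝ, x * y - x' * y' = (x - x') * y + x' * (y - y') from fun _ _ _ _ => by ring]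
    refine (abs_add_le _ _).trans ?_
    rw [abs_mul, abs_mul]
    refine (add_le_add (mul_le_mul (key p) ((P.sm _).b1 _) (abs_nonneg _) (by positivity))
      (mul_le_mul ((P.sm _).b1 _) (key p') (abs_nonneg _) hD)).trans_eq ?_
    ring
  have e : cv (avecV P k c t rd g) p p' =
      t ^ 2 * ∑ a, P.f1 (k a) (c * uat rd g p a) * P.f1 (k a) (c * uat rd g p' a) := by
    simp only [cv, dot, avecV, mul_sum]; exact sum_congr rfl fun a _ => by ring
  rw [e, show t ^ 2 * ∑ a, P.f1 (k a) (c * uat rd g p a) * P.f1 (k a) (c * uat rd g p' a) - α * G =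
      α * (qKV P k rd g p p' - G) + ((M : ℝ) * t ^ 2 - α) * qKV P k rd g p p' +
        t ^ 2 * ∑ a, (P.f1 (k a) (c * uat rd g p a) * P.f1 (k a) (c * uat rd g p' a) -
          P.f1 (k a) (uat rd g p a) * P.f1 (k a) (uat rd g p' a)) by
    rw [sum_sub_distrib, ← mul_qKV P k rd g p p']; ring]
  rw [← add_assoc]
  refine (abs_add_three _ _ _).trans (add_le_add (add_le_add ?_ ?_) ?_)
  · rw [abs_mul, abs_of_nonneg hα]
  · rw [abs_mul]; exact mul_le_mul_of_nonneg_left (abs_qKV_le P k rd g p p') (abs_nonneg _)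
  · rw [abs_mul, abs_of_nonneg (sq_nonneg t)]
    calc t ^ 2 * |∑ a, (P.f1 (k a) (c * uat rd g p a) * P.f1 (k a) (c * uat rd g p' a) -
            P.f1 (k a) (uat rd g p a) * P.f1 (k a) (uat rd g p' a))|
        ≤ t ^ 2 * ∑ a, t ^ 2 * (2 * P.D ^ 2) * ∑ i, |g a i| / √(N : ℝ) :=
          mul_le_mul_of_nonneg_left ((abs_sum_le_sum_abs _ _).trans (sum_le_sum fun a _ => ha a)) (sq_nonneg t)
      _ = _ := by rw [← mul_sum, gsum]; ring

lemma adev_avecV (P : Fam s) (k : Fin M → Fin s) (hR : 1 ≤ R) {w : List Ω → ℝ} (hw : ∀ p, 0 < w p)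
    (rd : List Ω → Fin N → Bool) (g : Fin M → Fin N → ℝ)
    {c t : ℝ} (hc : 0 ≤ c) (hct : c ^ 2 + t ^ 2 = 1) {α : ℝ} (hα : 0 ≤ α) (G : ℕ → ℝ) :
    adev R w (cv (avecV P k c t rd g)) (fun l => α * G l) ≤ α * adev R w (qKV P k rd g) G +
      2 * (|(M : ℝ) * t ^ 2 - α| * P.D ^ 2 + t ^ 2 * t ^ 2 * (2 * P.D ^ 2) * gsum g) := by
  set E := |(M : ℝ) * t ^ 2 - α| * P.D ^ 2 + t ^ 2 * t ^ 2 * (2 * P.D ^ 2) * gsum g
  have h : ∀ l, devOf R w (cv (avecV P k c t rd g)) (fun l => α * G l) l ≤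
      α * devOf R w (qKV P k rd g) G l + E := fun l => by
    refine (Vale.Agent.P168.MP.ET_mono hw fun ps =>
      abs_cv_avecV P k rd g hc hct (ps.getD 0 []) (ps.getD 1 []) (G := G l) hα).trans_eq ?_
    rw [Vale.Agent.P168.MP.ET_add, Vale.Agent.P168.MP.ET_const_mul, Vale.Agent.P168.MP.ET_const hw]
    rfl
  have hR' : (0:ℝ) < R := by exact_mod_cast hR
  unfold adev
  refine (add_le_add (div_le_div_of_nonneg_right (sum_le_sum fun l _ => h l) hR'.le) (h R)).trans_eq ?_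
  rw [sum_add_distrib, ← mul_sum, sum_const, card_range, nsmul_eq_mul]
  field_simp
  ring

lemma continuous_siteYV (P : Fam s) (k : Fin M → Fin s) (c t : ℝ) (rd : List Ω → Fin N → Bool) (p : List Ω) :
    Continuous fun x : (Fin M → Fin N → ℝ) × (Fin M → ℝ) => siteYV P k c t rd x.1 x.2 p := by
  have h0 := fun j => (P.sm j).cont0
  have hu : ∀ a, Continuous fun x : (Fin M → Fin N → ℝ) × (Fin M → ℝ) => uat rd x.1 p a := fun a =>
    (continuous_uat rd p a).comp continuous_fst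
  simp only [siteYV_eq, Vale.Agent.P168.MP.avg]
  fun_prop

lemma siteYV_bounds (P : Fam s) (k : Fin M → Fin s) (c t : ℝ) (rd : List Ω → Fin N → Bool)
    (g : Fin M → Fin N → ℝ) (z : Fin M → ℝ) (p : List Ω) :
    exp (-(2 * P.B * M)) ≤ siteYV P k c t rd g z p ∧ siteYV P k c t rd g z p ≤ exp (2 * P.B * M) := by
  have hs : ∀ s : Bool, |∑ a, (P.f (k a) (c * uat rd g p a + t * Vale.Agent.P168.sg s * z a) - P.f (k a) (uat rd g p a))| ≤
      2 * P.B * M := fun s => by
    refine (abs_sum_le_sum_abs _ _).trans ((sum_le_sum (g := fun _ => 2 * P.B) fun a _ => ?_).trans_eq (by simp; ring))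
    have b := fun x => abs_le.2 ⟨(P.sm (k a)).lb x, P.ub (k a) x⟩
    exact (abs_sub _ _).trans (by linarith [b (c * uat rd g p a + t * Vale.Agent.P168.sg s * z a), b (uat rd g p a)])
  rw [siteYV_eq]
  constructor
  · refine (Vale.Agent.P168.MP.avg_const (Ω := Bool) _).symm.trans_le (Vale.Agent.P168.MP.avg_le_avg fun s => ?_)
    exact exp_le_exp.2 (neg_le_of_abs_le (hs s))
  · refine (Vale.Agent.P168.MP.avg_le_avg fun s => ?_).trans_eq (Vale.Agent.P168.MP.avg_const (Ω := Bool) _)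
    exact exp_le_exp.2 (le_of_abs_le (hs s))

lemma abs_log_nest_siteYV (P : Fam s) (k : Fin M → Fin s) (hR : 1 ≤ R) {w : List Ω → ℝ}
    (hw : ∀ p, 0 < w p) (c t : ℝ) (rd : List Ω → Fin N → Bool) (g : Fin M → Fin N → ℝ) (z : Fin M → ℝ) :
    |log (nest (lin R) w (siteYV P k c t rd g z) R [])| ≤ 2 * P.B * M := by
  obtain ⟨h1, h2⟩ := Vale.Agent.P168.MP.nest_mem (ok_lin hR hw) (exp_pos _)
    (fun q _ => siteYV_bounds P k c t rd g z q) R [] (by simp)
  rw [abs_le, le_log_iff_exp_le ((exp_pos _).trans_le h1), log_le_iff_le_exp ((exp_pos _).trans_le h1)]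
  exact ⟨h1, h2⟩

/-- the pointwise bound of the factor of the new spin -/
lemma siteYV_ge (P : Fam s) (k : Fin M → Fin s) (rd : List Ω → Fin N → Bool) (g : Fin M → Fin N → ℝ)
    (z : Fin M → ℝ) (c : ℝ) {t : ℝ} (ht : 0 < t) (p : List Ω) :
    fac (fun x => log (cosh x)) (avecV P k c t rd g) z p *
      exp ((∑ i, (P.f (k i) (c * uat rd g p i) - P.f (k i) (uat rd g p i) + t ^ 2 / 2 * P.f2 (k i) (c * uat rd g p i))) +
        (∑ i, t ^ 2 / 2 * P.f2 (k i) (c * uat rd g p i) * (z i ^ 2 - 1)) - P.D * t ^ 3 * ∑ i, |z i| ^ 3) ≤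
      siteYV P k c t rd g z p := by
  set Ψ : ℝ := ∑ i, (P.f (k i) (c * uat rd g p i) - P.f (k i) (uat rd g p i) + t ^ 2 / 2 * P.f2 (k i) (c * uat rd g p i)) with hΨ
  set Xs : ℝ := ∑ i, t ^ 2 / 2 * P.f2 (k i) (c * uat rd g p i) * (z i ^ 2 - 1) with hXs
  set kap : ℝ := P.D * t ^ 3 * ∑ i, |z i| ^ 3 with hkap
  have hs : ∀ s : Bool, Ψ + Xs - kap + Vale.Agent.P168.sg s * dot (avecV P k c t rd g p) z ≤
      ∑ i, (P.f (k i) (c * uat rd g p i + t * Vale.Agent.P168.sg s * z i) - P.f (k i) (uat rd g p i)) := fun s => by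
    simp only [hΨ, hXs, hkap, avecV, dot, mul_sum, ← sum_add_distrib, ← sum_sub_distrib]
    refine sum_le_sum fun i _ => ?_
    have h := (abs_le.1 ((P.sm (k i)).taylor_two (c * uat rd g p i) (t * Vale.Agent.P168.sg s * z i))).1
    have hs2 : Vale.Agent.P168.sg s ^ 2 = 1 := by cases s <;> norm_num [Vale.Agent.P168.sg]
    have hsa : |Vale.Agent.P168.sg s| = 1 := by cases s <;> norm_num [Vale.Agent.P168.sg]
    rw [abs_mul, abs_mul, hsa, mul_one, abs_of_pos ht, mul_pow] at h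
    rw [show (t * Vale.Agent.P168.sg s * z i) ^ 2 / 2 * P.f2 (k i) (c * uat rd g p i) =
      Vale.Agent.P168.sg s ^ 2 * (t ^ 2 / 2 * P.f2 (k i) (c * uat rd g p i) * z i ^ 2) by ring, hs2, one_mul] at h
    linarith
  rw [fac, exp_log (cosh_pos _), siteYV_eq, Vale.Agent.P168.MP.avg, Fintype.sum_bool, Fintype.card_bool, cosh_eq]
  have e1 := exp_le_exp.2 (hs true)
  have e2 := exp_le_exp.2 (hs false)
  rw [exp_add] at e1 e2
  simp only [Vale.Agent.P168.sg, Bool.false_eq_true, ↓reduceIte, one_mul, neg_mul] at e1 e2 ⊢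
  push_cast
  linarith

lemma continuous_siteYV_right (P : Fam s) (k : Fin M → Fin s) (c t : ℝ) (rd : List Ω → Fin N → Bool)
    (g : Fin M → Fin N → ℝ) (p : List Ω) : Continuous fun z => siteYV P k c t rd g z p := by
  have h0 := fun j => (P.sm j).cont0
  simp only [siteYV_eq, Vale.Agent.P168.MP.avg]
  fun_prop

lemma integrable_log_siteYV (P : Fam s) (k : Fin M → Fin s) (hR : 1 ≤ R) {w : List Ω → ℝ}
    (hw : ∀ p, 0 < w p) (c t : ℝ) (rd : List Ω → Fin N → Bool) (g : Fin M → Fin N → ℝ) :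
    Integrable (fun z => log (nest (lin R) w (siteYV P k c t rd g z) R [])) (gauss (Fin M)) := by
  have hp : ∀ z p, 0 < siteYV P k c t rd g z p := fun z p =>
    (exp_pos _).trans_le (siteYV_bounds P k c t rd g z p).1
  refine Integrable.of_bound (Continuous.aestronglyMeasurable ?_) (2 * P.B * M) (Filter.Eventually.of_forall
    fun z => by rw [Real.norm_eq_abs]; exact abs_log_nest_siteYV P k hR hw c t rd g z)
  exact (continuous_nest (m := lin R) (w := fun _ => w) (Y := fun z => siteYV P k c t rd g z)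
    (fun p => continuous_const) (fun _ => hw)
    (fun p => continuous_siteYV_right P k c t rd g p) hp R []).log fun z =>
      (Vale.Agent.P168.MP.nest_pos hw (hp z) R []).ne'

/-- **one site, given the base system** -/
theorem site_fixedV (P : Fam s) (A : ℝ) : ∃ K : ℝ, 0 ≤ K ∧
    ∀ {Ω : Type} [Fintype Ω] [Nonempty Ω] {R N M : ℕ}, 1 ≤ R → ∀ (k : Fin M → Fin s) (rd : List Ω → Fin N → Bool)
      {w : List Ω → ℝ}, (∀ p, 0 < w p) → ∀ (g : Fin M → Fin N → ℝ) {c t α θ : ℝ}, 0 ≤ c → 0 < t →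
      c ^ 2 + t ^ 2 = 1 → (M : ℝ) * t ^ 2 ≤ A → 0 ≤ α → α ≤ A → 0 < θ → θ ≤ 1 →
      ∀ {q : ℕ → ℝ}, Prof R q 1 →
      Phi cosh R (lin R) (fun l => α * GbV P k R q l) +
          ET R (lin R) w [(0, 0)] (fun ps => ∑ a, (P.f (k a) (c * uat rd g (ps.getD 0 []) a) -
            P.f (k a) (uat rd g (ps.getD 0 []) a) + t ^ 2 / 2 * P.f2 (k a) (c * uat rd g (ps.getD 0 []) a))) -
          K * (θ * ET R (lin R) w [(0, 0)] (fun ps => (∑ a, (P.f (k a) (c * uat rd g (ps.getD 0 []) a) -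
              P.f (k a) (uat rd g (ps.getD 0 []) a) + t ^ 2 / 2 * P.f2 (k a) (c * uat rd g (ps.getD 0 []) a))) ^ 2) +
            (adev R w (qKV P k rd g) (GbV P k R q) + |(M : ℝ) * t ^ 2 - α| + t ^ 2 * t ^ 2 * gsum g + t) / θ) ≤
        ∫ z, log (nest (lin R) w (siteYV P k c t rd g z) R []) ∂gauss (Fin M) := by
  set V := |A| * P.D ^ 2 with hV
  obtain ⟨K1, hK1, hval⟩ := value_close sm_logcosh V
  obtain ⟨K2, hK2, hsing⟩ := single_close sm_logcosh V
  set L := |A| + 2 * P.D ^ 2 + 4 * P.D ^ 2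
  set Kx := |A| * c4 * P.D ^ 2 + exp (2 * V) + |A| * P.D * c3
  refine ⟨(K1 + K2) * L + K2 + Kx, by
    have := P.nn; have := c3_nonneg; have := c4_nonneg; positivity, ?_⟩
  intro Ω _ _ R N M hR k rd w hw g c t α θ hc ht hct hMt hα hαA hθ hθ1 q hq
  have hD := P.nn
  have hc3 := c3_nonneg
  have hc4 := c4_nonneg
  have hA : α ≤ |A| := hαA.trans (le_abs_self A)
  have hMt' : (M : ℝ) * t ^ 2 ≤ |A| := hMt.trans (le_abs_self A)
  set a := avecV P k c t rd g
  have haa : ∀ p, cv a p p ≤ V := fun p => by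
    have : cv a p p = t ^ 2 * ∑ i, P.f1 (k i) (c * uat rd g p i) ^ 2 := by
      simp only [a, cv, dot, avecV, mul_sum]; exact sum_congr rfl fun i _ => by ring
    rw [this]
    refine (mul_le_mul_of_nonneg_left (sum_le_sum (g := fun _ => P.D ^ 2) fun i _ => ?_) (sq_nonneg t)).trans ?_
    · rw [← sq_abs (P.f1 (k i) _)]; exact pow_le_pow_left₀ (abs_nonneg _) ((P.sm _).b1 _) 2
    · rw [sum_const, card_univ, Fintype.card_fin, nsmul_eq_mul, hV, ← mul_assoc, mul_comm (t ^ 2)]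
      exact mul_le_mul_of_nonneg_right hMt' (sq_nonneg P.D)
  set q' := fun l => α * GbV P k R q l
  have hq' : Prof R q' V := ((gbV_prof P k hR hq).scale hα).weaken (mul_le_mul_of_nonneg_right hA (sq_nonneg P.D))
  set Ψ : List Ω → ℝ := fun p => ∑ i, (P.f (k i) (c * uat rd g p i) - P.f (k i) (uat rd g p i) + t ^ 2 / 2 * P.f2 (k i) (c * uat rd g p i))
    with hΨ
  set F : (Fin M → ℝ) → List Ω → ℝ := fun z => fac (fun x => log (cosh x)) a z with hF
  have hFc : ∀ z p, F z p = cosh (dot (a p) z) := fun z p => by simp only [hF, fac, exp_log (cosh_pos _)]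
  set Xs : (Fin M → ℝ) → List Ω → ℝ := fun z p => ∑ i, t ^ 2 / 2 * P.f2 (k i) (c * uat rd g p i) * (z i ^ 2 - 1)
    with hXs
  set kap : (Fin M → ℝ) → ℝ := fun z => P.D * t ^ 3 * ∑ i, |z i| ^ 3 with hkap
  have hFpos : ∀ z p, 0 < F z p := fun z p => exp_pos _
  have hm := ok_lin hR hw
  have hY : ∀ z p, F z p * exp (Ψ p + Xs z p - kap z) ≤ siteYV P k c t rd g z p := fun z p =>
    siteYV_ge P k rd g z c ht p
  -- for every value of the noise
  have hlow : ∀ z, log (nest (lin R) w (F z) R []) +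
      (ET R (lin R) (fun p => w p * F z p) [(0, 0)] (fun ps => Ψ (ps.getD 0 [])) +
        ET R (lin R) (fun p => w p * F z p) [(0, 0)] (fun ps => Xs z (ps.getD 0 [])) - kap z) ≤
      log (nest (lin R) w (siteYV P k c t rd g z) R []) := fun z => by
    have h1 := log_nest_add_ET_le hm (hFpos z) fun p => Ψ p + Xs z p - kap z
    have hpos : ∀ p, 0 < w p * F z p := fun p => mul_pos (hw p) (hFpos z p)
    rw [Vale.Agent.P168.MP.ET_sub, Vale.Agent.P168.MP.ET_add, Vale.Agent.P168.MP.ET_const hpos] at h1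
    refine h1.trans (log_le_log (Vale.Agent.P168.MP.nest_pos hw (fun p => by
      exact mul_pos (hFpos z p) (exp_pos _)) R [])
      (Vale.Agent.P168.MP.nest_le_nest hm (fun p => mul_pos (hFpos z p) (exp_pos _)) (hY z) R [] (by simp)))
  -- integrability
  have hcF : ∀ p, Continuous fun z => F z p := fun p => by
    simp only [hF, fac]
    exact continuous_exp.comp (sm_logcosh.cont0.comp (continuous_dot_left _))
  have hi1 : Integrable (fun z => log (nest (lin R) w (siteYV P k c t rd g z) R [])) (gauss (Fin M)) :=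
    integrable_log_siteYV P k hR hw c t rd g
  have hi2 : Integrable (fun z => log (nest (lin R) w (F z) R [])) (gauss (Fin M)) :=
    integrable_log_coshY hR hw (A := t * P.D) fun p i => by
      simp only [a, avecV, abs_mul, abs_of_pos ht]
      exact mul_le_mul_of_nonneg_left ((P.sm _).b1 _) ht.le
  have hcw : ∀ p, Continuous fun z => w p * F z p := fun p => continuous_const.mul (hcF p)
  have hpw : ∀ z p, 0 < w p * F z p := fun z p => mul_pos (hw p) (hFpos z p)
  have hi3 : Integrable (fun z => ET R (lin R) (fun p => w p * F z p) [(0, 0)] fun ps => Ψ (ps.getD 0 []))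
      (gauss (Fin M)) := by
    refine Integrable.of_bound (continuous_ET (m := lin R) hcw hpw R [(0, 0)] (F := fun _ ps => Ψ (ps.getD 0 [])) fun _ => continuous_const).aestronglyMeasurable
      (M * (2 * P.B) + M * (t ^ 2 / 2 * P.D)) (Filter.Eventually.of_forall fun z => ?_)
    refine Vale.Agent.P168.MP.ET_bound (hpw z) fun ps => ?_
    refine (abs_sum_le_sum_abs _ _).trans ((sum_le_sum (g := fun _ => 2 * P.B + t ^ 2 / 2 * P.D) fun i _ => ?_).trans_eq
      (by simp [mul_add]))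
    refine (abs_add_le _ _).trans (add_le_add ?_ ?_)
    · have b := fun x => abs_le.2 ⟨(P.sm (k i)).lb x, P.ub (k i) x⟩
      exact (abs_sub _ _).trans (by linarith [b (c * uat rd g (ps.getD 0 []) i), b (uat rd g (ps.getD 0 []) i)])
    · rw [abs_mul, abs_of_nonneg (by positivity)]
      exact mul_le_mul_of_nonneg_left ((P.sm _).b2 _) (by positivity)
  have hXF : ∀ p, Integrable (fun z => |Xs z p| * F z p) (gauss (Fin M)) ∧
      ∫ z, |Xs z p| * F z p ∂gauss (Fin M) ≤ t * (|A| * c4 * P.D ^ 2 + exp (2 * V)) := fun p => by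
    simp only [hFc]
    exact integral_centred_le (P.sm 0) _ (fun i => (P.sm _).b2 _) (a p) ht hMt' (haa p)
  have hXdom : ∀ z, |ET R (lin R) (fun p => w p * F z p) [(0, 0)] (fun ps => Xs z (ps.getD 0 []))| ≤
      ET R (lin R) w [(0, 0)] fun ps => |Xs z (ps.getD 0 [])| * F z (ps.getD 0 []) := fun z => by
    refine (Vale.Agent.P168.MP.ET_abs_le (hpw z) _ _).trans ?_
    refine (ET_one_tilt hR hw one_pos (fun p => by rw [hFc]; exact one_le_cosh _)
      fun p => abs_nonneg (Xs z p)).trans_eq ?_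
    simp
  obtain ⟨hi4, he4⟩ := integral_ET_one (R := R) (m := lin R) (w := w) (μ := gauss (Fin M))
    (fun z p => |Xs z p| * F z p) fun p => (hXF p).1
  have hi5 : Integrable (fun z => ET R (lin R) (fun p => w p * F z p) [(0, 0)] fun ps => Xs z (ps.getD 0 []))
      (gauss (Fin M)) :=
    hi4.mono' (continuous_ET (m := lin R) hcw hpw R [(0, 0)] fun ps => by simp only [hXs]; fun_prop).aestronglyMeasurable
      (Filter.Eventually.of_forall fun z => by rw [Real.norm_eq_abs]; exact hXdom z)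
  have hX : -(t * (|A| * c4 * P.D ^ 2 + exp (2 * V))) ≤
      ∫ z, ET R (lin R) (fun p => w p * F z p) [(0, 0)] (fun ps => Xs z (ps.getD 0 [])) ∂gauss (Fin M) := by
    refine neg_le_of_abs_le ((abs_integral_le_integral_abs).trans ((integral_mono hi5.abs hi4 hXdom).trans ?_))
    rw [he4]
    refine (Vale.Agent.P168.MP.ET_mono hw fun ps => (hXF _).2).trans_eq ?_
    rw [Vale.Agent.P168.MP.ET_const hw]
  obtain ⟨hi6, he6⟩ := integral_abs_cube (ι := Fin M)
  have hk : ∫ z, kap z ∂gauss (Fin M) ≤ t * (|A| * P.D * c3) := by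
    simp only [hkap]
    rw [integral_const_mul, he6, Fintype.card_fin]
    calc P.D * t ^ 3 * (c3 * M) = t * ((M:ℝ) * t ^ 2 * P.D * c3) := by ring
      _ ≤ _ := by gcongr
  have hi7 : Integrable kap (gauss (Fin M)) := hi6.const_mul _
  -- assemble
  have hI := integral_mono (hi2.add ((hi3.add hi5).sub hi7)) hi1 hlow
  rw [integral_add' hi2 ((hi3.add hi5).sub hi7), integral_sub' (hi3.add hi5) hi7,
    integral_add' hi3 hi5] at hI
  have hv := hval hR hw haa hq'
  rw [cosh_eq_exp] at hv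
  have hs := hsing hR hw haa hq' Ψ hθ
  have hdev := adev_avecV P k hR hw rd g hc hct hα (GbV P k R q)
  set AD := adev R w (qKV P k rd g) (GbV P k R q)
  set AV := adev R w (cv a) q'
  set T := ET R (lin R) w [(0, 0)] fun ps => Ψ (ps.getD 0 []) ^ 2
  set E := AD + |(M : ℝ) * t ^ 2 - α| + t ^ 2 * t ^ 2 * gsum g + t
  have hAD : 0 ≤ AD := adev_nn hw
  have hgs : 0 ≤ gsum g := sum_nonneg fun _ _ => sum_nonneg fun _ _ => by positivity
  have ha0 := abs_nonneg ((M : ℝ) * t ^ 2 - α)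
  have hg0 : 0 ≤ t ^ 2 * t ^ 2 * gsum g := by positivity
  have hE : 0 ≤ E := by positivity
  have hEθ : E ≤ E / θ := le_div_self hE hθ hθ1
  have hT : 0 ≤ θ * T := mul_nonneg hθ.le (Vale.Agent.P168.MP.ET_nonneg hw fun _ => sq_nonneg _)
  have hAV0 : 0 ≤ AV := adev_nn hw
  have hAV : AV ≤ L * E := by
    refine hdev.trans ?_
    have h1 := mul_le_mul_of_nonneg_right hA hAD
    have hA0 := abs_nonneg A
    have hD2 := sq_nonneg P.D
    simp only [L, E]
    nlinarith [mul_nonneg hD2 ha0, mul_nonneg hD2 hg0, mul_nonneg hA0 ha0, mul_nonneg hA0 hg0,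
      mul_nonneg hA0 ht.le, mul_nonneg hD2 ht.le, mul_nonneg hD2 hAD]
  simp only [hF] at hI hv hs hX
  exact site_arith hI hX hk (abs_le.1 hv).1 (abs_le.1 hs).1 hK1 hK2 (by positivity) hθ hT hAV hE hEθ
    (by linarith) (by positivity) (by positivity) (by positivity)

end Vale.Agent.P166.Par.Multi
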