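import Vale.Agent.P166.Par.Multi.UpperEnds
import Vale.Agent.P157.Par.UpperMix

/-! Labelled patterns with site fields: dependence on the variance and on the number of patterns. -/

open MeasureTheory ProbabilityTheory Finset
open Vale.Agent.P150 (gauss dot l1 l1_nonneg)
open Vale.Agent.P168 (sg)
open Vale.Agent.P168.MP (Ok ET att logZ0 nest)
open Vale.Agent.P157.Par

namespace Vale.Agent.P166.Par.Multi

variable {s N L R k M : ℕ} [NeZero L] {m : ℕ → ℝ} {K : Type} [Fintype K] {P : Fam s} {c : Fin k → Fin s}
  {sp : ℕ → ℝ} {v : List (Fin L) → K → ℝ}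

/-- mean derivative of the site value -/
noncomputable def PdV (P : Fam s) (c : Fin k → Fin s) (N R : ℕ) (m : ℕ → ℝ) (v : List (Fin L) → K → ℝ)
    (u : ℝ) : ℝ := ∫ g, linVal' R m (baseV P c R g) (siteVec (N := N) R v) u ∂pats N k

/-- mean overlap of two replicas at a configuration of patterns -/
noncomputable def ovgV (P : Fam s) (c : Fin k → Fin s) (R : ℕ) (m : ℕ → ℝ) (v : List (Fin L) → K → ℝ)
    (g : Fin k → Fin N → ℝ) (u : ℝ) (l : ℕ) : ℝ :=
  ∫ h, ET R m (linW (baseV P c R g) (siteVec R v) u h) [(0, l), (0, 0)]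
    (fun ps => ov (spins R (ps.getD 0 [])) (spins R (ps.getD 1 []))) ∂gauss (Fin N × K)

/-- its mean over the patterns -/
noncomputable def OvlV (P : Fam s) (c : Fin k → Fin s) (N R : ℕ) (m : ℕ → ℝ) (v : List (Fin L) → K → ℝ)
    (u : ℝ) (l : ℕ) : ℝ := ∫ g, ovgV (N := N) P c R m v g u l ∂pats N k

/-- the site derivative averaged over the labels -/
noncomputable def PdB (P : Fam s) (p : Fin s → ℝ) (N R : ℕ) (m : ℕ → ℝ) (v : List (Fin L) → K → ℝ)
    (k : ℕ) (u : ℝ) : ℝ := lavg (M := k) p fun c => PdV P c N R m v u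

/-- the overlap averaged over the labels -/
noncomputable def OvlB (P : Fam s) (p : Fin s → ℝ) (N R : ℕ) (m : ℕ → ℝ) (v : List (Fin L) → K → ℝ)
    (k : ℕ) (u : ℝ) (l : ℕ) : ℝ := lavg (M := k) p fun c => OvlV P c N R m v u l

lemma baseV_pos (g : Fin k → Fin N → ℝ) (x : List (Site N L)) : 0 < baseV P c R g x := hamV_pos P c g _

lemma continuous_baseV (x : List (Site N L)) :
    Continuous fun g : Fin k → Fin N → ℝ => baseV P c R g x := continuous_hamV P c _

lemma abs_fam_le (P : Fam s) (j : Fin s) (x : ℝ) : |P.f j x| ≤ P.B :=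
  abs_le.2 ⟨(P.sm j).lb x, P.ub j x⟩

lemma abs_log_baseV (g : Fin k → Fin N → ℝ) (x : List (Site N L)) :
    |Real.log (baseV P c R g x)| ≤ k * P.B := by
  rw [baseV, hamV, Real.log_exp]
  exact (abs_sum_le_sum_abs _ _).trans ((sum_le_sum fun a _ => abs_fam_le P _ _).trans_eq (by simp))

lemma abs_log_linWV (hv : NodeVec R sp v) (g : Fin k → Fin N → ℝ) (u : ℝ)
    (h : Fin N × K → ℝ) (p : List (Site N L)) :
    |Real.log (linW (baseV P c R g) (siteVec R v) u h p)| ≤ k * P.B + √u * √(sp R) * l1 h := by
  rw [linW, Real.log_mul (baseV_pos g p).ne' (Real.exp_pos _).ne', Real.log_exp]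
  refine (abs_add_le _ _).trans (add_le_add (abs_log_baseV g p) ?_)
  rw [abs_mul, abs_of_nonneg (Real.sqrt_nonneg _), mul_assoc]
  exact mul_le_mul_of_nonneg_left (Vale.Agent.P150.abs_dot_le (abs_siteVec_le hv p) h) (Real.sqrt_nonneg _)

section values

variable (hm : ∀ {Ω : Type} (w : List Ω → ℝ), (∀ p, 0 < w p) → Ok R m w) (hv : NodeVec R sp v)
include hm hv

lemma abs_linVal_leV {u : ℝ} (hu1 : u ≤ 1) (g : Fin k → Fin N → ℝ) :
    |linVal R m (baseV P c R g) (siteVec (N := N) R v) u| ≤
      k * P.B + √(sp R) * ∫ h, l1 h ∂gauss (Fin N × K) := by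
  refine abs_integral_le_integral_abs.trans ((integral_mono_of_nonneg
    (Filter.Eventually.of_forall fun h => abs_nonneg _)
    ((integrable_const _).add (integrable_l1.const_mul _))
    (Filter.Eventually.of_forall fun h => (abs_logZ0_le (hm _ (linW_pos (baseV_pos g) u h))
      (abs_log_linWV hv g u h)).trans (add_le_add le_rfl (mul_le_mul_of_nonneg_right
        (mul_le_of_le_one_left (Real.sqrt_nonneg _) (Real.sqrt_le_one.2 hu1)) (l1_nonneg h))))).trans_eq ?_)
  rw [integral_add' (integrable_const _) (integrable_l1.const_mul _)]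
  simp [integral_const_mul]

lemma continuous_linVal_gV (u : ℝ) :
    Continuous fun g : Fin k → Fin N → ℝ => linVal R m (baseV P c R g) (siteVec (N := N) R v) u :=
  continuous_of_dominated (bound := fun h => k * P.B + √u * √(sp R) * l1 h)
    (fun g => (continuous_logZ0 (fun p => continuous_linW u p) (linW_pos (baseV_pos g) u) R).aestronglyMeasurable)
    (fun g => Filter.Eventually.of_forall fun h => abs_logZ0_le (hm _ (linW_pos (baseV_pos g) u h))
      (abs_log_linWV hv g u h))
    ((integrable_const _).add (integrable_l1.const_mul _))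
    (Filter.Eventually.of_forall fun h => continuous_logZ0
      (fun p => (continuous_baseV p).mul continuous_const) (fun g => linW_pos (baseV_pos g) u h) R)

lemma integrable_linVal_gV {u : ℝ} (hu1 : u ≤ 1) :
    Integrable (fun g : Fin k → Fin N → ℝ => linVal R m (baseV P c R g) (siteVec (N := N) R v) u) (pats N k) :=
  Integrable.of_bound (continuous_linVal_gV hm hv u).aestronglyMeasurable _
    (Filter.Eventually.of_forall fun g => abs_linVal_leV hm hv hu1 g)

omit hm hv in
lemma continuous_ET_gV (u : ℝ) (T : List (ℕ × ℕ)) (H : List (List (Site N L)) → ℝ) {C : ℝ}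
    (hH : ∀ ps, |H ps| ≤ C) :
    Continuous fun g : Fin k → Fin N → ℝ =>
      ∫ h, ET R m (linW (baseV P c R g) (siteVec R v) u h) T H ∂gauss (Fin N × K) :=
  continuous_of_dominated (bound := fun _ => C)
    (fun g => (continuous_ET (fun p => continuous_linW u p) (linW_pos (baseV_pos g) u) R T (F := fun _ => H)
      fun _ => continuous_const).aestronglyMeasurable)
    (fun g => Filter.Eventually.of_forall fun h => Vale.Agent.P168.MP.ET_bound (linW_pos (baseV_pos g) u h) hH)
    (integrable_const _)
    (Filter.Eventually.of_forall fun h => continuous_ET (fun p => (continuous_baseV p).mul continuous_const)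
      (fun g => linW_pos (baseV_pos g) u h) R T (F := fun _ => H) fun _ => continuous_const)

omit hm hv in
lemma abs_ovg_leV (g : Fin k → Fin N → ℝ) (u : ℝ) (l : ℕ) : |ovgV P c R m v g u l| ≤ 1 := by
  refine abs_integral_le_integral_abs.trans ((integral_mono_of_nonneg (g := fun _ => (1 : ℝ))
    (Filter.Eventually.of_forall fun h => abs_nonneg _) (integrable_const _)
    (Filter.Eventually.of_forall fun h => ?_)).trans_eq ?_)
  · exact Vale.Agent.P168.MP.ET_bound (linW_pos (baseV_pos g) u h) fun _ => abs_ov_le' _ _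
  · simp

omit hm hv in
lemma integrable_ovgV (u : ℝ) (l : ℕ) :
    Integrable (fun g : Fin k → Fin N → ℝ => ovgV P c R m v g u l) (pats N k) :=
  Integrable.of_bound (continuous_ET_gV u _ _ fun _ => abs_ov_le' _ _).aestronglyMeasurable 1
    (Filter.Eventually.of_forall fun g => abs_ovg_leV g u l)

omit hm in
lemma abs_linVal'_leV (g : Fin k → Fin N → ℝ) (u : ℝ) :
    |linVal' R m (baseV P c R g) (siteVec (N := N) R v) u| ≤
      ((att R m [(0, 0)]).map fun c => |c.2| * (Fintype.card (Fin N × K) * sp R)).sum / 2 := by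
  rw [linVal', abs_div, abs_two]
  refine div_le_div_of_nonneg_right ((abs_list_sum _ _).trans (list_sum_le fun c _ => ?_)) two_pos.le
  rw [abs_mul]
  refine mul_le_mul_of_nonneg_left ?_ (abs_nonneg _)
  refine abs_integral_le_integral_abs.trans ((integral_mono_of_nonneg
    (g := fun _ => (Fintype.card (Fin N × K) : ℝ) * sp R)
    (Filter.Eventually.of_forall fun h => abs_nonneg _) (integrable_const _)
    (Filter.Eventually.of_forall fun h => ?_)).trans_eq ?_)
  · exact Vale.Agent.P168.MP.ET_bound (linW_pos (baseV_pos g) u h) fun ps => abs_cv_siteVec_le hv _ _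
  · simp

omit hm in
lemma continuous_linVal'_gV (u : ℝ) :
    Continuous fun g : Fin k → Fin N → ℝ => linVal' R m (baseV P c R g) (siteVec (N := N) R v) u :=
  (continuous_list_sum _ fun _ _ => continuous_const.mul
    (continuous_ET_gV u _ _ fun _ => abs_cv_siteVec_le hv _ _)).div_const 2

lemma continuousOn_PvV : ContinuousOn (PvV P c N R m v) (Set.Icc 0 1) := by
  intro u hu
  refine continuousWithinAt_of_dominated (bound := fun _ => k * P.B + √(sp R) * ∫ h, l1 h ∂gauss (Fin N × K))
    (Filter.Eventually.of_forall fun w => (continuous_linVal_gV hm hv w).aestronglyMeasurable)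
    ?_ (integrable_const _) (Filter.Eventually.of_forall fun g => ?_)
  · filter_upwards [self_mem_nhdsWithin] with w hw
    exact Filter.Eventually.of_forall fun g => abs_linVal_leV hm hv hw.2 g
  · exact continuousOn_linVal (hm _ (baseV_pos g)) (abs_siteVec_le hv) u hu

lemma hasDerivAt_PvV {u : ℝ} (hu : 0 < u) (hu1 : u ≤ 1) :
    HasDerivAt (PvV P c N R m v) (PdV P c N R m v u) u :=
  (hasDerivAt_integral_of_dominated_loc_of_deriv_le (μ := pats N k)
    (F := fun w (g : Fin k → Fin N → ℝ) => linVal R m (baseV P c R g) (siteVec (N := N) R v) w)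
    (F' := fun w g => linVal' R m (baseV P c R g) (siteVec (N := N) R v) w)
    (bound := fun _ => ((att R m [(0, 0)]).map fun c => |c.2| * (Fintype.card (Fin N × K) * sp R)).sum / 2)
    (Metric.ball_mem_nhds u hu)
    (Filter.Eventually.of_forall fun w => (continuous_linVal_gV hm hv w).aestronglyMeasurable)
    (integrable_linVal_gV hm hv hu1) (continuous_linVal'_gV hv u).aestronglyMeasurable
    (Filter.Eventually.of_forall fun g w _ => abs_linVal'_leV hv g w) (integrable_const _)
    (Filter.Eventually.of_forall fun g w hw => hasDerivAt_linVal (hm _ (baseV_pos g)) (abs_siteVec_le hv)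
      (by rw [Metric.mem_ball, Real.dist_eq, abs_lt] at hw; linarith [hw.1]))).2

/-- the site derivative is the profile times the overlap, up to collisions -/
lemma Pd_geV [NeZero N] (hR : 1 ≤ R) {u : ℝ} (hu0 : 0 ≤ u) (hu1 : u ≤ 1) (hB : 0 ≤ P.B) (hk : k ≤ M) :
    1 / 2 * (N * sp R + ∑ l ∈ range R, cf m l * (N * sp l * OvlV P c N R m v u l)) -
        (∑ l ∈ range R, |cf m l| * (|sp l| + sp R) * (N * (collK N R (N * sp R) (M * P.B) / √L))) ≤
      PdV P c N R m v u := by
  have hF : ∀ (g : Fin k → Fin N → ℝ) (p : List (Site N L)),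
      Real.exp (-(M * P.B)) ≤ baseV P c R g p ∧ baseV P c R g p ≤ Real.exp (M * P.B) := fun g p => by
    rw [← Real.exp_log (baseV_pos (P := P) (c := c) (R := R) g p)]
    have h := abs_le.1 ((abs_log_baseV (P := P) (c := c) (R := R) g p).trans
      (mul_le_mul_of_nonneg_right (Nat.cast_le.2 hk) hB))
    exact ⟨Real.exp_le_exp.2 h.1, Real.exp_le_exp.2 h.2⟩
  have hi : ∀ l ∈ range R, Integrable
      (fun g : Fin k → Fin N → ℝ => cf m l * (N * sp l * ovgV P c R m v g u l)) (pats N k) :=
    fun l _ => ((integrable_ovgV u l).const_mul _).const_mul _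
  have hA : Integrable (fun g : Fin k → Fin N → ℝ =>
      1 / 2 * (N * sp R + ∑ l ∈ range R, cf m l * (N * sp l * ovgV P c R m v g u l))) (pats N k) :=
    ((integrable_const _).add (integrable_finsetSum _ hi)).const_mul _
  have hB' : Integrable (fun g : Fin k → Fin N → ℝ => linVal' R m (baseV P c R g) (siteVec (N := N) R v) u)
      (pats N k) := Integrable.of_bound (continuous_linVal'_gV hv u).aestronglyMeasurable _
    (Filter.Eventually.of_forall fun g => abs_linVal'_leV hv g u)
  set E := ∑ l ∈ range R, |cf m l| * (|sp l| + sp R) * (N * (collK N R (N * sp R) (M * P.B) / √L))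
  have key : ∀ g : Fin k → Fin N → ℝ,
      1 / 2 * (N * sp R + ∑ l ∈ range R, cf m l * (N * sp l * ovgV P c R m v g u l)) - E ≤
        linVal' R m (baseV P c R g) (siteVec (N := N) R v) u := fun g => by
    have h := (abs_le.1 (linVal'_site hR (fun w hw => hm w hw) hv (hF g) hu0 hu1)).1
    unfold ovgV
    linarith
  refine le_trans (le_of_eq ?_) (integral_mono (hA.sub (integrable_const E)) hB' key)
  rw [integral_sub' hA (integrable_const E), integral_const_mul,
    integral_add (integrable_const _) (integrable_finsetSum _ hi), integral_finsetSum _ hi]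
  simp [OvlV, integral_const_mul]


/-- one more pattern of species `j` -/
lemma PvV_step [NeZero N] {δ : ℝ} (j : Fin s) (hs : Slope (P.f j) (P.f1 j) R m δ) {q : ℕ → ℝ}
    (hq : Prof R q 1) (hq1 : q R = 1) (n : ℕ) {u : ℝ} (hu1 : u ≤ 1) :
    PvV P (Fin.insertNth (α := fun _ => Fin s) 0 j c) N R m v u - PvV P c N R m v u ≤ phiN (P.f j) R m q n +
      1 / 2 * (∑ l ∈ range R, cf m l * (OvlV P c N R m v u l * Al (P.f j) (P.f1 j) R m q n l - Bl (P.f j) (P.f1 j) R m q n l)) + δ := by
  set a : List (Site N L) → Fin N → ℝ := fun p => Vale.Agent.P157.Lim.xv N (spins R p)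
  set Φ : (Fin k → Fin N → ℝ) → (Fin N → ℝ) → (Fin N × K → ℝ) → ℝ := fun g y h =>
    logZ0 R m fun p => linW (baseV P c R g) (siteVec R v) u h p * fac (P.f j) a y p
  have hpos : ∀ g y h p, 0 < linW (baseV P c R g) (siteVec R v) u h p * fac (P.f j) a y p :=
    fun g y h p => mul_pos (linW_pos (baseV_pos g) u h p) (Real.exp_pos _)
  have hΦb : ∀ g y h, |Φ g y h| ≤ k * P.B + P.B + √u * √(sp R) * l1 h := fun g y h =>
    abs_logZ0_le (hm _ (hpos g y h)) fun p => by
      rw [fac, Real.log_mul (linW_pos (baseV_pos g) u h p).ne' (Real.exp_pos _).ne', Real.log_exp]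
      refine (abs_add_le _ _).trans ?_
      linarith [abs_log_linWV (P := P) (c := c) hv g u h p, abs_fam_le P j (dot (a p) y)]
  have hΦi : ∀ g, Integrable (Function.uncurry (Φ g)) ((gauss (Fin N)).prod (gauss (Fin N × K))) := fun g =>
    ((integrable_const (k * P.B + P.B)).add ((integrable_l1.comp_snd _).const_mul (√u * √(sp R)))).mono'
      (continuous_logZ0 (fun p => ((continuous_linW u p).comp continuous_snd).mul
        ((continuous_fac (P.sm j).cont0 a p).comp continuous_fst)) (fun x => hpos g x.1 x.2) R).aestronglyMeasurable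
      (Filter.Eventually.of_forall fun x => hΦb g x.1 x.2)
  have hins : ∀ (g : Fin k → Fin N → ℝ) y,
      linVal R m (baseV P (Fin.insertNth (α := fun _ => Fin s) 0 j c) R (ins 0 y g)) (siteVec (N := N) R v) u = ∫ h, Φ g y h ∂gauss (Fin N × K) :=
    fun g y => by
      refine integral_congr_ae (Filter.Eventually.of_forall fun h => congrArg (logZ0 R m) (funext fun p => ?_))
      simp only [linW, baseV, hamV_ins, fac, a]
      ring
  have hz : ∀ (g : Fin k → Fin N → ℝ), Continuous fun h =>
      logZ0 R m (linW (baseV P c R g) (siteVec (N := N) R v) u h) := fun g =>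
    continuous_logZ0 (fun p => continuous_linW u p) (linW_pos (baseV_pos g) u) R
  have hzi : ∀ (g : Fin k → Fin N → ℝ), Integrable (fun h =>
      logZ0 R m (linW (baseV P c R g) (siteVec (N := N) R v) u h)) (gauss (Fin N × K)) := fun g =>
    ((integrable_const (k * P.B)).add (integrable_l1.const_mul (√u * √(sp R)))).mono'
      (hz g).aestronglyMeasurable (Filter.Eventually.of_forall fun h =>
        abs_logZ0_le (hm _ (linW_pos (baseV_pos g) u h)) (abs_log_linWV (P := P) (c := c) hv g u h))
  set Q : (Fin k → Fin N → ℝ) → ℝ := fun g => phiN (P.f j) R m q n +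
    1 / 2 * (∑ l ∈ range R, cf m l * (ovgV P c R m v g u l * Al (P.f j) (P.f1 j) R m q n l - Bl (P.f j) (P.f1 j) R m q n l)) + δ with hQ
  have key : ∀ g : Fin k → Fin N → ℝ, ∫ y, linVal R m (baseV P (Fin.insertNth (α := fun _ => Fin s) 0 j c) R (ins 0 y g)) (siteVec (N := N) R v) u
      ∂gauss (Fin N) ≤ linVal R m (baseV P c R g) (siteVec (N := N) R v) u + Q g := fun g => by
    simp only [hins g]
    rw [integral_integral_swap (hΦi g)]
    set El : ℕ → (Fin N × K → ℝ) → ℝ := fun l h => ET R m (linW (baseV P c R g) (siteVec R v) u h)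
      [(0, l), (0, 0)] fun ps => ov (spins R (ps.getD 0 [])) (spins R (ps.getD 1 []))
    have hEi : ∀ l, Integrable (El l) (gauss (Fin N × K)) := fun l =>
      Integrable.of_bound (continuous_ET (fun p => continuous_linW u p) (linW_pos (baseV_pos g) u) R _
        (F := fun _ ps => ov (spins R (ps.getD 0 [])) (spins R (ps.getD 1 []))) fun _ =>
          continuous_const).aestronglyMeasurable 1
        (Filter.Eventually.of_forall fun h => Vale.Agent.P168.MP.ET_bound (linW_pos (baseV_pos g) u h)
          fun ps => abs_ov_le' _ _)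
    have hterm : ∀ l ∈ range R, Integrable (fun h => cf m l * (El l h * Al (P.f j) (P.f1 j) R m q n l - Bl (P.f j) (P.f1 j) R m q n l))
        (gauss (Fin N × K)) := fun l _ =>
      (((hEi l).mul_const _).sub (integrable_const _)).const_mul _
    have hsum : Integrable (fun h => phiN (P.f j) R m q n +
        1 / 2 * (∑ l ∈ range R, cf m l * (El l h * Al (P.f j) (P.f1 j) R m q n l - Bl (P.f j) (P.f1 j) R m q n l)) + δ)
        (gauss (Fin N × K)) :=
      ((integrable_const _).add ((integrable_finsetSum _ hterm).const_mul _)).add (integrable_const _)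
    refine (integral_mono (hΦi g).integral_prod_right ((hzi g).add hsum) fun h => ?_).trans (le_of_eq ?_)
    · set F := linW (baseV P c R g) (siteVec R v) u h
      have hFp : ∀ p, 0 < F p := linW_pos (baseV_pos g) u h
      have hpat := one_pattern (a := a) hs (P.sm j).sd (abs_fam_le P j) (hm F hFp) hq hq1
        (fun p _ => Vale.Agent.P157.Lim.dot_xv (Nat.pos_of_ne_zero (NeZero.ne N)) _) n
      have hyi : Integrable (fun y => Φ g y h) (gauss (Fin N)) :=
        Integrable.of_bound (continuous_logZ0 (fun p => continuous_const.mul (continuous_fac (P.sm j).cont0 a p))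
          (fun y p => hpos g y h p) R).aestronglyMeasurable (k * P.B + P.B + √u * √(sp R) * l1 h)
          (Filter.Eventually.of_forall fun y => hΦb g y h)
      have e : (∫ y, Real.log (nest m F (fac (P.f j) a y) R []) ∂gauss (Fin N)) =
          (∫ y, Φ g y h ∂gauss (Fin N)) - logZ0 R m F := by
        rw [show (fun y => Real.log (nest m F (fac (P.f j) a y) R [])) = fun y => Φ g y h - logZ0 R m F from
          funext fun y => (Vale.Agent.P168.MP.logZ0_mul hFp (Y := fac (P.f j) a y) fun p => Real.exp_pos _).symm,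
          integral_sub hyi (integrable_const _)]
        simp
      rw [e] at hpat
      simp only [cv, a, ov_eq] at hpat
      simp only [F] at hpat
      simp only [Pi.add_apply, Function.uncurry_apply_pair, El]
      linarith
    · rw [integral_add' (hzi g) hsum, integral_add _ (integrable_const _),
        integral_add (integrable_const _) ((integrable_finsetSum _ hterm).const_mul _), integral_const_mul,
        integral_finsetSum _ hterm]
      · simp only [integral_const_mul, integral_const, probReal_univ, one_smul, hQ, linVal, ovgV]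
        congr 2
        congr 1
        congr 1
        refine sum_congr rfl fun l _ => ?_
        rw [integral_sub ((hEi l).mul_const _) (integrable_const _), integral_mul_const]
        simp [El]
      · exact (integrable_const _).add ((integrable_finsetSum _ hterm).const_mul _)
  have hQi : Integrable Q (pats N k) :=
    ((integrable_const _).add ((integrable_finsetSum _ fun l _ =>
      (((integrable_ovgV (P := P) (c := c)  u l).mul_const _).sub (integrable_const _)).const_mul _).const_mul _)).add
      (integrable_const _)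
  have hpk := integrable_linVal_gV (P := P) (c := c) (N := N) hm hv hu1
  have hp1 := integrable_linVal_gV (P := P) (c := Fin.insertNth (α := fun _ => Fin s) 0 j c) (N := N) hm hv hu1
  have hle : PvV P (Fin.insertNth (α := fun _ => Fin s) 0 j c) N R m v u ≤ PvV P c N R m v u + ∫ g, Q g ∂pats N k := by
    rw [PvV, integral_pats_succ 0 hp1, PvV, ← integral_add hpk hQi]
    have hmp := measurePreserving_ins (N := N) (M := k) 0
    exact integral_mono ((hmp.integrable_comp_of_integrable hp1).integral_prod_right) (hpk.add hQi) key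
  refine (sub_le_iff_le_add'.2 hle).trans (le_of_eq ?_)
  simp only [hQ]
  have ht : ∀ l ∈ range R, Integrable (fun g : Fin k → Fin N → ℝ =>
      cf m l * (ovgV P c R m v g u l * Al (P.f j) (P.f1 j) R m q n l - Bl (P.f j) (P.f1 j) R m q n l)) (pats N k) := fun l _ =>
    (((integrable_ovgV (P := P) (c := c)  u l).mul_const _).sub (integrable_const _)).const_mul _
  rw [integral_add ((integrable_const _).fun_add ((integrable_finsetSum _ ht).const_mul _)) (integrable_const _),
    integral_add (integrable_const _) ((integrable_finsetSum _ ht).const_mul _), integral_const_mul,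
    integral_finsetSum _ ht]
  simp only [integral_const_mul, integral_const, probReal_univ, one_smul]
  congr 2
  congr 1
  refine sum_congr rfl fun l _ => ?_
  rw [integral_sub ((integrable_ovgV (P := P) (c := c)  u l).mul_const _) (integrable_const _), integral_mul_const]
  simp [OvlV]

end values

/-! ### averages over the labels -/

section avg

variable {p : Fin s → ℝ} (hp : Wts p) (hm : ∀ {Ω : Type} (w : List Ω → ℝ), (∀ x, 0 < w x) → Ok R m w)
  (hv : NodeVec R sp v)

include hm hv in
lemma continuousOn_PvB : ContinuousOn (PvB P p N R m v k) (Set.Icc 0 1) :=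
  continuousOn_finsetSum _ fun c _ => continuousOn_const.mul (continuousOn_PvV (c := c) hm hv)

include hm hv in
lemma hasDerivAt_PvB {u : ℝ} (hu : 0 < u) (hu1 : u ≤ 1) :
    HasDerivAt (PvB P p N R m v k) (PdB P p N R m v k u) u :=
  HasDerivAt.fun_sum fun c _ => (hasDerivAt_PvV (c := c) hm hv hu hu1).const_mul _

include hp hm hv in
lemma PdB_ge [NeZero N] (hR : 1 ≤ R) {u : ℝ} (hu0 : 0 ≤ u) (hu1 : u ≤ 1) (hB : 0 ≤ P.B) (hk : k ≤ M) :
    1 / 2 * (N * sp R + ∑ l ∈ range R, cf m l * (N * sp l * OvlB P p N R m v k u l)) -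
        (∑ l ∈ range R, |cf m l| * (|sp l| + sp R) * (N * (collK N R (N * sp R) (M * P.B) / √L))) ≤
      PdB P p N R m v k u := by
  refine le_trans (le_of_eq ?_) (lavg_mono hp fun c => Pd_geV (c := c) hm hv hR hu0 hu1 hB hk)
  simp only [OvlB, lavg_sub, lavg_const_mul, lavg_add, lavg_const hp, lavg_sum]

/-- mean of the values of the trial field -/
noncomputable def phiB (P : Fam s) (p : Fin s → ℝ) (R : ℕ) (m q : ℕ → ℝ) (n : ℕ) : ℝ :=
  ∑ j, p j * phiN (P.f j) R m q n

/-- mean correlation in the trial field -/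
noncomputable def AlB (P : Fam s) (p : Fin s → ℝ) (R : ℕ) (m q : ℕ → ℝ) (n l : ℕ) : ℝ :=
  ∑ j, p j * Al (P.f j) (P.f1 j) R m q n l

/-- the same with the covariance of the trial field -/
noncomputable def BlB (P : Fam s) (p : Fin s → ℝ) (R : ℕ) (m q : ℕ → ℝ) (n l : ℕ) : ℝ :=
  ∑ j, p j * Bl (P.f j) (P.f1 j) R m q n l

include hp hm hv in
/-- one more pattern -/
lemma PvB_step [NeZero N] {δ : ℝ} (hs : ∀ j, Slope (P.f j) (P.f1 j) R m δ) {q : ℕ → ℝ}
    (hq : Prof R q 1) (hq1 : q R = 1) (n : ℕ) {u : ℝ} (hu1 : u ≤ 1) :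
    PvB P p N R m v (k + 1) u - PvB P p N R m v k u ≤ phiB P p R m q n +
      1 / 2 * (∑ l ∈ range R, cf m l * (OvlB P p N R m v k u l * AlB P p R m q n l - BlB P p R m q n l)) + δ := by
  have h := fun j => lavg_mono (M := k) hp fun c =>
    PvV_step (c := c) (N := N) hm hv j (hs j) hq hq1 n hu1
  simp only [lavg_sub, lavg_const_mul, lavg_add, lavg_const hp, lavg_sum, mul_comm _ (Al _ _ _ _ _ _ _)] at h
  have h' := sum_le_sum fun j (_ : j ∈ univ) => mul_le_mul_of_nonneg_left (h j) (hp.nn j)
  simp only [mul_sub, mul_add, sum_sub_distrib, sum_add_distrib, ← sum_mul, hp.one, one_mul] at h'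
  rw [PvB, lavg_succ 0]
  refine h'.trans (le_of_eq ?_)
  simp only [phiB, OvlB, AlB, BlB, mul_sum, ← sum_sub_distrib]
  rw [sum_comm]
  congr 2
  exact sum_congr rfl fun l _ => sum_congr rfl fun j _ => by ring

end avg

end Vale.Agent.P166.Par.Multi
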