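import Vale.Agent.P157.Par.Upper
import Vale.Agent.P166.Par.Multi.UpperMix

/-! **Upper bound** for finitely many species: the pressure averaged over the labels is at most the
functional of every trial, up to `O(√M / N)`. -/

open MeasureTheory ProbabilityTheory Finset Filter
open scoped Topology
open Vale.Agent.P150 (gauss dot)
open Vale.Agent.P168.MP (Ok)
open Vale.Agent.P157.Par

namespace Vale.Agent.P166.Par.Multi

variable {s : ℕ}

/-- the upper bound from the slope inequalities of the species -/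
theorem upper_of_slope (P : Fam s) {p : Fin s → ℝ} (hp : Wts p) {R : ℕ} (hR : 1 ≤ R) {m q : ℕ → ℝ}
    (hm : ∀ {Ω : Type} (w : List Ω → ℝ), (∀ x, 0 < w x) → Ok R m w) (hq : Monotone q) (h0 : 0 ≤ q 0)
    (h1 : q R = 1) {δ : ℝ} (hδ : 0 ≤ δ) (hs : ∀ j, Slope (P.f j) (P.f1 j) R m δ) {α : ℝ} (hα : 0 < α) :
    ∃ K : ℝ, ∀ N M : ℕ, 1 ≤ N → pressBar P p N M ≤
      Fmix α P p R m q + α * δ + K * (√(M : ℝ) + 1 + |(M : ℝ) - α * N|) / N := by
  have hqp : Prof R q 1 := ⟨h0, fun l _ => hq (Nat.le_succ l), h1.le⟩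
  have hex : Ex R m := Ex.of_ok (hm (fun _ : List Bool => (1 : ℝ)) fun _ => one_pos)
  have hA := fun j => adm_exp (P.sm j)
  obtain ⟨j₀⟩ : Nonempty (Fin s) := by
    by_contra h
    have := hp.one
    rw [not_nonempty_iff] at h
    simp at this
  have hB0 : 0 ≤ P.B := (abs_nonneg _).trans (abs_fam_le P j₀ 0)
  set Γ : ℕ → ℝ := fun l => Gam P p R m q l with hΓ
  have hG : ∀ l ≤ R, 0 ≤ Γ l ∧ Γ l ≤ P.D ^ 2 ∧ (l < R → Γ l ≤ Γ (l + 1)) := fun l hl => by
    have h := fun j => gamma_mono (hA j) hex hqp (P.sm j).sd.cont1 (P.sm j).b1 hl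
    refine ⟨sum_nonneg fun j _ => mul_nonneg (hp.nn j) (h j).1, ?_, fun hl' =>
      sum_le_sum fun j _ => mul_le_mul_of_nonneg_left ((h j).2.2 hl') (hp.nn j)⟩
    refine (sum_le_sum fun j _ => mul_le_mul_of_nonneg_left (h j).2.1 (hp.nn j)).trans_eq ?_
    rw [← sum_mul, hp.one, one_mul]
  set sp : ℕ → ℝ := fun l => α * Γ l with hsdef
  have hsp : Prof R sp (α * P.D ^ 2) :=
    ⟨mul_nonneg hα.le (hG 0 (Nat.zero_le R)).1,
      fun l hl => mul_le_mul_of_nonneg_left ((hG l hl.le).2.2 hl) hα.le,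
      mul_le_mul_of_nonneg_left (hG R le_rfl).2.1 hα.le⟩
  set Φ := Phim P p R m q with hΦ
  set Ψ := Phi Real.cosh R m sp with hΨ
  set S := ∑ l ∈ range R, cf m l * (Γ l * q l) with hSdef
  set C := ∑ l ∈ range R, |cf m l| with hC
  have hC0 : 0 ≤ C := sum_nonneg fun l _ => abs_nonneg _
  refine ⟨|Φ| + |S| + δ + C * P.D ^ 2, fun N M hN => ?_⟩
  have : NeZero N := ⟨by omega⟩
  have hN0 : (0 : ℝ) < N := Nat.cast_pos.2 hN
  set d := |(M : ℝ) - α * N| with hd
  set rhs : ℕ → ℝ := fun n => N * (∫ z, Real.log (Vale.Agent.P168.MP.Z m (nodeW Real.cosh R sp z) R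
      ([] : List (Fin (n + 1)))) ∂gauss (Ix R n)) +
    ((M : ℝ) * phiB P p R m q n - M / 2 * (∑ l ∈ range R, cf m l * BlB P p R m q n l) - N * sp R / 2 + M * δ +
      1 / 2 * (∑ l ∈ range R, |cf m l| * (M * |AlB P p R m q n l - Γ l| + P.D ^ 2 * d)) +
      (∑ l ∈ range R, |cf m l| * (|sp l| + sp R) * (N * (collK N R (N * sp R) (M * P.B) / √((n + 1 : ℕ) : ℝ))))) +
    2 * (1 / 2 * C * P.D ^ 2 * √(M : ℝ)) with hrhs
  have key : ∀ n, N * pressBar P p N M ≤ rhs n := fun n => by
    set v : List (Fin (n + 1)) → Ix R n → ℝ := fun x => node R sp x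
    have hv : NodeVec R sp v := nodeVec_node hsp
    set E := ∑ l ∈ range R, |cf m l| * (|sp l| + sp R) * (N * (collK N R (N * sp R) (M * P.B) / √((n + 1 : ℕ) : ℝ)))
    set J : ℝ → ℝ := fun t => bA t M fun i => PvB P p N R m v i (1 - t)
    set J' : ℝ → ℝ := fun t => (bA t M fun i => PdB P p N R m v i (1 - t) * -1) +
      M * bA t (M - 1) fun i => PvB P p N R m v (i + 1) (1 - t) - PvB P p N R m v i (1 - t)
    have hJc : ContinuousOn J (Set.Icc 0 1) :=
      continuousOn_bA M (F := fun i t => PvB P p N R m v i (1 - t)) fun i _ =>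
        (continuousOn_PvB hm hv).comp ((continuous_const.sub continuous_id).continuousOn) fun t ht =>
          ⟨by show 0 ≤ 1 - t; linarith [ht.2], by show 1 - t ≤ 1; linarith [ht.1]⟩
    have hJd : ∀ t ∈ Set.Ioo (0 : ℝ) 1, HasDerivAt J (J' t) t := fun t ht =>
      hasDerivAt_bA M (F := fun i θ => PvB P p N R m v i (1 - θ))
        (F' := fun i θ => PdB P p N R m v i (1 - θ) * -1) fun i _ =>
          (hasDerivAt_PvB hm hv (u := 1 - t) (by linarith [ht.2]) (by linarith [ht.1])).comp t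
            ((hasDerivAt_id t).const_sub 1)
    have hJb : ∀ t ∈ Set.Ioo (0 : ℝ) 1, J' t ≤
        ((M : ℝ) * phiB P p R m q n - M / 2 * (∑ l ∈ range R, cf m l * BlB P p R m q n l) - N * sp R / 2 + M * δ +
          1 / 2 * (∑ l ∈ range R, |cf m l| * (M * |AlB P p R m q n l - Γ l| + P.D ^ 2 * d)) + E) +
        1 / 2 * C * P.D ^ 2 * √(M : ℝ) / √(1 - t) := by
      intro t ht
      set u := 1 - t
      have hu0 : 0 ≤ u := by simp only [u]; linarith [ht.2]
      have hu1 : u ≤ 1 := by simp only [u]; linarith [ht.1]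
      set O : ℕ → ℕ → ℝ := fun l i => OvlB P p N R m v i u l
      have hO : ∀ l i, |O l i| ≤ 1 := fun l i => abs_lavg_le hp fun c =>
        abs_integral_le_integral_abs.trans ((integral_mono_of_nonneg (g := fun _ => (1 : ℝ))
          (Eventually.of_forall fun g => abs_nonneg _) (integrable_const _)
          (Eventually.of_forall fun g => abs_ovg_leV g u l)).trans_eq (by simp))
      have hP : bA t M (fun i => PdB P p N R m v i u * -1) ≤
          -(N * sp R / 2) + E - 1 / 2 * ∑ l ∈ range R, cf m l * (N * sp l * bA t M (O l)) := by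
        refine (bA_le ht.1.le ht.2.le (h := fun i => (-(N * sp R / 2) + E) +
          (-1 / 2) * ∑ l ∈ range R, cf m l * (N * sp l * O l i)) fun i hi => ?_).trans (le_of_eq ?_)
        · have := PdB_ge (N := N) (M := M) (k := i) hp hm hv hR hu0 hu1 hB0 hi
          simp only [O, E] at this ⊢
          linarith
        · rw [bA_add, bA_const, bA_const_mul, bA_sum]
          simp only [bA_const_mul]
          ring
      have hQ : bA t (M - 1) (fun i => PvB P p N R m v (i + 1) u - PvB P p N R m v i u) ≤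
          phiB P p R m q n + δ + 1 / 2 * (∑ l ∈ range R, cf m l *
            (bA t (M - 1) (O l) * AlB P p R m q n l - BlB P p R m q n l)) := by
        refine (bA_le ht.1.le ht.2.le (h := fun i => (phiB P p R m q n + δ) +
          1 / 2 * ∑ l ∈ range R, cf m l * (AlB P p R m q n l * O l i + -BlB P p R m q n l))
          fun i _ => ?_).trans (le_of_eq ?_)
        · have := PvB_step (N := N) (k := i) hp hm hv hs hqp h1 n hu1
          simp only [O, mul_comm (AlB P p R m q n _), ← sub_eq_add_neg]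
          linarith
        · rw [bA_add, bA_const, bA_const_mul, bA_sum]
          simp only [bA_const_mul, bA_add, bA_const]
          congr 2
          exact sum_congr rfl fun l _ => by ring
      have hM : (0 : ℝ) ≤ M := Nat.cast_nonneg M
      have hterm : ∀ l ∈ range R, cf m l * (M * (bA t (M - 1) (O l) * AlB P p R m q n l) - N * sp l * bA t M (O l)) ≤
          |cf m l| * (M * |AlB P p R m q n l - Γ l| + P.D ^ 2 * (√(M : ℝ) / √(1 - t) + d)) := fun l hl => by
        refine (le_abs_self _).trans ?_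
        rw [abs_mul]
        refine mul_le_mul_of_nonneg_left ?_ (abs_nonneg _)
        have hY : |bA t (M - 1) (O l)| ≤ 1 := abs_le.2
          ⟨(bA_const t (-1) (M - 1)).symm.trans_le (bA_le ht.1.le ht.2.le fun i _ => (abs_le.1 (hO l i)).1),
            (bA_le ht.1.le ht.2.le fun i _ => (abs_le.1 (hO l i)).2).trans_eq (bA_const t 1 (M - 1))⟩
        have hmis := abs_bA_mismatch ht.1 ht.2 (hO l) M (α * N)
        rw [show (M : ℝ) * (bA t (M - 1) (O l) * AlB P p R m q n l) - N * sp l * bA t M (O l) =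
          M * (bA t (M - 1) (O l) * (AlB P p R m q n l - Γ l)) +
            Γ l * (M * bA t (M - 1) (O l) - α * N * bA t M (O l)) by simp only [hsdef]; ring]
        refine (abs_add_le _ _).trans (add_le_add ?_ ?_)
        · rw [abs_mul, abs_of_nonneg hM, abs_mul]
          exact mul_le_mul_of_nonneg_left (mul_le_of_le_one_left (abs_nonneg _) hY) hM
        · rw [abs_mul, abs_of_nonneg (hG l (mem_range.1 hl).le).1]
          exact mul_le_mul (hG l (mem_range.1 hl).le).2.1 hmis (abs_nonneg _) (sq_nonneg P.D)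
      have hsum := sum_le_sum hterm
      have e1 : ∑ l ∈ range R, cf m l * (M * (bA t (M - 1) (O l) * AlB P p R m q n l) - N * sp l * bA t M (O l)) =
          M * (∑ l ∈ range R, cf m l * (bA t (M - 1) (O l) * AlB P p R m q n l - BlB P p R m q n l)) +
          M * (∑ l ∈ range R, cf m l * BlB P p R m q n l) -
          ∑ l ∈ range R, cf m l * (N * sp l * bA t M (O l)) := by
        rw [mul_sum, mul_sum, ← sum_add_distrib, ← sum_sub_distrib]
        exact sum_congr rfl fun l _ => by ring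
      have e2 : ∑ l ∈ range R, |cf m l| * (M * |AlB P p R m q n l - Γ l| + P.D ^ 2 * (√(M : ℝ) / √(1 - t) + d)) =
          (∑ l ∈ range R, |cf m l| * (M * |AlB P p R m q n l - Γ l| + P.D ^ 2 * d)) +
            C * (P.D ^ 2 * (√(M : ℝ) / √(1 - t))) := by
        rw [hC, sum_mul, ← sum_add_distrib]
        exact sum_congr rfl fun l _ => by ring
      rw [e1, e2] at hsum
      have := mul_le_mul_of_nonneg_left hQ hM
      have e3 : 1 / 2 * C * P.D ^ 2 * √(M : ℝ) / √(1 - t) = 1 / 2 * (C * (P.D ^ 2 * (√(M : ℝ) / √(1 - t)))) := by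
        ring
      rw [e3]
      show bA t M (fun i => PdB P p N R m v i u * -1) +
        M * bA t (M - 1) (fun i => PvB P p N R m v (i + 1) u - PvB P p N R m v i u) ≤ _
      linarith
    have h := le_of_deriv_le hJc hJd hJb
    simp only [J, bA_at_one, bA_at_zero, sub_self, sub_zero] at h
    rw [PvB_end hN hm hR, PvB_start hp hm hR hv] at h
    simp only [hrhs]
    refine h.trans (le_of_eq ?_)
    rfl
  have hAl : ∀ l ∈ range R, Tendsto (fun n => AlB P p R m q n l) atTop (𝓝 (Γ l)) := fun l hl =>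
    tendsto_finsetSum _ fun j _ => (node_pair (hA j) hex hqp (P.sm j).sd.cont1 (P.sm j).b1
      (mem_range.1 hl).le).const_mul (p j)
  have hBl : ∀ l ∈ range R, Tendsto (fun n => BlB P p R m q n l) atTop (𝓝 (q l * Γ l)) := fun l hl => by
    have hj : ∀ j, Tendsto (fun n => Bl (P.f j) (P.f1 j) R m q n l) atTop
        (𝓝 (q l * Gamma (fun y => Real.exp (P.f j y)) (P.f1 j) R m q l)) := fun j => by
      have h : Tendsto (fun n => Bl (P.f j) (P.f1 j) R m q n l - q l * Al (P.f j) (P.f1 j) R m q n l)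
          atTop (𝓝 0) :=
        squeeze_zero_norm (fun n => abs_Bl_sub_le (P.sm j).sd (abs_fam_le P j) hqp
          (hm (fun _ : List (Fin (n + 1)) => (1 : ℝ)) fun _ => one_pos) (mem_range.1 hl).le)
          (by simpa [div_eq_mul_inv] using
            (tendsto_one_div_add_atTop_nhds_zero_nat (𝕜 := ℝ)).const_mul (P.D ^ 2 * Real.exp (4 * P.B)))
      have hAj : Tendsto (fun n => Al (P.f j) (P.f1 j) R m q n l) atTop
          (𝓝 (Gamma (fun y => Real.exp (P.f j y)) (P.f1 j) R m q l)) :=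
        node_pair (hA j) hex hqp (P.sm j).sd.cont1 (P.sm j).b1 (mem_range.1 hl).le
      simpa using h.add (hAj.const_mul (q l))
    have := tendsto_finsetSum univ fun j _ => (hj j).const_mul (p j)
    have e : q l * Γ l = ∑ j, p j * (q l * Gamma (fun y => Real.exp (P.f j y)) (P.f1 j) R m q l) := by
      simp only [hΓ, Gam, mul_sum]
      exact sum_congr rfl fun j _ => by ring
    rw [e]
    exact this
  have hsq : Tendsto (fun n : ℕ => √((n + 1 : ℕ) : ℝ)) atTop atTop :=
    Real.tendsto_sqrt_atTop.comp (tendsto_natCast_atTop_atTop.comp (tendsto_add_atTop_nat 1))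
  have hlim : Tendsto rhs atTop (𝓝 (N * Ψ + ((M : ℝ) * Φ - M / 2 * (∑ l ∈ range R, cf m l * (q l * Γ l)) -
      N * sp R / 2 + M * δ + 1 / 2 * (∑ l ∈ range R, |cf m l| * (M * |Γ l - Γ l| + P.D ^ 2 * d)) +
      (∑ l ∈ range R, |cf m l| * (|sp l| + sp R) * (N * 0))) + 2 * (1 / 2 * C * P.D ^ 2 * √(M : ℝ)))) :=
    (((node_value adm_cosh hex hsp hR).const_mul (N : ℝ)).add
      ((((((tendsto_finsetSum univ fun j _ => (node_value (hA j) hex hqp hR).const_mul (p j)).const_mul (M : ℝ)).sub
        ((tendsto_finsetSum _ fun l hl => (hBl l hl).const_mul (cf m l)).const_mul ((M : ℝ) / 2))).sub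
          tendsto_const_nhds).add tendsto_const_nhds).add
        ((tendsto_finsetSum _ fun l hl => ((((hAl l hl).sub tendsto_const_nhds).abs.const_mul (M : ℝ)).add
          tendsto_const_nhds).const_mul |cf m l|).const_mul (1 / 2)) |>.add
        (tendsto_finsetSum _ fun l _ => ((tendsto_const_nhds.div_atTop hsq).const_mul (N : ℝ)).const_mul
          (|cf m l| * (|sp l| + sp R))))).add tendsto_const_nhds
  have hle := ge_of_tendsto' hlim key
  have eF : Fmix α P p R m q = α * Φ + Ψ - α / 2 * (Γ R + S) := by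
    simp only [Fmix, hΦ, hΨ, hSdef, hsdef, hΓ, cf]
  have eS : ∑ l ∈ range R, cf m l * (q l * Γ l) = S := sum_congr rfl fun l _ => by ring
  simp only [eS, sub_self, abs_zero, mul_zero, zero_add, sum_const_zero, add_zero, ← sum_mul, ← hC] at hle
  rw [eF]
  have hfac : ((M : ℝ) - α * N) * (Φ - S / 2 + δ) ≤ d * (|Φ| + |S| + δ) := by
    refine (le_abs_self _).trans ?_
    rw [abs_mul]
    refine mul_le_mul_of_nonneg_left ?_ (abs_nonneg _)
    rw [abs_le]
    constructor <;> linarith [le_abs_self Φ, neg_abs_le Φ, le_abs_self S, neg_abs_le S, abs_nonneg S]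
  have hK : 0 ≤ |Φ| + |S| + δ := by positivity
  have hd0 : 0 ≤ d := abs_nonneg _
  have hr : 0 ≤ √(M : ℝ) := Real.sqrt_nonneg _
  have hCD : 0 ≤ C * P.D ^ 2 := by positivity
  have main : (N : ℝ) * pressBar P p N M ≤
      N * (α * Φ + Ψ - α / 2 * (Γ R + S) + α * δ) + (|Φ| + |S| + δ + C * P.D ^ 2) * (√(M : ℝ) + 1 + d) := by
    simp only [hsdef] at hle
    nlinarith [hle, hfac, mul_nonneg hK hr, mul_nonneg hCD hd0, hK, hCD]
  rw [← sub_nonneg, show α * Φ + Ψ - α / 2 * (Γ R + S) + α * δ +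
      (|Φ| + |S| + δ + C * P.D ^ 2) * (√(M : ℝ) + 1 + d) / N - pressBar P p N M =
    (N * (α * Φ + Ψ - α / 2 * (Γ R + S) + α * δ) + (|Φ| + |S| + δ + C * P.D ^ 2) * (√(M : ℝ) + 1 + d) -
      N * pressBar P p N M) / N by field_simp]
  exact div_nonneg (sub_nonneg.2 main) hN0.le

end Vale.Agent.P166.Par.Multi
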