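import Vale.Agent.P166.Par.Multi.Quad
import Vale.Agent.P166.Par.Main
import Vale.Agent.P166.Par.Multi.Lower
import Vale.Agent.P166.Par.Multi.Upper

/-! The Parisi formula for finitely many quadratic potentials `c j u²/2`, `|c j| ≤ 1/10`, at rates `α j`. -/

open MeasureTheory Filter Finset
open scoped Topology
open Vale.Agent.P157.Par (Gamma Prof Slope ex_lin)
open Vale.Agent.P168.MP (lin)
open Vale.Agent.P166.Pattern.Signed (fC)
open Vale.Agent.P166.Pattern.Multi (Ks)
open Vale.Agent.P166.Pattern (cb)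

namespace Vale.Agent.P166.Par.Multi

variable {r : ℕ} {α c : Fin r → ℝ}

/-- the values over all trials -/
def qValues (α c : Fin r → ℝ) : Set ℝ :=
  {v | ∃ (R : ℕ) (q : ℕ → ℝ), 1 ≤ R ∧ Prof R q 1 ∧ q R = 1 ∧ v = formQ α c R q}

lemma qValues_nonempty (α c : Fin r → ℝ) : (qValues α c).Nonempty :=
  ⟨_, 1, fun _ => 1, le_rfl, ⟨zero_le_one, fun _ _ => le_rfl, le_rfl⟩, rfl, rfl⟩

lemma qValues_bddBelow (hc : ∀ j, |c j| ≤ 1 / 10) (hα : ∀ j, 0 ≤ α j) : BddBelow (qValues α c) := by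
  obtain ⟨K, hK, hlip⟩ := spinV_close (∑ j, α j)
  refine ⟨-(∑ j, α j) - K * ∑ j, α j, ?_⟩
  rintro v ⟨R, q, hR, hq, h1, rfl⟩
  have hd : ∀ j, Dat (c j) R (lin R) q := fun j => ⟨hc j, ex_lin R, hq⟩
  have hΓ : ∀ j, Prof R (fun l => Gamma (fun y => Real.exp (qf (c j) y)) (deriv (qf (c j))) R (lin R) q l) 1 :=
    fun j => gamma_quad_prof (hd j)
  have hP : ∀ j, -1 ≤ P157.Par.Phi (fun y => Real.exp (qf (c j) y)) R (lin R) q := fun j => by
    have hint : |∫ s in (0:ℝ)..1, c j / (1 - c j * xiD R q s)| ≤ 1 := by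
      rw [← Real.norm_eq_abs]
      refine (intervalIntegral.norm_integral_le_of_norm_le_const (C := 1) fun s hs => ?_).trans (by norm_num)
      rw [Set.uIoc_of_le zero_le_one] at hs
      obtain ⟨a, b⟩ := xiD_mem hq hs.1.le hs.2
      obtain ⟨c0, c1⟩ := abs_le.1 (hc j)
      have hpos : 9 / 10 ≤ 1 - c j * xiD R q s := by nlinarith
      rw [Real.norm_eq_abs, abs_div, abs_of_pos (show 0 < 1 - c j * xiD R q s by linarith),
        div_le_one (by linarith)]
      linarith [hc j]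
    rw [phi_int (hd j) h1]
    linarith [(abs_le.1 hint).1]
  have hG : Prof R (fun l => ∑ j, α j * Gamma (fun y => Real.exp (qf (c j) y)) (deriv (qf (c j))) R (lin R) q l)
      (∑ j, α j) := by
    refine ⟨sum_nonneg fun j _ => mul_nonneg (hα j) (hΓ j).zero, fun l hl =>
      sum_le_sum fun j _ => mul_le_mul_of_nonneg_left ((hΓ j).mono l hl) (hα j), ?_⟩
    exact sum_le_sum fun j _ => mul_le_of_le_one_right (hα j) (hΓ j).top
  have hA : 0 ≤ ∑ j, α j := sum_nonneg fun j _ => hα j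
  have h0 := (abs_le.1 (hlip R q _ (fun _ => 0) (∑ j, α j) hR hq hG ⟨le_rfl, fun _ _ => le_rfl, hA⟩
    fun l hl => by
      obtain ⟨a, b⟩ := hG.upper hl
      rw [sub_zero, abs_of_nonneg a]; exact b)).1
  rw [spinV_zero, sub_zero] at h0
  have h2 : -(∑ j, α j) ≤ ∑ j, α j * P157.Par.Phi (fun y => Real.exp (qf (c j) y)) R (lin R) q := by
    rw [← sum_neg_distrib]
    exact sum_le_sum fun j _ => by nlinarith [hP j, hα j]
  simp only [formQ]
  linarith

/-- the functional only sees the levels up to `R` -/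
lemma formQ_congr (hc : ∀ j, |c j| ≤ 1 / 10) {R : ℕ} {q q' : ℕ → ℝ} (hq : Prof R q 1) (hq' : Prof R q' 1)
    (h1 : q R = 1) (h : ∀ l ≤ R, q l = q' l) : formQ α c R q = formQ α c R q' := by
  have hx : xiD R q = xiD R q' := funext fun s =>
    congrArg (fun x => x / (R:ℝ)) (sum_congr rfl fun l hl => by rw [h l (mem_range.1 hl).le])
  have h1' : q' R = 1 := h R le_rfl ▸ h1
  have hd : ∀ j, Dat (c j) R (lin R) q := fun j => ⟨hc j, ex_lin R, hq⟩
  have hd' : ∀ j, Dat (c j) R (lin R) q' := fun j => ⟨hc j, ex_lin R, hq'⟩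
  simp only [formQ, fun j => phi_int (hd j) h1, fun j => phi_int (hd' j) h1', hx]
  congr 1
  rw [spinV_congr (G' := fun l => ∑ j, α j *
    Gamma (fun y => Real.exp (qf (c j) y)) (deriv (qf (c j))) R (lin R) q' l) fun l hl =>
      sum_congr rfl fun j _ => by rw [gamma_int (hd j) h1 l hl, gamma_int (hd' j) h1' l hl, hx, h l hl]]
  simp only [spinV]
  rw [show ∀ G : ℕ → ℝ, ∑ l ∈ range R, q l * G l = ∑ l ∈ range R, q' l * G l from fun G =>
    sum_congr rfl fun l hl => by rw [h l (mem_range.1 hl).le]]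

lemma lab_tendsto (A : ℝ) (hA : 0 ≤ A) (C : ℝ) (s : ℕ) :
    Tendsto (fun N : ℕ => C * (s * (√(A * N) + 2)) / N) atTop (𝓝 0) := by
  have h1 : Tendsto (fun N : ℕ => √A / √(N : ℝ)) atTop (𝓝 0) :=
    tendsto_const_nhds.div_atTop (Real.tendsto_sqrt_atTop.comp tendsto_natCast_atTop_atTop)
  have h2 : Tendsto (fun N : ℕ => C * s * (√A / √(N : ℝ) + 2 / N)) atTop (𝓝 0) := by
    simpa using (h1.add (tendsto_const_nhds.div_atTop tendsto_natCast_atTop_atTop)).const_mul (C * s)
  refine h2.congr' ?_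
  filter_upwards [eventually_gt_atTop 0] with N hN
  have hN0 : (0:ℝ) < N := Nat.cast_pos.2 hN
  have hs : 0 < √(N:ℝ) := Real.sqrt_pos.2 hN0
  rw [Real.sqrt_mul hA]
  field_simp
  linear_combination -(C * s * √A) * Real.mul_self_sqrt hN0.le

/-- **the Parisi formula for finitely many quadratic potentials** -/
theorem species_formula (hr : 0 < r) (hα : ∀ j, 0 < α j) (hc : ∀ j, |c j| ≤ 1 / 10) :
    Tendsto (fun N : ℕ => fC c N (Ks α N) / N) atTop (𝓝 (sInf (qValues α c))) := by
  have : Nonempty (Fin r) := ⟨⟨0, hr⟩⟩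
  set A := ∑ j, α j with hAdef
  have hA : 0 < A := sum_pos (fun j _ => hα j) univ_nonempty
  set p := fun j => α j / A
  have hp : Wts p := ⟨fun j => div_nonneg (hα j).le hA.le, by simp only [p, ← sum_div]; exact div_self hA.ne'⟩
  have hAp : (fun j => A * p j) = α := funext fun j => mul_div_cancel₀ _ hA.ne'
  have hbd := qValues_bddBelow hc fun j => (hα j).le
  have key : ∀ L, ∀ hL : 1 ≤ L, ∀ N : ℕ, 1 ≤ N →
      |pressBar (cutFam c hc L hL) p N ⌊A * N⌋₊ - fC c N (Ks α N) / N| ≤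
        A * cutErr L + cb (1 / 10) * (r * (√(A * N) + 2)) / N := fun L hL N hN => by
    have := press_cut hp hc hA.le hL hN
    rwa [hAp] at this
  rw [Metric.tendsto_nhds]
  intro ε hε
  obtain ⟨v, ⟨R, q, hR, hq, hqR, rfl⟩, hvlt⟩ := exists_lt_of_csInf_lt (qValues_nonempty α c)
    (show sInf (qValues α c) < sInf (qValues α c) + ε / 4 by linarith)
  have hsmall : ∀ j, ∀ᶠ L in atTop, slopeErr (c j) L ≤ ε / (8 * A) := fun j =>
    (slopeErr_tendsto (c j)).eventually (eventually_le_nhds (by positivity))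
  obtain ⟨L, hLc, hLs, hLe, hL⟩ := (((fmix_cut hp hc hA.le (show 0 < ε / 8 by linarith)).and
    ((eventually_all.2 hsmall).and ((cutErr_tendsto.eventually
      (eventually_le_nhds (show (0:ℝ) < min 1 (ε / (8 * A)) by positivity))).and
      (eventually_ge_atTop (1:ℝ)))))).exists
  have hfix : ∀ (R : ℕ) (q : ℕ → ℝ), 1 ≤ R → Prof R q 1 → q R = 1 →
      |Fmix A (cutFam c hc L hL) p R (lin R) q - formQ α c R q| ≤ ε / 8 := fun R q a b d => by
    have := hLc hL R q a b d
    rwa [hAp] at this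
  set qe : ℕ → ℝ := fun l => q (min l R)
  have hmono : Monotone qe := fun i j hij => q_mono hq (min_le_min hij le_rfl) (min_le_right _ _)
  have hqe : Prof R qe 1 := ⟨by simpa [qe] using hq.zero, fun l _ => hmono (Nat.le_succ l), by simpa [qe] using hq.top⟩
  have hqeR : qe R = 1 := by simpa [qe] using hqR
  have hform : formQ α c R qe = formQ α c R q :=
    formQ_congr hc hqe hq hqeR fun l hl => by simp [qe, min_eq_left hl]
  obtain ⟨K, hK⟩ := upper_of_slope (cutFam c hc L hL) hp hR (m := lin R) (q := qe)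
    (fun {Ω} w hw => Vale.Agent.P157.Par.ok_linW hR hw) hmono hqe.zero hqeR
    (show 0 ≤ ε / (8 * A) by positivity) (fun j => by
      intro Ω ι κ _ _ _ _ w hw a b ha hb
      exact (cut_slope_pattern (hc j) hL (hLe.trans (min_le_left _ _)) hR (lin R) w hw a b ha hb).trans
        (add_le_add le_rfl (hLs j))) hA
  have hlow := lower_of_le (cutFam c hc L hL) hp hA (v := sInf (qValues α c) - ε / 8) (fun R q a b d => by
    have h1 : sInf (qValues α c) ≤ formQ α c R q := csInf_le hbd ⟨R, q, a, b, d, rfl⟩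
    linarith [(abs_le.1 (hfix R q a b d)).1]) (ε / 8) (by linarith)
  have hce : A * cutErr L ≤ ε / 8 := by
    refine (mul_le_mul_of_nonneg_left (hLe.trans (min_le_right _ _)) hA.le).trans (le_of_eq ?_)
    field_simp
  have hsl : A * (ε / (8 * A)) = ε / 8 := by field_simp
  filter_upwards [hlow, (err_tendsto (K := K) hA).eventually (eventually_le_nhds (show (0:ℝ) < ε / 8 by linarith)),
    (lab_tendsto A hA.le (cb (1 / 10)) r).eventually (eventually_le_nhds (show (0:ℝ) < ε / 8 by linarith)),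
    eventually_ge_atTop 1] with N hlo herr hlab hN
  have hup := hK N ⌊A * N⌋₊ hN
  have h4 := abs_le.1 (hfix R qe hR hqe hqeR)
  have h5 := abs_le.1 (key L hL N hN)
  rw [Real.dist_eq, abs_lt]
  constructor <;> linarith

end Vale.Agent.P166.Par.Multi
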