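import Vale.Agent.P166.Par.Multi.Grow
import Vale.Agent.P166.Par.Multi.Facts
import Vale.Agent.P157.Par.Incr

/-! The increment of the label-averaged perturbed functional from dimension `N` to `N + 1`. -/

open MeasureTheory ProbabilityTheory Finset Real Filter
open scoped Topology
open Vale.Agent.P150 (gauss dot)
open Vale.Agent.P168.MP (lin nest spinAt Batch growC avg)
open Vale.Agent.P157.Lim (xv)
open Vale.Agent.P157.Par

namespace Vale.Agent.P166.Par.Multi

set_option linter.unusedSectionVars false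

variable {s : ℕ} {p : Fin s → ℝ}

/-- the one-site estimate for several species -/
def SiteBound (P : Fam s) (A : ℝ) : Prop := ∃ K : ℝ, 0 ≤ K ∧
    ∀ {Ω : Type} [Fintype Ω] [Nonempty Ω] {R N M : ℕ} [NeZero N], 1 ≤ R → 2 ≤ M → ∀ (k : Fin M → Fin s)
      {w₀ : List Ω → ℝ}, (∀ p, 0 < w₀ p) → ∀ (rd : List Ω → Fin N → Bool) {c t α θ θ' : ℝ},
      0 ≤ c → 0 < t → c ^ 2 + t ^ 2 = 1 → (M : ℝ) * t ^ 2 ≤ A → t ^ 2 * N ≤ 1 → 0 ≤ α → α ≤ A →
      0 < θ → θ ≤ 1 → 0 < θ' →
      ∫ g : Fin M → Fin N → ℝ, EsG α (GbV P k R (qbV P k w₀ rd R g)) R (qbV P k w₀ rd R g) ∂pats N M -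
          K * (θ + (θ' + (ADevV P k w₀ rd R + 1 / M) / θ' + |(M : ℝ) * t ^ 2 - α| + t) / θ) ≤
        ∫ g : Fin M → Fin N → ℝ, ∫ z, log (nest (lin R) (wgV P k w₀ rd g) (siteYV P k c t rd g z) R [])
          ∂gauss (Fin M) ∂pats N M 

/-- one constant for the closeness of every species -/
lemma valueClose_all (P : Fam s) : ∃ K : ℝ, 0 ≤ K ∧ ∀ j, ValueClose (P.f j) K :=
  exists_uniform (C := fun j K => ValueClose (P.f j) K) (fun j => by
    obtain ⟨K, hK, h⟩ := value_close (P.sm j) 1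
    exact ⟨K, hK, fun hR _ hw _ ha _ hq => h hR hw ha hq⟩)
    fun _ _ _ hKK h _ _ _ _ _ _ hR _ hw _ ha _ hq =>
      (h hR hw ha hq).trans (mul_le_mul_of_nonneg_right hKK (adev_nn hw))

/-- one Lipschitz constant for every species -/
lemma phiLip_all (P : Fam s) : ∃ K : ℝ, 0 ≤ K ∧ ∀ j, PhiLip (P.f j) K :=
  exists_uniform (C := fun j K => PhiLip (P.f j) K) (fun j => phiLip_of (P.sm j))
    fun _ _ _ hKK h R q q' hR hq hq' =>
      (h R q q' hR hq hq').trans (mul_le_mul_of_nonneg_right hKK (dist1_nonneg R q q'))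

/-- the mean site value of a trial -/
noncomputable def EM (α : ℝ) (P : Fam s) (p : Fin s → ℝ) (R : ℕ) (q : ℕ → ℝ) : ℝ :=
  EsG α (Gam P p R (lin R) q) R q

lemma gam_prof_lin (P : Fam s) (hp : Wts p) {R : ℕ} (hR : 1 ≤ R) {q : ℕ → ℝ} (hq : Prof R q 1) :
    Prof R (Gam P p R (lin R) q) (P.D ^ 2) :=
  gam_prof P hp hR (fun _ hw => Vale.Agent.P168.MP.ok_lin hR hw) hq

/-- the two facts on the site value used below -/
lemma em_facts (P : Fam s) (A : ℝ) : ∃ K : ℝ, 0 ≤ K ∧ ∀ {p : Fin s → ℝ}, Wts p → ∀ (α : ℝ) (R : ℕ), 0 ≤ α → α ≤ A → 1 ≤ R →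
    (∀ q q', Prof R q 1 → Prof R q' 1 → |EM α P p R q - EM α P p R q'| ≤ K * dist1 R q q') ∧
    ∀ {M : ℕ} (k : Fin M → Fin s) q, Prof R q 1 →
      (∀ q', Prof R q' 1 → |EsG α (GbV P k R q) R q - EsG α (GbV P k R q') R q'| ≤ K * dist1 R q q') ∧
      |EsG α (GbV P k R q) R q - EM α P p R q| ≤ K * ∑ j, |freq k j - p j| := by
  obtain ⟨KE, hKE, hE⟩ := esG_lip P.D A
  obtain ⟨KG, hKG, hG⟩ := gbV_lip P
  refine ⟨KE * (KG + 1) + KE * (2 * P.D ^ 2), by positivity, fun {p} hp α R h0 hA hR => ⟨fun q q' hq hq' => ?_,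
    fun {M} k q hq => ⟨fun q' hq' => ?_, ?_⟩⟩⟩
  · refine (hE α R _ _ q q' h0 hA hR (gam_prof_lin P hp hR hq) (gam_prof_lin P hp hR hq') hq hq').trans ?_
    have := mul_le_mul_of_nonneg_left ((hG R q q' hR hq hq').2 hp) hKE
    nlinarith [mul_nonneg (mul_nonneg hKE (mul_nonneg zero_le_two (sq_nonneg P.D))) (dist1_nonneg R q q')]
  · refine (hE α R _ _ q q' h0 hA hR (gbV_prof P k hR hq) (gbV_prof P k hR hq') hq hq').trans ?_
    have := mul_le_mul_of_nonneg_left ((hG R q q' hR hq hq').1 k) hKE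
    nlinarith [mul_nonneg (mul_nonneg hKE (mul_nonneg zero_le_two (sq_nonneg P.D))) (dist1_nonneg R q q')]
  · refine (hE α R _ _ q q h0 hA hR (gbV_prof P k hR hq) (gam_prof_lin P hp hR hq) hq hq).trans ?_
    have e : dist1 R q q = 0 := by simp [dist1]
    have := mul_le_mul_of_nonneg_left (gbV_freq (p := p) P k hR hq) hKE
    have hs : 0 ≤ ∑ j, |freq k j - p j| := sum_nonneg fun j _ => abs_nonneg _
    rw [e, add_zero]
    nlinarith [mul_nonneg (mul_nonneg hKE (by linarith : (0:ℝ) ≤ KG + 1)) hs]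

section
variable {ι : Type} [Fintype ι] [DecidableEq ι] {N R S : ℕ} [NeZero N] {β : ι → Batch} {h u : ι → ℝ}

/-- the functional of the level values, on average -/
noncomputable def meanFmix (α : ℝ) (p : Fin s → ℝ) (P : Fam s) (R S : ℕ) (β : ι → Batch) (h u : ι → ℝ)
    (N M : ℕ) [NeZero N] : ℝ :=
  meanF p P R S β h u N M fun q => Fmix α P p R (lin R) q

lemma phim_lip (P : Fam s) (hp : Wts p) {KL : ℝ} (hL : ∀ j, PhiLip (P.f j) KL) (hR : 1 ≤ R) {q q' : ℕ → ℝ}
    (hq : Prof R q 1) (hq' : Prof R q' 1) :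
    |Phim P p R (lin R) q - Phim P p R (lin R) q'| ≤ KL * dist1 R q q' := by
  rw [Phim, Phim, ← sum_sub_distrib]
  refine (abs_sum_le_sum_abs _ _).trans ((sum_le_sum (g := fun j => p j * (KL * dist1 R q q')) fun j _ => ?_).trans_eq
    (by rw [← sum_mul, hp.one, one_mul]))
  rw [← mul_sub, abs_mul, abs_of_nonneg (hp.nn j)]
  exact mul_le_mul_of_nonneg_left (hL j R q q' hR hq hq') (hp.nn j)

lemma meanFmix_eq (P : Fam s) (hp : Wts p) (hR : 1 ≤ R) {α : ℝ} (hα : 0 ≤ α) (M : ℕ) :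
    meanFmix α p P R S β h u N M = α * meanF p P R S β h u N M (fun q => Phim P p R (lin R) q) +
      meanF p P R S β h u N M (fun q => EM α P p R q) := by
  obtain ⟨KL, hKL, hL⟩ := phiLip_all P
  obtain ⟨KE, hKE, hE⟩ := em_facts P α
  rw [meanFmix, meanF, meanF, meanF, ← lavg_const_mul, ← lavg_add]
  refine congrArg (lavg p) (funext fun k => ?_)
  rw [← integral_const_mul, ← integral_add]
  · exact integral_congr_ae (Eventually.of_forall fun g => fmix_site P p hR (qlev_prof (wV_pos g)).2 α)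
  · exact (integrable_lipV hR hKL fun q q' hq hq' => phim_lip P hp hL hR hq hq').const_mul α
  · exact integrable_lipV hR hKE (hE hp α R hα le_rfl hR).1

lemma inv_sqrt_le {x m : ℝ} (hx : 0 < x) (hm : x / 2 ≤ m) : 1 / √m ≤ 2 / √x := by
  have h1 := Real.sqrt_le_sqrt hm
  rw [Real.sqrt_div hx.le] at h1
  have h2 : √(2:ℝ) ≤ 2 := Real.sqrt_le_iff.2 ⟨by norm_num, by norm_num⟩
  have hsx := Real.sqrt_pos.2 hx
  have hs2 : 0 < √(2:ℝ) := by positivity
  refine (one_div_le_one_div_of_le (div_pos hsx hs2) h1).trans ?_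
  rw [one_div_div]
  exact div_le_div_of_nonneg_right h2 hsx.le

end

theorem increment (P : Fam s) (hp : Wts p) {α : ℝ} (hα : 0 < α) (hst : SiteBound P (α + 1)) :
    ∀ ε > 0, ∃ C : ℝ, ∃ N₀ J : ℕ, 0 ≤ C ∧ ∀ {ι : Type} [Fintype ι] [DecidableEq ι] (β : ι → Batch)
      {R S : ℕ} (h u : ι → ℝ), 2 ≤ R → (∀ j, |h j| ≤ 1) → (∀ j, |u j| ≤ 1) →
      ∀ (N : ℕ) [NeZero N], N₀ ≤ N →
      meanFmix α p P R S β h u N ⌊α * N⌋₊ - ε -
        C * (∑ i ∈ range J, ADb p P R S β h u N (⌊α * N⌋₊ + i)) - growC R S β / ((N : ℝ) + 1) ≤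
      pertBI p P R S β h u (N + 1) (α * ((N + 1 : ℕ) : ℝ)) - pertBI p P R S β h u N (α * N) := by
  intro ε hε
  obtain ⟨KV, hKV, hV⟩ := valueClose_all P
  obtain ⟨KL, hKL, hL⟩ := phiLip_all P
  obtain ⟨KE, hKE, hE⟩ := em_facts P α
  obtain ⟨K, hK, hsite⟩ := hst
  obtain ⟨θ, θ', hθ, hθ1, hθ', -, N₁, hN₁⟩ := site_err hK (half_pos hε) hα
  have ht : Tendsto (fun N : ℕ => KE * ((s : ℝ) * (2 / √(α * N)))) atTop (𝓝 0) := by
    simpa using (((tendsto_const_nhds.div_atTop (Real.tendsto_sqrt_atTop.comp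
      (tendsto_natCast_atTop_atTop.const_mul_atTop hα))).const_mul (s : ℝ)).const_mul KE :
      Tendsto (fun N : ℕ => KE * ((s : ℝ) * (2 / √(α * N)))) atTop _)
  obtain ⟨N₂, hN₂⟩ := eventually_atTop.1 (ht.eventually_le_const (half_pos hε))
  set C₁ := α * (KV + KL * exp (4 * P.B))
  set C₂ := K / (θ' * θ)
  set C₃ := KE * exp (4 * P.B)
  have hC₁ : 0 ≤ C₁ := mul_nonneg hα.le (add_nonneg hKV (mul_nonneg hKL (exp_pos _).le))
  have hC₂ : 0 ≤ C₂ := div_nonneg hK (by positivity)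
  have hC₃ : 0 ≤ C₃ := mul_nonneg hKE (exp_pos _).le
  refine ⟨C₁ + C₂ + C₃, max N₁ N₂, ⌈α⌉₊ + 3, by positivity, ?_⟩
  intro ι _ _ β R S h u hR hh hu N _ hN
  have hR1 : 1 ≤ R := by omega
  obtain ⟨hαN, herr⟩ := hN₁ N (le_of_max_le_left hN)
  set x := α * (N : ℝ)
  set x' := α * ((N + 1 : ℕ) : ℝ) with hx'
  have hxe : x' = x + α := by rw [hx']; push_cast; ring
  have hxp : 0 < x := by linarith
  set M₀ := ⌊x⌋₊
  set M' := ⌊x'⌋₊
  set A₀ := fun M => ADb p P R S β h u N M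
  set Sa := ∑ i ∈ range (⌈α⌉₊ + 3), A₀ (M₀ + i)
  have hA0 : ∀ i, 0 ≤ A₀ (M₀ + i) := fun i => ADb_nonneg hp
  have hf0 : (M₀ : ℝ) ≤ x := Nat.floor_le hxp.le
  have hf1 : x < M₀ + 1 := Nat.lt_floor_add_one _
  have hg0 : (M' : ℝ) ≤ x' := Nat.floor_le (by positivity)
  have hg1 : x' < M' + 1 := Nat.lt_floor_add_one _
  set Φm := meanF p P R S β h u N M₀ fun q => Phim P p R (lin R) q
  set E := meanF p P R S β h u N M₀ fun q => EM α P p R q
  set c := √(N:ℝ) / √((N:ℝ) + 1)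
  set t := 1 / √((N:ℝ) + 1)
  have ht2 : t ^ 2 = 1 / ((N:ℝ) + 1) := by rw [div_pow, one_pow, Real.sq_sqrt (by positivity)]
  -- one site at `M` patterns
  have step : ∀ M, M₀ ≤ M → M < M₀ + (⌈α⌉₊ + 3) → |(M:ℝ) - x'| ≤ 1 → E - ε - (C₂ + C₃) * Sa -
      growC R S β / ((N:ℝ) + 1) ≤ pertB p P R S β h u (N + 1) M - pertB p P R S β h u N M := by
    intro M hM hM2 hMx
    obtain ⟨hMx1, hMx2⟩ := abs_le.1 hMx
    have hMbig : x / 2 ≤ M := by linarith
    have hM2' : 2 ≤ M := by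
      have : (1:ℝ) < M := by linarith
      exact_mod_cast this
    have hct : c ^ 2 + t ^ 2 = 1 := by
      rw [ht2, div_pow, Real.sq_sqrt (Nat.cast_nonneg N), Real.sq_sqrt (by positivity)]; field_simp
    have hMt : |(M:ℝ) * t ^ 2 - α| ≤ 1 / ((N:ℝ) + 1) := by
      have e : (M:ℝ) * t ^ 2 - α = ((M:ℝ) - x') / ((N:ℝ) + 1) := by
        rw [ht2, hx', sub_div]; push_cast; field_simp
      rw [e, abs_div, abs_of_pos (show (0:ℝ) < (N:ℝ) + 1 by positivity)]
      exact div_le_div_of_nonneg_right hMx (by positivity)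
    have hMA : (M:ℝ) * t ^ 2 ≤ α + 1 := by
      have := (abs_le.1 hMt).2
      have : 1 / ((N:ℝ) + 1) ≤ 1 := by rw [div_le_one (by positivity)]; linarith [Nat.cast_nonneg (α := ℝ) N]
      linarith
    have htN : t ^ 2 * N ≤ 1 := by
      rw [ht2, one_div_mul_eq_div, div_le_one (by positivity)]; linarith
    set a := θ + (θ' + (1 / (M:ℝ)) / θ' + |(M:ℝ) * t ^ 2 - α| + t) / θ
    have key : ∀ k : Fin M → Fin s,
        (∫ g, EM α P p R (qV (N := N) P R S β h u k g) ∂pats N M) - KE * (∑ j, |freq k j - p j|) -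
            (K * a + C₂ * ADV P R S β h u N k) - growC R S β / ((N:ℝ) + 1) ≤
          pertV P R S β h u (N + 1) k - pertV P R S β h u N k := by
      intro k
      have h1 := hsite (R := R) (N := N) (M := M) hR1 hM2' k (w₀ := gW R S β h u N) (fun p => exp_pos _) (spinAt R)
        (c := c) (t := t) (α := α) (θ := θ) (θ' := θ') (by positivity) (by positivity) hct hMA htN hα.le
        (le_add_of_nonneg_right zero_le_one) hθ hθ1 hθ'
      change (∫ g, EsG α (GbV P k R (qV P R S β h u k g)) R (qV P R S β h u k g) ∂pats N M) -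
          K * (θ + (θ' + (ADV P R S β h u N k + 1 / (M:ℝ)) / θ' + |(M:ℝ) * t ^ 2 - α| + t) / θ) ≤
        ∫ g, ∫ z, log (nest (lin R) (wV (N := N) P R S β h u k g)
          (fun q => avg fun b => siteFV P k c t g z (spinAt R q) b) R []) ∂gauss (Fin M) ∂pats N M at h1
      have h2 := (abs_le.1 (pertV_grow (N := N) (k := k) (P := P) (S := S) (β := β) hR hh hu)).1
      have hi1 := integrable_lipV (P := P) (N := N) (κ := k) (S := S) (β := β) (h := h) (u := u) hR1 hKE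
        (F := fun q => EM α P p R q) (hE hp α R hα.le le_rfl hR1).1
      have hi2 := integrable_lipV (P := P) (N := N) (κ := k) (S := S) (β := β) (h := h) (u := u) hR1 hKE
        (F := fun q => EsG α (GbV P k R q) R q)
        fun q q' hq hq' => (((hE hp α R hα.le le_rfl hR1).2 k q hq).1 q' hq')
      have h3 : (∫ g, EM α P p R (qV (N := N) P R S β h u k g) ∂pats N M) - KE * (∑ j, |freq k j - p j|) ≤
          ∫ g, EsG α (GbV P k R (qV P R S β h u k g)) R (qV P R S β h u k g) ∂pats N M := by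
        have := integral_mono (μ := pats N M) (hi1.sub (integrable_const (KE * ∑ j, |freq k j - p j|))) hi2
          fun g => show EM α P p R (qV P R S β h u k g) - KE * (∑ j, |freq k j - p j|) ≤ _ by
            have := (abs_le.1 ((hE hp α R hα.le le_rfl hR1).2 k (qV P R S β h u k g) (qV_prof g)).2).1
            linarith
        simpa [integral_sub hi1 (integrable_const _)] using this
      have e : K * (θ + (θ' + (ADV P R S β h u N k + 1 / (M:ℝ)) / θ' + |(M:ℝ) * t ^ 2 - α| + t) / θ) =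
          K * a + C₂ * ADV P R S β h u N k := by
        simp only [a, C₂]
        field_simp
        ring
      simp only [c, t] at *
      linarith
    have h4 := lavg_mono hp key
    simp only [lavg_sub, lavg_add, lavg_const_mul, lavg_const hp] at h4
    change meanF p P R S β h u N M (fun q => EM α P p R q) -
        KE * lavg (M := M) p (fun k => ∑ j, |freq k j - p j|) - (K * a + C₂ * A₀ M) - _ ≤
      pertB p P R S β h u (N + 1) M - pertB p P R S β h u N M at h4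
    have hfr : KE * lavg (M := M) p (fun k => ∑ j, |freq k j - p j|) ≤ ε / 2 := by
      refine (mul_le_mul_of_nonneg_left ((lavg_freq hp M (by omega)).trans ?_) hKE).trans
        (hN₂ N (le_of_max_le_right hN))
      rw [← mul_one_div]
      exact mul_le_mul_of_nonneg_left (inv_sqrt_le hxp hMbig) (Nat.cast_nonneg s)
    have hKa : K * a ≤ ε / 2 := by
      refine le_trans (mul_le_mul_of_nonneg_left ?_ hK) herr
      have hm : 1 / (M:ℝ) ≤ 2 / x := by
        rw [show 2 / x = 1 / (x / 2) by rw [one_div_div]]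
        exact one_div_le_one_div_of_le (by linarith) hMbig
      simp only [a]
      gcongr
    obtain ⟨j, rfl⟩ := Nat.exists_eq_add_of_le hM
    have h5 := (abs_le.1 (shift (P := P) (N := N) (S := S) (β := β) (h := h) (u := u) hp hKE hR1
      (hE hp α R hα.le le_rfl hR1).1 M₀ j)).1
    have h6 : C₃ * ∑ i ∈ range j, A₀ (M₀ + i) ≤ C₃ * Sa := mul_le_mul_of_nonneg_left
      (sum_le_sum_of_subset_of_nonneg (range_mono (by omega)) fun i _ _ => hA0 i) hC₃
    have h7 : C₂ * A₀ (M₀ + j) ≤ C₂ * Sa := mul_le_mul_of_nonneg_left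
      (single_le_sum (f := fun i => A₀ (M₀ + i)) (fun i _ => hA0 i) (mem_range.2 (by omega))) hC₂
    simp only [E, C₃] at *
    linarith
  -- combine
  have hxx : x ≤ x' := by linarith
  have hp' := pattI (P := P) (N := N) (S := S) (β := β) (h := h) (u := u) hp hKV hKL hV hL hR1 hxp.le hxx
    (A := α) (le_of_eq (by linarith))
  have hsum : ∑ i ∈ range (⌈α⌉₊ + 2), A₀ (M₀ + i) ≤ Sa :=
    sum_le_sum_of_subset_of_nonneg (range_mono (by omega)) fun i _ _ => hA0 i
  have hs2 := mul_le_mul_of_nonneg_left hsum hC₁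
  have hm0 : M₀ ≤ M' := Nat.floor_le_floor hxx
  have hm1 : M' + 1 < M₀ + (⌈α⌉₊ + 3) := by
    have : (M' : ℝ) < (M₀ + ⌈α⌉₊ + 2 : ℕ) := by push_cast; linarith [Nat.le_ceil α]
    have : M' < M₀ + ⌈α⌉₊ + 2 := by exact_mod_cast this
    omega
  have s0 := step M' hm0 (by omega) (abs_le.2 ⟨by linarith, by linarith⟩)
  have s1 := step (M' + 1) (by omega) hm1 (abs_le.2 ⟨by push_cast; linarith, by push_cast; linarith⟩)
  have w0 : 0 ≤ x' - M' := sub_nonneg.2 hg0
  have c0 := mul_le_mul_of_nonneg_left s0 (show 0 ≤ 1 - (x' - M') by linarith)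
  have c1 := mul_le_mul_of_nonneg_left s1 w0
  rw [meanFmix_eq P hp hR1 hα.le]
  rw [show x' - x = α by linarith] at hp'
  simp only [pertBI, C₁] at *
  change α * Φm + E - ε - _ * Sa - _ ≤ _
  change α * Φm - _ ≤ _ at hp'
  linarith

end Vale.Agent.P166.Par.Multi
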