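import Vale.Agent.P166.Par.Multi.Facts
import Vale.Agent.P157.Par.Close

/-! Concentration of the overlap of the derivatives, patterns of several species. -/

open MeasureTheory ProbabilityTheory Finset Real
open Vale.Agent.P150 (gauss dot)
open Vale.Agent.P168 (sg)
open Vale.Agent.P168.MP (lin ET Valid)
open Vale.Agent.P157.Lim (xv sgn dot_xv)
open Vale.Agent.P157.Par

namespace Vale.Agent.P166.Par.Multi

set_option linter.unusedSectionVars false

variable {s : ℕ} {Ω : Type} [Fintype Ω] [Nonempty Ω] {R N : ℕ} [NeZero N]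

lemma pair_closeV (P : Fam s) : ∃ K : ℝ, 0 ≤ K ∧ ∀ j, PairClose (P.f j) (P.f1 j) K :=
  exists_uniform (C := fun j K => PairClose (P.f j) (P.f1 j) K) (fun j => pair_close (P.sm j) 1)
    fun j K K' hKK h Ω ι _ _ _ R hR w hw a ha q hq l hl Ψ C hC => by
      obtain ⟨h1, h2⟩ := h hR hw ha hq hl hC
      have hC0 : 0 ≤ C := (abs_nonneg _).trans (hC [] [])
      have hx : 0 ≤ devOf R w (cv a) q l + adev R w (cv a) q :=
        add_nonneg (devOf_nonneg hw _ _ _) (Vale.Agent.P157.Par.adev_nonneg hw _ _)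
      have := mul_le_mul_of_nonneg_right (mul_le_mul_of_nonneg_right hKK hC0) hx
      exact ⟨h1.trans this, h2.trans this⟩

lemma continuous_qlevV {M : ℕ} (P : Fam s) (k : Fin M → Fin s) {w₀ : List Ω → ℝ} (hw₀ : ∀ p, 0 < w₀ p)
    (rd : List Ω → Fin N → Bool) (l : ℕ) :
    Continuous fun g : Fin M → Fin N → ℝ => qlev R (fun p => w₀ p * hamV P k g (rd p)) rd l :=
  continuous_ET (fun p => (continuous_hamV P k (rd p)).const_mul _)
    (fun g p => mul_pos (hw₀ p) (hamV_pos P k g _)) R _ fun _ => continuous_const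

lemma continuous_dlvV {M : ℕ} (P : Fam s) (k : Fin M → Fin s) {w₀ : List Ω → ℝ} (hw₀ : ∀ p, 0 < w₀ p)
    (rd : List Ω → Fin N → Bool) (l : ℕ) :
    Continuous fun g : Fin M → Fin N → ℝ => dlv R (fun p => w₀ p * hamV P k g (rd p)) rd l := by
  have h : ∀ j, Continuous fun g : Fin M → Fin N → ℝ =>
      devOf R (fun p => w₀ p * hamV P k g (rd p)) (ovK rd) (qlev R (fun p => w₀ p * hamV P k g (rd p)) rd) j :=
    fun j => continuous_ET (fun p => (continuous_hamV P k (rd p)).const_mul _)
      (fun g p => mul_pos (hw₀ p) (hamV_pos P k g _)) R _ fun _ =>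
        (continuous_const.sub (continuous_qlevV P k hw₀ rd j)).abs
  unfold dlv adev
  exact (h l).add (((continuous_finsetSum _ fun j _ => h j).div_const _).add (h R))

/-- **Concentration of the overlap of the derivatives**, patterns of several species -/
theorem qconcV (P : Fam s) :
    ∃ K : ℝ, 0 ≤ K ∧
    ∀ {Ω : Type} [Fintype Ω] [Nonempty Ω] {R N M : ℕ} [NeZero N] (_ : 1 ≤ R) (_ : 2 ≤ M)
      (k : Fin M → Fin s)
      (w₀ : List Ω → ℝ) (_ : ∀ p, 0 < w₀ p) (rd : List Ω → Fin N → Bool) {t : ℝ} (_ : 0 < t) {l : ℕ} (_ : l ≤ R),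
      let w := fun (g : Fin M → Fin N → ℝ) p => w₀ p * hamV P k g (rd p)
      ∫ g, devOf R (w g) (qKV P k rd g) (GbV P k R (qlev R (w g) rd)) l ∂pats N M ≤
        t + K / t * ((∫ g, (devOf R (w g) (ovK rd) (qlev R (w g) rd) l + adev R (w g) (ovK rd) (qlev R (w g) rd)) ∂pats N M) + 1 / M) := by
  obtain ⟨KP, hKP, hpair⟩ := pair_closeV P
  obtain ⟨KL, hKL, hlip⟩ := gamma_lip P
  set B := P.B
  set D := P.D
  set e4 := exp (4 * B)
  set L := KL * e4
  have he : 0 < e4 := exp_pos _
  -- bound for one ordered pair of patterns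
  set C₀ := 4 * D ^ 2 * L + (D ^ 2 + 1) * (2 * e4) * (KP * (2 * D ^ 2)) with hP
  have hL : 0 ≤ L := mul_nonneg hKL he.le
  have hP0 : 0 ≤ C₀ := by positivity
  refine ⟨(C₀ + 4 * D ^ 4) / 4, by positivity, ?_⟩
  intro Ω _ _ R N M _ hR hM k w₀ hw₀ rd t ht l hl w
  have hf1 : ∀ j, Continuous (P.f1 j) := fun j => (P.sm j).cont1
  have hD : 0 ≤ D := P.nonneg (k ⟨0, by omega⟩)
  have hwp : ∀ g p, 0 < w g p := fun g p => mul_pos (hw₀ p) (hamV_pos P k g _)
  have hpr : ∀ (w : List Ω → ℝ), (∀ p, 0 < w p) → Prof R (qlev R w rd) 1 := fun w hw => (qlev_prof hw).1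
  set G : Fin M → (Fin M → Fin N → ℝ) → ℝ := fun a g =>
    Gamma (fun y => exp (P.f (k a) y)) (P.f1 (k a)) R (lin R) (qlev R (w g) rd) l
  have hGb : ∀ (j : Fin s) (w : List Ω → ℝ), (∀ p, 0 < w p) →
      0 ≤ Gamma (fun y => exp (P.f j y)) (P.f1 j) R (lin R) (qlev R w rd) l ∧
        Gamma (fun y => exp (P.f j y)) (P.f1 j) R (lin R) (qlev R w rd) l ≤ D ^ 2 := fun j w hw =>
    (Gamma_prof (P.sm j) hR (hpr w hw) fun w hw => Vale.Agent.P168.MP.ok_lin hR hw).mem hl
  have hGc : ∀ a, Continuous (G a) := by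
    intro a
    rw [continuous_iff_continuousAt]
    intro g₀
    rw [ContinuousAt, tendsto_iff_norm_sub_tendsto_zero]
    refine squeeze_zero (fun g => norm_nonneg _) (fun g => hlip (k a) R _ _ hR (hpr _ (hwp g)) (hpr _ (hwp g₀)) l hl) ?_
    have c : ∀ j, Continuous fun g => |qlev R (w g) rd j - qlev R (w g₀) rd j| := fun j =>
      ((continuous_qlevV P k hw₀ rd j).sub continuous_const).abs
    have hc : Continuous fun g => KL * (|qlev R (w g) rd l - qlev R (w g₀) rd l| +
        (∑ j ∈ range R, |qlev R (w g) rd j - qlev R (w g₀) rd j|) / R + |qlev R (w g) rd R - qlev R (w g₀) rd R|) :=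
      (((c l).add ((continuous_finsetSum _ fun j _ => c j).div_const _)).add (c R)).const_mul _
    simpa using hc.tendsto g₀
  set φ : (Fin M → Fin N → ℝ) → Fin M → List Ω → List Ω → ℝ := fun g a p p' =>
    P.f1 (k a) (dot (xv N (rd p)) (g a)) * P.f1 (k a) (dot (xv N (rd p')) (g a))
  have hφ : ∀ g a p p', |φ g a p p'| ≤ D ^ 2 := fun g a p p' => by
    rw [abs_mul, sq]; exact mul_le_mul ((P.sm _).b1 _) ((P.sm _).b1 _) (abs_nonneg _) hD
  have hφG : ∀ g a p p', |φ g a p p' - G a g| ≤ 2 * D ^ 2 := fun g a p p' => by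
    refine (abs_sub _ _).trans ?_
    obtain ⟨g1, g2⟩ := hGb (k a) _ (hwp g)
    linarith [hφ g a p p', abs_of_nonneg g1]
  have hφc : ∀ a p p', Continuous fun g => φ g a p p' := fun a p p' =>
    ((hf1 _).comp ((continuous_dot_left _).comp (continuous_apply a))).mul
      ((hf1 _).comp ((continuous_dot_left _).comp (continuous_apply a)))
  set F : Fin M → Fin M → (Fin M → Fin N → ℝ) → ℝ := fun a b g =>
    ET R (lin R) (w g) [(0, l), (0, 0)] fun ps =>
      (φ g a (ps.getD 0 []) (ps.getD 1 []) - G a g) * (φ g b (ps.getD 0 []) (ps.getD 1 []) - G b g)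
  have hFb : ∀ a b g, |F a b g| ≤ 4 * D ^ 4 := fun a b g =>
    Vale.Agent.P168.MP.ET_bound (hwp g) fun ps => by
      rw [abs_mul]
      exact (mul_le_mul (hφG g a _ _) (hφG g b _ _) (abs_nonneg _) (by positivity)).trans_eq (by ring)
  have hwc : ∀ p, Continuous fun g => w g p := fun p => (continuous_hamV P k (rd p)).const_mul _
  have hFc : ∀ a b, Continuous (F a b) := fun a b =>
    continuous_ET hwc hwp R _ fun ps => ((hφc a _ _).sub (hGc a)).mul ((hφc b _ _).sub (hGc b))
  have hFi : ∀ a b, Integrable (F a b) (pats N M) := fun a b =>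
    Integrable.of_bound (hFc a b).aestronglyMeasurable (4 * D ^ 4) (Filter.Eventually.of_forall (hFb a b))
  have hdc : Continuous fun g => dlv R (w g) rd l := continuous_dlvV P k hw₀ rd l
  have hdi : Integrable (fun g => dlv R (w g) rd l) (pats N M) :=
    Integrable.of_bound hdc.aestronglyMeasurable 6 (Filter.Eventually.of_forall fun g => abs_dlv_le (hwp g) hR rd l)
  set Δ := ∫ g, dlv R (w g) rd l ∂pats N M with hΔ
  have hΔ0 : 0 ≤ Δ := integral_nonneg fun g => dlv_nonneg (hwp g) rd l
  -- two different patterns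
  have hoff : ∀ a b, a ≠ b → ∫ g, F a b g ∂pats N M ≤ C₀ * Δ := by
    intro a b hab
    obtain ⟨M', rfl⟩ : ∃ M', M = M' + 1 := ⟨M - 1, by omega⟩
    obtain ⟨a', rfl⟩ := Fin.exists_succAbove_eq hab
    rw [integral_pats_succ b (hFi _ _), hΔ, integral_pats_succ b hdi, ← integral_const_mul]
    have hconv : ∀ {H : (Fin (M' + 1) → Fin N → ℝ) → ℝ}, Integrable H (pats N (M' + 1)) →
        Integrable (fun g₀ => ∫ y, H (ins b y g₀) ∂gauss (Fin N)) (pats N M') := fun {H} hH =>
      (((measurePreserving_ins b).integrable_comp_of_integrable hH)).integral_prod_right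
    refine integral_mono (hconv (hFi _ _)) ((hconv hdi).const_mul C₀) fun g₀ => ?_
    set ja := k (b.succAbove a') with hja
    set jb := k b with hjb
    set k' : Fin M' → Fin s := fun i => k (b.succAbove i)
    have hk : k = b.insertNth jb k' := by
      funext i
      rcases Fin.eq_self_or_eq_succAbove b i with rfl | ⟨i', rfl⟩
      · simp [jb]
      · simp [k']
    set w₂ : List Ω → ℝ := fun p => w₀ p * hamV P k' g₀ (rd p)
    have hw₂ : ∀ p, 0 < w₂ p := fun p => mul_pos (hw₀ p) (hamV_pos P k' g₀ _)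
    set q₂ := qlev R w₂ rd
    set f := P.f jb
    set f1 := P.f1 jb
    have hf : Continuous f := (P.sm jb).cont0
    set G₂a := Gamma (fun y => exp (P.f ja y)) (P.f1 ja) R (lin R) q₂ l
    set G₂ := Gamma (fun y => exp (f y)) f1 R (lin R) q₂ l
    set av : List Ω → Fin N → ℝ := fun p => xv N (rd p)
    set Ψ : List Ω → List Ω → ℝ := fun p p' =>
      P.f1 ja (dot (xv N (rd p)) (g₀ a')) * P.f1 ja (dot (xv N (rd p')) (g₀ a')) - G₂a
    have hΨ : ∀ p p', |Ψ p p'| ≤ 2 * D ^ 2 := fun p p' => by
      refine (abs_sub _ _).trans ?_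
      obtain ⟨g1, g2⟩ := hGb ja _ hw₂
      have := mul_le_mul ((P.sm ja).b1 (dot (xv N (rd p)) (g₀ a'))) ((P.sm ja).b1 (dot (xv N (rd p')) (g₀ a'))) (abs_nonneg _) hD
      rw [← abs_mul] at this
      linarith [abs_of_nonneg g1]
    have hw : ∀ y, w (ins b y g₀) = fun p => w₂ p * fac f av y p := fun y => funext fun p => by
      show w₀ p * hamV P k (ins b y g₀) (rd p) = _
      rw [hk, hamV_ins]
      simp only [w₂, fac, av, f, mul_assoc]
    have hY : ∀ y p, exp (-B) ≤ fac f av y p ∧ fac f av y p ≤ exp B := fun y p =>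
      ⟨exp_le_exp.2 ((P.sm jb).lb _), exp_le_exp.2 (P.ub jb _)⟩
    have hcv : cv av = ovK rd := funext fun p => funext fun p' => ov_eq _ _
    obtain ⟨p1, p2⟩ := hpair jb hR hw₂ (a := av) (fun p => by rw [hcv]; exact (ov_self _).le) (hpr w₂ hw₂) hl hΨ
    rw [hcv] at p1 p2
    -- the frozen observable
    set F₂ : (Fin N → ℝ) → ℝ := fun y => ET R (lin R) (fun p => w₂ p * fac f av y p) [(0, l), (0, 0)] fun ps =>
      Ψ (ps.getD 0 []) (ps.getD 1 []) * (f1 (dot (av (ps.getD 0 [])) y) * f1 (dot (av (ps.getD 1 [])) y) - G₂)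
    have hbound : ∀ y, F (b.succAbove a') b (ins b y g₀) ≤ F₂ y + 4 * D ^ 2 * L * dlv R (w (ins b y g₀)) rd l ∧
        dlv R w₂ rd l ≤ 2 * e4 * dlv R (w (ins b y g₀)) rd l := by
      intro y
      obtain ⟨k1, k2⟩ := tilt_rep hR hw₂ (hY y) rd
      rw [hw y]
      refine ⟨?_, by simp only [dlv]; linarith [(k1 l hl).1]⟩
      have hwy : ∀ p, 0 < w₂ p * fac f av y p := fun p => mul_pos (hw₂ p) (exp_pos _)
      have hG : ∀ j, |Gamma (fun z => exp (P.f j z)) (P.f1 j) R (lin R) (qlev R (w (ins b y g₀)) rd) l -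
          Gamma (fun z => exp (P.f j z)) (P.f1 j) R (lin R) q₂ l| ≤
            L * dlv R (fun p => w₂ p * fac f av y p) rd l := fun j => by
        simp only [q₂, hw y]
        refine (hlip j R _ _ hR (hpr _ hwy) (hpr _ hw₂) l hl).trans ?_
        simp only [L, dlv, adev, mul_add, mul_assoc, ← mul_div_assoc, Finset.mul_sum, e4]
        rw [add_assoc]
        refine add_le_add (mul_le_mul_of_nonneg_left (k1 l hl).2 hKL) (add_le_add
          (div_le_div_of_nonneg_right (Finset.sum_le_sum fun j hj =>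
            mul_le_mul_of_nonneg_left (k1 j (Finset.mem_range.1 hj).le).2 hKL) (Nat.cast_nonneg _))
          (mul_le_mul_of_nonneg_left (k1 R le_rfl).2 hKL))
      have hFe : F (b.succAbove a') b (ins b y g₀) = ET R (lin R) (fun p => w₂ p * fac f av y p) [(0, l), (0, 0)]
          fun ps => (Ψ (ps.getD 0 []) (ps.getD 1 []) + (G₂a - G (b.succAbove a') (ins b y g₀))) *
            (f1 (dot (av (ps.getD 0 [])) y) * f1 (dot (av (ps.getD 1 [])) y) - G b (ins b y g₀)) := by
        simp only [F]
        rw [hw y]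
        simp only [φ, Ψ, av, ins, Fin.insertNth_apply_same, Fin.insertNth_apply_succAbove, ← hja, ← hjb, f1]
        congr 1; funext ps; ring
      rw [hFe, ← Vale.Agent.P168.MP.ET_const (R := R) (m := lin R) hwy [(0, l), (0, 0)]
        (4 * D ^ 2 * L * dlv R (fun p => w₂ p * fac f av y p) rd l), ← Vale.Agent.P168.MP.ET_add]
      refine Vale.Agent.P168.MP.ET_mono hwy fun ps => ?_
      set u := Ψ (ps.getD 0 []) (ps.getD 1 [])
      set v := f1 (dot (av (ps.getD 0 [])) y) * f1 (dot (av (ps.getD 1 [])) y)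
      have hu := hΨ (ps.getD 0 []) (ps.getD 1 [])
      have hv : |v - G b (ins b y g₀)| ≤ 2 * D ^ 2 := by
        simpa [φ, v, av, ins, f1, jb] using hφG (ins b y g₀) b (ps.getD 0 []) (ps.getD 1 [])
      have hGa : |G (b.succAbove a') (ins b y g₀) - G₂a| ≤ L * dlv R (fun p => w₂ p * fac f av y p) rd l := hG ja
      have hGb' : |G b (ins b y g₀) - G₂| ≤ L * dlv R (fun p => w₂ p * fac f av y p) rd l := hG jb
      have e : (u + (G₂a - G (b.succAbove a') (ins b y g₀))) * (v - G b (ins b y g₀)) =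
          u * (v - G₂) + ((G₂a - G (b.succAbove a') (ins b y g₀)) * (v - G b (ins b y g₀)) +
            u * (G₂ - G b (ins b y g₀))) := by ring
      rw [e]
      refine add_le_add le_rfl ((le_abs_self _).trans ((abs_add_le _ _).trans ?_))
      rw [abs_mul, abs_mul, abs_sub_comm G₂a, abs_sub_comm G₂]
      have h1 := mul_le_mul hGa hv (abs_nonneg _) (mul_nonneg hL (dlv_nonneg hwy rd l))
      have h2 := mul_le_mul hu hGb' (abs_nonneg _) (by positivity)
      linarith
    have hcy : ∀ p, Continuous fun y => w₂ p * fac f av y p := fun p =>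
      (continuous_exp.comp (hf.comp (continuous_dot_left (av p)))).const_mul _
    have hpy : ∀ y p, 0 < w₂ p * fac f av y p := fun y p => mul_pos (hw₂ p) (exp_pos _)
    have iA : Integrable (fun y => ET R (lin R) (fun p => w₂ p * fac f av y p) [(0, l), (0, 0)] fun ps =>
        Ψ (ps.getD 0 []) (ps.getD 1 []) * (f1 (dot (av (ps.getD 0 [])) y) * f1 (dot (av (ps.getD 1 [])) y)))
        (gauss (Fin N)) :=
      Integrable.of_bound (continuous_ET hcy hpy R _ fun ps => (((hf1 jb).comp (continuous_dot_left _)).mul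
          ((hf1 jb).comp (continuous_dot_left _))).const_mul _).aestronglyMeasurable (2 * D ^ 2 * (D * D))
        (Filter.Eventually.of_forall fun y => Vale.Agent.P168.MP.ET_bound (hpy y) fun ps => by
          rw [abs_mul, abs_mul]
          exact mul_le_mul (hΨ _ _) (mul_le_mul ((P.sm jb).b1 _) ((P.sm jb).b1 _) (abs_nonneg _) hD) (by positivity) (by positivity))
    have iB : Integrable (fun y => ET R (lin R) (fun p => w₂ p * fac f av y p) [(0, l), (0, 0)] fun ps =>
        Ψ (ps.getD 0 []) (ps.getD 1 [])) (gauss (Fin N)) :=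
      Integrable.of_bound (continuous_ET hcy hpy R [(0, l), (0, 0)]
        (F := fun _ ps => Ψ (ps.getD 0 []) (ps.getD 1 [])) fun _ => continuous_const).aestronglyMeasurable
        (2 * D ^ 2) (Filter.Eventually.of_forall fun y => Vale.Agent.P168.MP.ET_bound (hpy y) fun ps => hΨ _ _)
    have hF2 : ∀ y, F₂ y = (ET R (lin R) (fun p => w₂ p * fac f av y p) [(0, l), (0, 0)] fun ps =>
        Ψ (ps.getD 0 []) (ps.getD 1 []) * (f1 (dot (av (ps.getD 0 [])) y) * f1 (dot (av (ps.getD 1 [])) y))) -
        G₂ * ET R (lin R) (fun p => w₂ p * fac f av y p) [(0, l), (0, 0)] fun ps =>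
          Ψ (ps.getD 0 []) (ps.getD 1 []) := fun y => by
      simp only [F₂, ← Vale.Agent.P168.MP.ET_const_mul, ← Vale.Agent.P168.MP.ET_sub]
      congr 1; funext ps; ring
    have iF2 : Integrable F₂ (gauss (Fin N)) := by
      rw [funext hF2]; exact iA.sub (iB.const_mul _)
    have hI2 : ∫ y, F₂ y ∂gauss (Fin N) ≤ (D ^ 2 + 1) * (KP * (2 * D ^ 2)) * dlv R w₂ rd l := by
      simp only [hF2]
      rw [integral_sub iA (iB.const_mul _), integral_const_mul]
      obtain ⟨g1, g2⟩ := hGb jb _ hw₂
      have a1 := (abs_le.1 p1).2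
      have a2 := mul_le_mul_of_nonneg_left (abs_le.1 p2).1 g1
      have a3 := mul_le_mul_of_nonneg_right g2
        (mul_nonneg (mul_nonneg hKP (by positivity : 0 ≤ 2 * D ^ 2)) (dlv_nonneg (R := R) hw₂ rd l))
      simp only [dlv] at *
      linarith
    have hcd : Continuous fun y => dlv R (w (ins b y g₀)) rd l := by
      refine hdc.comp ?_
      exact continuous_pi fun i => by
        rcases Fin.eq_self_or_eq_succAbove b i with rfl | ⟨j, rfl⟩
        · simp only [ins, Fin.insertNth_apply_same]; exact continuous_id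
        · simp only [ins, Fin.insertNth_apply_succAbove]; exact continuous_const
    have id' : Integrable (fun y => dlv R (w (ins b y g₀)) rd l) (gauss (Fin N)) :=
      Integrable.of_bound hcd.aestronglyMeasurable 6
        (Filter.Eventually.of_forall fun y => abs_dlv_le (hwp _) hR rd l)
    have hw2int : dlv R w₂ rd l ≤ 2 * e4 * ∫ y, dlv R (w (ins b y g₀)) rd l ∂gauss (Fin N) := by
      have := integral_mono (μ := gauss (Fin N)) (integrable_const (dlv R w₂ rd l)) (id'.const_mul (2 * e4))
        fun y => (hbound y).2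
      simpa [integral_const_mul] using this
    have iF : Integrable (fun y => F (b.succAbove a') b (ins b y g₀)) (gauss (Fin N)) := by
      refine Integrable.of_bound ((hFc _ _).comp ?_).aestronglyMeasurable (4 * D ^ 4)
        (Filter.Eventually.of_forall fun y => hFb _ _ _)
      exact continuous_pi fun i => by
        rcases Fin.eq_self_or_eq_succAbove b i with rfl | ⟨j, rfl⟩
        · simp only [ins, Fin.insertNth_apply_same]; exact continuous_id
        · simp only [ins, Fin.insertNth_apply_succAbove]; exact continuous_const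
    refine (integral_mono iF (iF2.add (id'.const_mul (4 * D ^ 2 * L))) fun y => (hbound y).1).trans ?_
    simp only [Pi.add_apply]
    rw [integral_add iF2 (id'.const_mul _), integral_const_mul]
    have h3 := mul_le_mul_of_nonneg_left hw2int (show 0 ≤ (D ^ 2 + 1) * (KP * (2 * D ^ 2)) by positivity)
    rw [hP]
    linarith
  -- expand the square
  set V : (Fin M → Fin N → ℝ) → ℝ := fun g => (∑ a, ∑ b, F a b g) / (M:ℝ) ^ 2
  have hM0 : (0:ℝ) < M := by exact_mod_cast (show 0 < M by omega)
  have hV : ∀ g, devOf R (w g) (qKV P k rd g) (GbV P k R (qlev R (w g) rd)) l ≤ t + V g * (1 / (4 * t)) := by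
    intro g
    refine (Vale.Agent.P168.MP.ET_mono (hwp g) fun ps => abs_le_sq ht).trans (le_of_eq ?_)
    simp only [div_eq_mul_inv, Vale.Agent.P168.MP.ET_add, Vale.Agent.P168.MP.ET_const (hwp g),
      Vale.Agent.P168.MP.ET_mul_const, one_mul]
    congr 2
    simp only [V, F, ← Vale.Agent.P168.MP.ET_sum, div_eq_mul_inv, ← Vale.Agent.P168.MP.ET_mul_const]
    congr 1; funext ps
    rw [← Finset.sum_mul_sum]
    simp only [Finset.sum_sub_distrib, qKV, GbV, Gm, uat, φ, G]
    field_simp
  have hVc : Continuous V := (continuous_finsetSum _ fun a _ => continuous_finsetSum _ fun b _ => hFc a b).div_const _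
  have hVi : Integrable V (pats N M) :=
    (integrable_finsetSum _ fun a _ => integrable_finsetSum _ fun b _ => hFi a b).div_const _
  have hdev : Integrable (fun g => devOf R (w g) (qKV P k rd g) (GbV P k R (qlev R (w g) rd)) l) (pats N M) := by
    refine Integrable.mono' ((integrable_const t).add (hVi.mul_const (1 / (4 * t)))) ?_
      (Filter.Eventually.of_forall fun g => ?_)
    · refine Continuous.aestronglyMeasurable ?_
      refine continuous_ET hwc hwp R _ fun ps => (Continuous.sub ?_ ?_).abs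
      · unfold qKV uat
        exact (continuous_finsetSum _ fun a _ => hφc a _ _).div_const _
      · unfold GbV Gm
        exact (continuous_finsetSum _ fun a _ => hGc a).div_const _
    · rw [Real.norm_eq_abs, abs_of_nonneg (devOf_nonneg (hwp g) _ _ _)]
      exact hV g
  refine (integral_mono hdev ((integrable_const t).add (hVi.mul_const (1 / (4 * t)))) hV).trans ?_
  simp only [Pi.add_apply]
  rw [integral_add (integrable_const t) (hVi.mul_const _), integral_const, probReal_univ, one_smul,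
    integral_mul_const]
  refine add_le_add le_rfl ?_
  have hsum : ∫ g, V g ∂pats N M ≤ C₀ * Δ + 4 * D ^ 4 * (1 / M) := by
    simp only [V]
    rw [integral_div, integral_finsetSum _ fun a _ => integrable_finsetSum _ fun b _ => hFi a b]
    have h1 : ∀ a, ∫ g, ∑ b, F a b g ∂pats N M ≤ M * (C₀ * Δ) + 4 * D ^ 4 := by
      intro a
      rw [integral_finsetSum _ fun b _ => hFi a b, ← Finset.sum_erase_add _ _ (Finset.mem_univ a)]
      refine add_le_add ((Finset.sum_le_sum fun b hb => hoff a b (Finset.ne_of_mem_erase hb).symm).trans ?_) ?_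
      · rw [Finset.sum_const, nsmul_eq_mul]
        refine mul_le_mul_of_nonneg_right ?_ (mul_nonneg hP0 hΔ0)
        simp
      · calc ∫ g, F a a g ∂pats N M ≤ ∫ _g, 4 * D ^ 4 ∂pats N M :=
              integral_mono (hFi a a) (integrable_const _) fun g => (le_abs_self _).trans (hFb a a g)
          _ = _ := by simp
    refine (div_le_div_of_nonneg_right (Finset.sum_le_sum fun a _ => h1 a) (by positivity)).trans_eq ?_
    simp only [Finset.sum_const, Finset.card_univ, Fintype.card_fin, nsmul_eq_mul]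
    field_simp
  calc (∫ g, V g ∂pats N M) * (1 / (4 * t)) ≤ (C₀ * Δ + 4 * D ^ 4 * (1 / M)) * (1 / (4 * t)) :=
        mul_le_mul_of_nonneg_right hsum (by positivity)
    _ ≤ (C₀ + 4 * D ^ 4) * (Δ + 1 / M) * (1 / (4 * t)) := by
        refine mul_le_mul_of_nonneg_right ?_ (by positivity)
        have : (0:ℝ) ≤ 1 / M := by positivity
        nlinarith [mul_nonneg hP0 this, mul_nonneg (show 0 ≤ 4 * D ^ 4 by positivity) hΔ0]
    _ = (C₀ + 4 * D ^ 4) / 4 / t * (Δ + 1 / M) := by field_simp

end Vale.Agent.P166.Par.Multi
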