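import Vale.Agent.P166.Par.Multi.RForm

/-! The quadratic potentials `c j u²/2` inside the bounded family: the cut family, the uniform
convergence of its functional, and its pressure averaged over labels against the pattern pressure
with given counts. -/

open MeasureTheory ProbabilityTheory Real Finset Filter
open scoped Topology
open Vale.Agent.P150 (gauss dot)
open Vale.Agent.P157.Lim (xv wt)
open Vale.Agent.P157.Par (Gamma Prof Sm pats ins ex_lin)
open Vale.Agent.P168.MP (lin)
open Vale.Agent.P166.Pattern.Signed (fT fC fT_eq fC_lip)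
open Vale.Agent.P166.Pattern.Multi (Ks)
open Vale.Agent.P166.Pattern (cnt cb cb_nonneg)

namespace Vale.Agent.P166.Par.Multi

variable {s N M : ℕ}

/-! ### the cut family -/

lemma cutD_le {c L : ℝ} (hc : |c| ≤ 1 / 10) (hL : 1 ≤ L) : cutD c L ≤ cutD (1 / 10) L := by
  unfold cutD
  rw [abs_of_pos (show (0:ℝ) < 1 / 10 by norm_num)]
  exact mul_le_mul_of_nonneg_right hc (by linarith)

/-- the cuts of the potentials `c j u²/2` -/
noncomputable def cutFam (c : Fin s → ℝ) (hc : ∀ j, |c j| ≤ 1 / 10) (L : ℝ) (hL : 1 ≤ L) : Fam s where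
  f j := fL (c j) L
  f1 j := fL1 (c j) L
  f2 j := fL2 (c j) L
  f3 j := fL3 (c j) L
  B := L ^ 2 / 10
  D := cutD (1 / 10) L
  sm j := by
    have h := cut_sm (c j) hL
    have hB : |c j| * L ^ 2 ≤ L ^ 2 / 10 := by nlinarith [hc j, sq_nonneg L]
    have hD := cutD_le (hc j) hL
    exact ⟨h.d0, h.d1, h.d2, h.cont3, fun x => by linarith [h.lb x], fun x => (h.b1 x).trans hD,
      fun x => (h.b2 x).trans hD, fun x => (h.b3 x).trans hD⟩
  ub j x := by
    have := fL_le (c := c j) (by linarith : (0:ℝ) < L) x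
    nlinarith [hc j, sq_nonneg L]

/-- **the functional of the cut family converges uniformly over the trials** -/
theorem fmix_cut {p : Fin s → ℝ} (hp : Wts p) {c : Fin s → ℝ} (hc : ∀ j, |c j| ≤ 1 / 10) {α : ℝ}
    (hα : 0 ≤ α) {ε : ℝ} (hε : 0 < ε) :
    ∀ᶠ L in atTop, ∀ hL : 1 ≤ L, ∀ (R : ℕ) (q : ℕ → ℝ), 1 ≤ R → Prof R q 1 → q R = 1 →
      |Fmix α (cutFam c hc L hL) p R (lin R) q - formQ (fun j => α * p j) c R q| ≤ ε := by
  obtain ⟨K, hK, hlip⟩ := spinV_close (2 * α)
  set δ := min 1 (ε / (α * (K + 1) + 1))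
  have hδ : 0 < δ := lt_min one_pos (by positivity)
  have hδε : α * (K + 1) * δ ≤ ε := by
    have h1 : δ * (α * (K + 1) + 1) ≤ ε := (le_div_iff₀ (by positivity)).1 (min_le_right _ _)
    nlinarith
  have hcut : ∀ j, ∀ᶠ L in atTop, ∀ (R : ℕ) (m q : ℕ → ℝ), Vale.Agent.P157.Par.Ex R m → Prof R q 1 →
      |P157.Par.Phi (fun y => exp (fL (c j) L y)) R m q - P157.Par.Phi (fun y => exp (qf (c j) y)) R m q| ≤ δ ∧
      ∀ l ≤ R, |Gamma (fun y => exp (fL (c j) L y)) (deriv (fL (c j) L)) R m q l -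
        Gamma (fun y => exp (qf (c j) y)) (deriv (qf (c j))) R m q l| ≤ δ := fun j => by
    obtain ⟨L₀, -, h⟩ := cut_uniform (hc j) hδ
    exact eventually_atTop.2 ⟨L₀, h⟩
  filter_upwards [eventually_all.2 hcut] with L hcutL hL R q hR hq h1
  have hPh : ∀ j, |P157.Par.Phi (fun y => exp (fL (c j) L y)) R (lin R) q -
      P157.Par.Phi (fun y => exp (qf (c j) y)) R (lin R) q| ≤ δ := fun j => (hcutL j R _ q (ex_lin R) hq).1
  set A := fun j l => Gamma (fun y => exp (fL (c j) L y)) (fL1 (c j) L) R (lin R) q l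
  set B := fun j l => Gamma (fun y => exp (qf (c j) y)) (deriv (qf (c j))) R (lin R) q l
  have hG : ∀ j, ∀ l ≤ R, |A j l - B j l| ≤ δ := fun j l hl => by
    have := (hcutL j R _ q (ex_lin R) hq).2 l hl
    rwa [(funext fun x => ((cut_sm (c j) hL).d0 x).deriv : deriv (fL (c j) L) = fL1 (c j) L)] at this
  have hpB : ∀ j, Prof R (B j) 1 := fun j => gamma_quad_prof (⟨hc j, ex_lin R, hq⟩ : Dat (c j) R (lin R) q)
  have hpA : ∀ j, Prof R (A j) (2:ℝ) := fun j => by
    have h := Vale.Agent.P157.Par.Gamma_prof (cut_sm (c j) hL) hR hq (m := lin R)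
      fun w hw => Vale.Agent.P157.Par.ok_linW hR hw
    exact ⟨h.zero, h.mono, by linarith [(abs_le.1 (hG j R le_rfl)).2, (hpB j).top, min_le_left (1:ℝ) (ε / (α * (K + 1) + 1))]⟩
  have comb : ∀ (F : Fin s → ℕ → ℝ), (∀ j, Prof R (F j) 2) → Prof R (fun l => α * ∑ j, p j * F j l) (2 * α) := by
    intro F hF
    refine ⟨mul_nonneg hα (sum_nonneg fun j _ => mul_nonneg (hp.nn j) (hF j).zero), fun l hl =>
      mul_le_mul_of_nonneg_left (sum_le_sum fun j _ => mul_le_mul_of_nonneg_left ((hF j).mono l hl) (hp.nn j)) hα, ?_⟩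
    rw [mul_comm 2]
    refine mul_le_mul_of_nonneg_left ((sum_le_sum fun j _ => mul_le_mul_of_nonneg_left (hF j).top (hp.nn j)).trans_eq ?_) hα
    rw [← sum_mul, hp.one, one_mul]
  have hmean : ∀ (F G : Fin s → ℝ), (∀ j, |F j - G j| ≤ δ) → |α * ∑ j, p j * F j - α * ∑ j, p j * G j| ≤ α * δ := by
    intro F G h
    rw [← mul_sub, ← sum_sub_distrib, abs_mul, abs_of_nonneg hα]
    refine mul_le_mul_of_nonneg_left ((abs_sum_le_sum_abs _ _).trans ((sum_le_sum fun j _ => ?_).trans_eq
      (show ∑ j, p j * δ = δ by rw [← sum_mul, hp.one, one_mul]))) hα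
    rw [← mul_sub, abs_mul, abs_of_nonneg (hp.nn j)]
    exact mul_le_mul_of_nonneg_left (h j) (hp.nn j)
  have e1 := abs_le.1 (hlip R q _ _ _ hR hq (comb A hpA) (comb B fun j => (hpB j).weaken one_le_two)
    fun l hl => hmean (fun j => A j l) (fun j => B j l) fun j => hG j l hl)
  have e2 := abs_le.1 (hmean _ _ hPh)
  rw [fmix_site _ _ hR h1, esG_spin hR h1, formQ]
  simp only [mul_assoc, ← mul_sum]
  show |α * (∑ j, p j * P157.Par.Phi (fun y => exp (fL (c j) L y)) R (lin R) q) +
      spinV R q (fun l => α * ∑ j, p j * A j l) -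
    (α * (∑ j, p j * P157.Par.Phi (fun y => exp (qf (c j) y)) R (lin R) q) +
      spinV R q (fun l => α * ∑ j, p j * B j l))| ≤ ε
  rw [abs_le]
  constructor <;> linarith [hδε]

/-! ### the cut in the pressure at given labels -/

/-- log partition function of patterns with one potential each, one pattern singled out -/
noncomputable def kfG (W : (Fin N → Bool) → ℝ) (f : ℝ → ℝ) (F : Fin M → ℝ → ℝ)
    (p : (Fin N → ℝ) × (Fin M → Fin N → ℝ)) : ℝ :=
  log (∑ σ, W σ * exp (f (dot (xv N σ) p.1) + ∑ a, F a (dot (xv N σ) (p.2 a))))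

lemma kfG_integrable [NeZero N] {W : (Fin N → Bool) → ℝ} (hW : ∀ σ, 0 < W σ) {f : ℝ → ℝ}
    {F : Fin M → ℝ → ℝ} (hf : Continuous f) (hF : ∀ a, Continuous (F a)) (hb : ∀ t, |f t| ≤ t ^ 2)
    (hb' : ∀ a t, |F a t| ≤ t ^ 2) :
    Integrable (kfG W f F) ((gauss (Fin N)).prod (pats N M)) := by
  have s1 : ∀ σ, Integrable (fun p : (Fin N → ℝ) × (Fin M → Fin N → ℝ) =>
      dot (xv N σ) p.1 ^ 2 + ∑ a, dot (xv N σ) (p.2 a) ^ 2) ((gauss (Fin N)).prod (pats N M)) := fun σ =>
    ((integrable_field (dot_sq_unit σ) integrable_sq).comp_fst _).add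
      (Integrable.comp_snd (integrable_finsetSum univ fun a _ =>
        (measurePreserving_eval _ a).integrable_comp_of_integrable
          (integrable_field (dot_sq_unit σ) integrable_sq)) _)
  refine ((integrable_const (|log (∑ σ, W σ)|)).add (integrable_finsetSum univ fun σ _ => s1 σ)).mono'
    ?_ (.of_forall fun p => ?_)
  · refine (Continuous.log (continuous_finsetSum _ fun σ _ => continuous_const.mul (continuous_exp.comp ?_))
      fun p => (sum_pos (fun σ _ => mul_pos (hW σ) (exp_pos _)) univ_nonempty).ne').aestronglyMeasurable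
    exact (hf.comp ((Vale.Agent.P157.Par.continuous_dot_left _).comp continuous_fst)).add
      (continuous_finsetSum _ fun a _ => (hF a).comp
        ((Vale.Agent.P157.Par.continuous_dot_left _).comp ((continuous_apply a).comp continuous_snd)))
  · rw [Real.norm_eq_abs]
    refine (abs_log_le hW _).trans (add_le_add le_rfl (sum_le_sum fun σ _ => ?_))
    exact (abs_add_le _ _).trans (add_le_add (hb _)
      ((abs_sum_le_sum_abs _ _).trans (sum_le_sum fun a _ => hb' a _)))

/-- patterns with any weights and one potential each -/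
theorem pats_stab_fam [NeZero N] {L : ℝ} (hL : 0 < L) :
    ∀ (M : ℕ) (b : Fin M → ℝ), (∀ a, |b a| ≤ 1 / 10) → ∀ (W : (Fin N → Bool) → ℝ), (∀ σ, 0 < W σ) →
      |∫ g, log (∑ σ, W σ * exp (∑ a, qf (b a) (dot (xv N σ) (g a)))) ∂pats N M -
        ∫ g, log (∑ σ, W σ * exp (∑ a, fL (b a) L (dot (xv N σ) (g a)))) ∂pats N M| ≤ M * cutErr L := by
  intro M
  induction M with
  | zero => intro b _ W _; simp
  | succ M ih =>
    intro b hb W hW
    have split : ∀ F : ℝ → ℝ → ℝ, (∀ c, Continuous (F c)) →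
        ∫ g, log (∑ σ, W σ * exp (∑ a, F (b a) (dot (xv N σ) (g a)))) ∂pats N (M + 1) =
          ∫ p, kfG W (F (b 0)) (fun a => F (b a.succ)) p ∂(gauss (Fin N)).prod (pats N M) := fun F hF => by
      have hmp := Vale.Agent.P157.Par.measurePreserving_ins (N := N) (M := M) 0
      rw [← hmp.map_eq, integral_map hmp.measurable.aemeasurable]
      · refine integral_congr_ae (.of_forall fun p => ?_)
        simp only [kfG, ins]
        refine congrArg log (sum_congr rfl fun σ _ => ?_)
        rw [Fin.sum_univ_succ]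
        simp
      · exact (Continuous.log (continuous_finsetSum _ fun σ _ => continuous_const.mul (continuous_exp.comp
          (continuous_finsetSum _ fun a _ => (hF _).comp
            ((Vale.Agent.P157.Par.continuous_dot_left _).comp (continuous_apply a)))))
          fun g => (sum_pos (fun σ _ => mul_pos (hW σ) (exp_pos _)) univ_nonempty).ne').aestronglyMeasurable
    rw [split qf continuous_qf, split (fun c => fL c L) fun c => continuous_fL c L]
    have hq := fun a => abs_qf_le (hb a)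
    have hl : ∀ a x, |fL (b a) L x| ≤ x ^ 2 := fun a x => (fL_abs_le hL x).1.trans (hq a x)
    have k1 := kfG_integrable (M := M) hW (continuous_qf (b 0)) (F := fun a => qf (b a.succ))
      (fun a => continuous_qf _) (hq 0) fun a => hq a.succ
    have k2 := kfG_integrable (M := M) hW (continuous_qf (b 0)) (F := fun a => fL (b a.succ) L)
      (fun a => continuous_fL _ L) (hq 0) fun a => hl a.succ
    have k3 := kfG_integrable (M := M) hW (continuous_fL (b 0) L) (F := fun a => fL (b a.succ) L)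
      (fun a => continuous_fL _ L) (hl 0) fun a => hl a.succ
    have a1 := abs_integral_sub_le_right k1 k2 (C := M * cutErr L) fun y => by
      have h := ih (fun a => b a.succ) (fun a => hb _) (fun σ => W σ * exp (qf (b 0) (dot (xv N σ) y)))
        fun σ => mul_pos (hW σ) (exp_pos _)
      simpa only [kfG, exp_add, mul_assoc] using h
    have a2 := abs_integral_sub_le_left k2 k3 (C := cutErr L) fun g => by
      have e : ∀ (f : ℝ → ℝ) (y : Fin N → ℝ), kfG W f (fun a => fL (b a.succ) L) (y, g) =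
          log (∑ σ, W σ * exp (∑ a, fL (b a.succ) L (dot (xv N σ) (g a))) * exp (f (dot (xv N σ) y))) :=
        fun f y => by
          simp only [kfG]
          exact congrArg log (sum_congr rfl fun σ _ => by rw [exp_add]; ring)
      simp only [e]
      exact flat_stab (hb 0) hL (fun σ => mul_pos (hW σ) (exp_pos _)) dot_sq_unit
    refine (abs_sub_le _ (∫ p, kfG W (qf (b 0)) (fun a => fL (b a.succ) L) p ∂(gauss (Fin N)).prod (pats N M)) _).trans ?_
    push_cast
    linarith

lemma fT_eq_pats (c : Fin s → ℝ) (k : Fin M → Fin s) :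
    fT c N k = ∫ g, log (∑ σ, wt N σ * exp (∑ a, qf (c (k a)) (dot (xv N σ) (g a)))) ∂pats N M := by
  have e : ∀ g : Fin M → Fin N → ℝ,
      Pattern.Signed.sLw (fun a => c (k a)) (Pattern.w0 (Fin N)) (fun _ => Pattern.unif (Fin N)) g =
        log (∑ σ, wt N σ * exp (∑ a, qf (c (k a)) (dot (xv N σ) (g a)))) := fun g => by
    refine congrArg log (sum_congr rfl fun σ _ => ?_)
    congr 1
    · simp [Pattern.w0, wt]
    · refine congrArg exp (sum_congr rfl fun a _ => ?_)
      have hX : Pattern.X (Pattern.unif (Fin N)) (g a) σ = dot (xv N σ) (g a) := by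
        simp only [Pattern.X, Pattern.lin, dot]
        refine sum_congr rfl fun i _ => ?_
        simp only [Pattern.co, Pattern.unif, Fintype.card_fin, xv, Real.sqrt_inv,
          Pattern.sg, Vale.Agent.P157.Lim.sgn]
        ring
      rw [hX, qf]
      ring
  simp only [fT, Pattern.Signed.sFw, e]
  rfl

/-- stability at given labels -/
lemma pressV_cut [NeZero N] {c : Fin s → ℝ} (hc : ∀ j, |c j| ≤ 1 / 10) {L : ℝ} (hL : 1 ≤ L) (k : Fin M → Fin s) :
    |pressV (cutFam c hc L hL) N k - fT c N k / N| ≤ (M:ℝ) / N * cutErr L := by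
  rw [fT_eq_pats, pressV, ← sub_div, abs_div, Nat.abs_cast, div_mul_eq_mul_div, abs_sub_comm]
  exact div_le_div_of_nonneg_right (pats_stab_fam (N := N) (by linarith) M (fun a => c (k a)) (fun a => hc _)
    (wt N) fun σ => by unfold Vale.Agent.P157.Lim.wt; positivity) (Nat.cast_nonneg N)

/-! ### random labels against given counts -/

/-- mean deviation of a count -/
lemma lavg_cnt {p : Fin s → ℝ} (hp : Wts p) (j : Fin s) :
    lavg (M := M) p (fun k => |(cnt k j : ℝ) - p j * M|) ≤ √(M:ℝ) := by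
  obtain ⟨h0, -, h2⟩ := Pattern.Multi.moments2 p hp.nn hp.one j (Finset.univ : Finset (Fin M))
  simp only [card_univ, Fintype.card_fin] at h2
  rcases Nat.eq_zero_or_pos M with hM | hM
  · subst hM; simp [lavg, cnt]
  have hM0 : (0:ℝ) < M := Nat.cast_pos.2 hM
  have hu : 0 < √(M:ℝ) := Real.sqrt_pos.2 hM0
  have hp1 : p j ≤ 1 := hp.one ▸ single_le_sum (fun i _ => hp.nn i) (mem_univ j)
  have step : lavg (M := M) p (fun k => |(cnt k j : ℝ) - p j * M|) ≤
      lavg (M := M) p (fun k => ((cnt k j : ℝ) - p j * M) ^ 2 / (2 * √(M:ℝ)) + √(M:ℝ) / 2) := by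
    refine lavg_mono hp fun k => ?_
    rw [div_add_div _ _ (by positivity) two_ne_zero, le_div_iff₀ (by positivity)]
    nlinarith [sq_nonneg (|(cnt k j : ℝ) - p j * M| - √(M:ℝ)), sq_abs ((cnt k j : ℝ) - p j * M), Real.mul_self_sqrt hM0.le]
  refine step.trans ?_
  have hsq : lavg (M := M) p (fun k => ((cnt k j : ℝ) - p j * M) ^ 2) ≤ (M:ℝ) := by
    refine le_trans (le_of_eq_of_le ?_ h2) (mul_le_of_le_one_left hM0.le hp1)
    rfl
  have e : lavg (M := M) p (fun k => ((cnt k j : ℝ) - p j * M) ^ 2 / (2 * √(M:ℝ)) + √(M:ℝ) / 2) =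
      lavg (M := M) p (fun k => ((cnt k j : ℝ) - p j * M) ^ 2) / (2 * √(M:ℝ)) + √(M:ℝ) / 2 := by
    rw [lavg_add, lavg_const hp]
    congr 1
    simp only [lavg, sum_div, mul_div_assoc]
  rw [e]
  have := div_le_div_of_nonneg_right hsq (show 0 ≤ 2 * √(M:ℝ) by positivity)
  have e2 : (M:ℝ) / (2 * √(M:ℝ)) = √(M:ℝ) / 2 := by
    rw [div_eq_div_iff (by positivity) two_ne_zero]
    nlinarith [Real.mul_self_sqrt hM0.le]
  linarith

/-- **labels averaged against the counts `⌊α p j N⌋`** -/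
theorem lavg_fT {p : Fin s → ℝ} (hp : Wts p) {c : Fin s → ℝ} (hc : ∀ j, |c j| ≤ 1 / 10) {α : ℝ}
    (hα : 0 ≤ α) {N : ℕ} (hN : 1 ≤ N) :
    |lavg (M := ⌊α * N⌋₊) p (fun k => fT c N k) - fC c N (Ks (fun j => α * p j) N)| ≤
      cb (1 / 10) * (s * (√(α * N) + 2)) := by
  set M := ⌊α * (N:ℝ)⌋₊
  set K := Ks (fun j => α * p j) N
  have hcb : 0 ≤ cb (1 / 10) := cb_nonneg (by norm_num) (by norm_num)
  have hpt : ∀ k : Fin M → Fin s, |fT c N k - fC c N K| ≤ cb (1 / 10) * ∑ j, |(cnt k j : ℝ) - K j| := fun k => by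
    rw [fT_eq]
    have h1 := fC_lip hc hN (cnt k) K
    have h2 := fC_lip hc hN K (cnt k)
    have e : ∑ j, |(K j : ℝ) - cnt k j| = ∑ j, |(cnt k j : ℝ) - K j| := sum_congr rfl fun j _ => abs_sub_comm _ _
    rw [e] at h1
    rw [abs_le]
    constructor <;> linarith
  rw [show fC c N K = lavg (M := M) p (fun _ => fC c N K) from (lavg_const hp _).symm, ← lavg_sub]
  refine le_trans (abs_le.2 ⟨?_, lavg_mono hp fun k => (abs_le.1 (hpt k)).2⟩) ?_
  · rw [neg_eq_neg_one_mul, ← lavg_const_mul]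
    exact lavg_mono hp fun k => by linarith [(abs_le.1 (hpt k)).1]
  rw [lavg_const_mul, lavg_sum]
  refine mul_le_mul_of_nonneg_left ((sum_le_sum fun j _ => ?_).trans_eq
    (show ∑ _j : Fin s, (√(α * N) + 2) = s * (√(α * N) + 2) by rw [sum_const, card_univ, Fintype.card_fin, nsmul_eq_mul])) hcb
  have hx : 0 ≤ α * (N:ℝ) := mul_nonneg hα (Nat.cast_nonneg N)
  have hd : |p j * M - (K j : ℝ)| ≤ 2 := by
    have hp0 := hp.nn j
    have hp1 : p j ≤ 1 := hp.one ▸ single_le_sum (fun i _ => hp.nn i) (mem_univ j)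
    have a1 : (M:ℝ) ≤ α * N := Nat.floor_le hx
    have a2 : α * N < M + 1 := Nat.lt_floor_add_one _
    have b1 : (K j : ℝ) ≤ α * p j * N := Nat.floor_le (by positivity)
    have b2 : α * p j * N < K j + 1 := Nat.lt_floor_add_one _
    have m1 := mul_le_mul_of_nonneg_left a1 hp0
    have m2 := mul_le_mul_of_nonneg_left a2.le hp0
    rw [abs_le]
    constructor <;> nlinarith
  calc lavg (M := M) p (fun k => |(cnt k j : ℝ) - K j|)
      ≤ lavg (M := M) p (fun k => |(cnt k j : ℝ) - p j * M| + 2) := lavg_mono hp fun k =>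
        (abs_sub_le _ (p j * (M:ℝ)) _).trans (add_le_add le_rfl hd)
    _ ≤ √(α * N) + 2 := by
        rw [lavg_add, lavg_const hp]
        linarith [lavg_cnt (M := M) hp j, Real.sqrt_le_sqrt (Nat.floor_le hx)]

/-- **the averaged pressure of the cut family against the pattern pressure** -/
theorem press_cut {p : Fin s → ℝ} (hp : Wts p) {c : Fin s → ℝ} (hc : ∀ j, |c j| ≤ 1 / 10) {α : ℝ}
    (hα : 0 ≤ α) {L : ℝ} (hL : 1 ≤ L) {N : ℕ} (hN : 1 ≤ N) :
    |pressBar (cutFam c hc L hL) p N ⌊α * N⌋₊ - fC c N (Ks (fun j => α * p j) N) / N| ≤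
      α * cutErr L + cb (1 / 10) * (s * (√(α * N) + 2)) / N := by
  have : NeZero N := ⟨by omega⟩
  have hN0 : (0:ℝ) < N := Nat.cast_pos.2 hN
  set M := ⌊α * (N:ℝ)⌋₊
  refine (abs_sub_le _ (lavg (M := M) p (fun k => fT c N k) / N) _).trans (add_le_add ?_ ?_)
  · rw [pressBar, show lavg (M := M) p (fun k => fT c N k) / N = lavg (M := M) p (fun k => fT c N k / N) by
      simp only [lavg, sum_div, mul_div_assoc], ← lavg_sub]
    refine abs_lavg_le hp fun k => (pressV_cut hc hL k).trans (mul_le_mul_of_nonneg_right ?_ (show 0 ≤ cutErr L by unfold cutErr; positivity))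
    exact (div_le_iff₀ hN0).2 (Nat.floor_le (by positivity))
  · rw [← sub_div, abs_div, Nat.abs_cast]
    exact div_le_div_of_nonneg_right (lavg_fT hp hc hα hN) hN0.le

end Vale.Agent.P166.Par.Multi
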