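import Vale.Agent.P166.Par.Multi.Defs
import Vale.Agent.P157.Par.Shift

/-! Pattern steps with species: increment, stability and interpolation in the number of patterns, on
average over the labels. -/

open MeasureTheory ProbabilityTheory Finset Real
open Vale.Agent.P150 (gauss dot)
open Vale.Agent.P168.MP (lin ET nest logZ0 pw spinAt Batch Mark gain1 gainCap ok_lin)
open Vale.Agent.P157.Lim (xv)
open Vale.Agent.P157.Par

namespace Vale.Agent.P166.Par.Multi

set_option linter.unusedSectionVars false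

variable {ι : Type} [Fintype ι] [DecidableEq ι] {s N M : ℕ} [NeZero N]
  {P : Fam s} {R S : ℕ} {β : ι → Batch} {h u : ι → ℝ}

/-- the weight of the perturbation -/
noncomputable def gW (R S : ℕ) (β : ι → Batch) (h u : ι → ℝ) (N : ℕ) [NeZero N]
    (p : List (Mark N S β)) : ℝ :=
  exp (∑ i : ι × Fin S, gain1 R h u p i)

/-- level values of the perturbed weight -/
noncomputable def qV (P : Fam s) (R S : ℕ) (β : ι → Batch) (h u : ι → ℝ) (k : Fin M → Fin s)
    (g : Fin M → Fin N → ℝ) : ℕ → ℝ :=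
  qbV P k (gW R S β h u N) (spinAt R) R g

/-- weight at given labels -/
noncomputable def wV (P : Fam s) (R S : ℕ) (β : ι → Batch) (h u : ι → ℝ) (k : Fin M → Fin s)
    (g : Fin M → Fin N → ℝ) : List (Mark N S β) → ℝ :=
  wgV P k (gW R S β h u N) (spinAt R) g

/-- deviation of the overlap from the level values -/
noncomputable def adV (P : Fam s) (R S : ℕ) (β : ι → Batch) (h u : ι → ℝ) (k : Fin M → Fin s)
    (g : Fin M → Fin N → ℝ) : ℝ :=
  adev R (wV P R S β h u k g) (ovK (spinAt R)) (qV P R S β h u k g)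

/-- mean deviation at fixed labels -/
noncomputable def ADV (P : Fam s) (R S : ℕ) (β : ι → Batch) (h u : ι → ℝ) (N : ℕ) [NeZero N]
    (k : Fin M → Fin s) : ℝ :=
  ∫ g, adV (N := N) P R S β h u k g ∂pats N M

/-- mean deviation, averaged over the labels -/
noncomputable def ADb (p : Fin s → ℝ) (P : Fam s) (R S : ℕ) (β : ι → Batch) (h u : ι → ℝ)
    (N M : ℕ) [NeZero N] : ℝ :=
  lavg (M := M) p fun k => ADV P R S β h u N k

/-- mean perturbed log partition function at fixed labels -/
noncomputable def pertV (P : Fam s) (R S : ℕ) (β : ι → Batch) (h u : ι → ℝ) (N : ℕ) [NeZero N]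
    (k : Fin M → Fin s) : ℝ :=
  ∫ g, logZ0 R (lin R) (wV (N := N) P R S β h u k g) ∂pats N M

/-- mean perturbed log partition function, averaged over the labels -/
noncomputable def pertB (p : Fin s → ℝ) (P : Fam s) (R S : ℕ) (β : ι → Batch) (h u : ι → ℝ)
    (N M : ℕ) [NeZero N] : ℝ :=
  lavg (M := M) p fun k => pertV P R S β h u N k

/-- linear interpolation of `pertB` -/
noncomputable def pertBI (p : Fin s → ℝ) (P : Fam s) (R S : ℕ) (β : ι → Batch) (h u : ι → ℝ)
    (N : ℕ) [NeZero N] (x : ℝ) : ℝ :=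
  pertB p P R S β h u N ⌊x⌋₊ +
    (x - ⌊x⌋₊) * (pertB p P R S β h u N (⌊x⌋₊ + 1) - pertB p P R S β h u N ⌊x⌋₊)

/-- mean of a functional of the level values, averaged over the labels -/
noncomputable def meanF (p : Fin s → ℝ) (P : Fam s) (R S : ℕ) (β : ι → Batch) (h u : ι → ℝ)
    (N M : ℕ) [NeZero N] (F : (ℕ → ℝ) → ℝ) : ℝ :=
  lavg (M := M) p fun k => ∫ g, F (qV (N := N) P R S β h u k g) ∂pats N M

variable {κ : Fin M → Fin s}

lemma lavg_head {p : Fin s → ℝ} (F : (Fin (M + 1) → Fin s) → ℝ) :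
    lavg p F = lavg p fun k : Fin M → Fin s => ∑ j, p j * F (Fin.cons j k) := by
  rw [lavg_succ 0, lavg_sum univ fun j k => p j * F (Fin.cons j k)]
  refine sum_congr rfl fun j _ => ?_
  rw [lavg_const_mul]
  simp only [Fin.insertNth_zero']

lemma lavg_nonneg {p : Fin s → ℝ} (hp : Wts p) {F : (Fin M → Fin s) → ℝ} (h : ∀ k, 0 ≤ F k) :
    0 ≤ lavg p F :=
  sum_nonneg fun k _ => mul_nonneg (prod_nonneg fun a _ => hp.nn _) (h k)

lemma wV_pos (g : Fin M → Fin N → ℝ) (p : List (Mark N S β)) : 0 < wV P R S β h u κ g p :=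
  mul_pos (exp_pos _) (hamV_pos P κ g _)

lemma continuous_wV (p : List (Mark N S β)) :
    Continuous fun g : Fin M → Fin N → ℝ => wV P R S β h u κ g p :=
  continuous_const.mul (continuous_hamV P κ _)

lemma wV_cons (P : Fam s) (j : Fin s) (κ : Fin M → Fin s) (g : Fin M → Fin N → ℝ) (y : Fin N → ℝ) :
    wV (N := N) P R S β h u (Fin.cons j κ) (ins 0 y g) =
      fun p => wV P R S β h u κ g p * fac (P.f j) (fun p => xv N (spinAt R p)) y p := by
  funext p
  simp only [wV, wgV, fac, ← Fin.insertNth_zero', hamV_ins]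
  ring

lemma qV_prof (g : Fin M → Fin N → ℝ) : Prof R (qV P R S β h u κ g) 1 :=
  (qlev_prof (wV_pos g)).1

lemma qV_top (g : Fin M → Fin N → ℝ) : qV P R S β h u κ g R = 1 :=
  (qlev_prof (wV_pos g)).2

lemma continuous_qV (l : ℕ) :
    Continuous fun g : Fin M → Fin N → ℝ => qV P R S β h u κ g l :=
  continuous_ET continuous_wV wV_pos R _ fun _ => continuous_const

lemma adV_nonneg (g : Fin M → Fin N → ℝ) : 0 ≤ adV P R S β h u κ g :=
  adev_nonneg (wV_pos g) _ _

lemma ADV_nonneg : 0 ≤ ADV P R S β h u N κ := integral_nonneg adV_nonneg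

lemma ADb_nonneg {p : Fin s → ℝ} (hp : Wts p) : 0 ≤ ADb p P R S β h u N M :=
  lavg_nonneg hp fun _ => ADV_nonneg

lemma integrable_adV (hR : 1 ≤ R) :
    Integrable (adV (N := N) P R S β h u κ) (pats N M) := by
  have hd : ∀ j, Continuous fun g : Fin M → Fin N → ℝ =>
      devOf R (wV (N := N) P R S β h u κ g) (ovK (spinAt R)) (qV P R S β h u κ g) j :=
    fun j => continuous_ET continuous_wV wV_pos R _ fun _ =>
      (continuous_const.sub (continuous_qV j)).abs
  have hc : Continuous (adV (N := N) P R S β h u κ) := by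
    unfold adV adev
    exact ((continuous_finsetSum _ fun j _ => hd j).div_const _).add (hd R)
  refine Integrable.of_bound hc.aestronglyMeasurable 6 (Filter.Eventually.of_forall fun g => ?_)
  have h1 := (le_abs_self _).trans (abs_dlv_le (wV_pos (P := P) (κ := κ) (h := h) (u := u) (R := R) (β := β) (S := S) g) hR (spinAt R) R)
  have h2 := devOf_nonneg (R := R) (wV_pos (P := P) (κ := κ) (h := h) (u := u) (R := R) (β := β) (S := S) g)
    (ovK (spinAt R)) (qV P R S β h u κ g) R
  rw [Real.norm_eq_abs, abs_of_nonneg (adV_nonneg g)]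
  simp only [dlv, adV, qV, qbV, ← wV.eq_def] at *
  linarith

lemma integrable_logZ0_wV (hR : 1 ≤ R) :
    Integrable (fun g : Fin M → Fin N → ℝ =>
      logZ0 R (lin R) (wV (N := N) P R S β h u κ g)) (pats N M) := by
  set w₀ : List (Mark N S β) → ℝ := fun p => exp (∑ i : ι × Fin S, gain1 R h u p i)
  refine Integrable.of_bound
    (continuous_logZ0 (continuous_wV) wV_pos R).aestronglyMeasurable
    (|logZ0 R (lin R) w₀| + M * P.B) (Filter.Eventually.of_forall fun g => ?_)
  have hw₀ : ∀ p, 0 < w₀ p := fun p => exp_pos _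
  have hb : ∀ σ, exp (-(M * P.B)) ≤ hamV P κ g σ ∧ hamV P κ g σ ≤ exp (M * P.B) := fun σ => by
    have : |∑ a, P.f (κ a) (dot (xv N σ) (g a))| ≤ M * P.B :=
      (abs_sum_le_sum_abs _ _).trans ((sum_le_sum fun a _ =>
        abs_le.2 ⟨(P.sm _).lb _, P.ub _ _⟩).trans_eq (by simp))
    exact ⟨exp_le_exp.2 (abs_le.1 this).1, exp_le_exp.2 (abs_le.1 this).2⟩
  have h1 := Vale.Agent.P168.MP.logZ0_mul (R := R) (m := lin R) hw₀
    (Y := fun p => hamV P κ g (spinAt R p)) fun p => hamV_pos P κ g _
  have e : wV (N := N) P R S β h u κ g = fun p => w₀ p * hamV P κ g (spinAt R p) := by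
    funext p; rfl
  rw [e, Real.norm_eq_abs]
  have h2 := abs_le.1 (abs_log_nest_le (ok_lin hR hw₀) (Y := fun p => hamV P κ g (spinAt R p))
    (b := M * P.B) fun p => hb _)
  rw [abs_le]
  constructor <;> linarith [le_abs_self (logZ0 R (lin R) w₀), neg_abs_le (logZ0 R (lin R) w₀)]

/-- **One pattern** of species `j` -/
theorem pattern_step_fix {KV KL : ℝ} (hKL : 0 ≤ KL) (j : Fin s)
    (hV : ValueClose (P.f j) KV) (hL : PhiLip (P.f j) KL) (hR : 1 ≤ R) (κ : Fin M → Fin s) :
    ∫ g, Phi (fun y => exp (P.f j y)) R (lin R) (qV P R S β h u κ g) ∂pats N M - KV * ADV P R S β h u N κ ≤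
      pertV P R S β h u N (Fin.cons j κ : Fin (M + 1) → Fin s) - pertV P R S β h u N κ := by
  obtain ⟨hPc, hPb⟩ := cont_functional (F := Phi (fun y => exp (P.f j y)) R (lin R)) hR hKL
    (fun q q' hq hq' => hL R q q' hR hq hq') (q := fun g : Fin M → Fin N → ℝ => qV P R S β h u κ g)
    qV_prof fun l => continuous_qV l
  have iP : Integrable (fun g => Phi (fun y => exp (P.f j y)) R (lin R) (qV (N := N) P R S β h u κ g))
      (pats N M) :=
    Integrable.of_bound hPc.aestronglyMeasurable _ (Filter.Eventually.of_forall hPb)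
  have iA := (integrable_adV (P := P) (N := N) (κ := κ) (S := S) (β := β) (h := h) (u := u) hR).const_mul KV
  have iL := integrable_logZ0_wV (P := P) (N := N) (κ := κ) (S := S) (β := β) (h := h) (u := u) hR
  have iH := integrable_logZ0_wV (P := P) (N := N) (κ := (Fin.cons j κ : Fin (M + 1) → Fin s)) (S := S) (β := β)
    (h := h) (u := u) hR
  rw [pertV, pertV, ADV, integral_pats_succ 0 iH, ← integral_const_mul, ← integral_sub iP iA,
    ← integral_sub (integrable_ins iH) iL]
  refine integral_mono (iP.sub iA) ((integrable_ins iH).sub iL) fun g => ?_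
  set w := wV (N := N) P R S β h u κ g
  set a : List (Mark N S β) → Fin N → ℝ := fun p => xv N (spinAt R p)
  have hw : ∀ p, 0 < w p := wV_pos g
  have hcv : cv a = ovK (spinAt R) := funext fun p => funext fun p' => ov_eq _ _
  have hv := hV hR hw (a := a) (fun p => by rw [hcv]; exact (ov_self _).le)
    (q := qV P R S β h u κ g) (qV_prof g)
  rw [hcv] at hv
  have e : ∀ y, logZ0 R (lin R) (wV (N := N) P R S β h u (Fin.cons j κ) (ins 0 y g)) =
      logZ0 R (lin R) w + log (nest (lin R) w (fac (P.f j) a y) R []) := fun y => by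
    have := Vale.Agent.P168.MP.logZ0_mul (R := R) (m := lin R) hw (Y := fac (P.f j) a y) fun p => exp_pos _
    rw [wV_cons]
    show logZ0 R (lin R) (fun p => w p * fac (P.f j) a y p) = _
    linarith
  have hc : Continuous fun y : Fin N → ℝ => log (nest (lin R) w (fac (P.f j) a y) R []) :=
    (continuous_nest (X := Fin N → ℝ) (w := fun _ => w) (Y := fun y => fac (P.f j) a y)
      (fun _ => continuous_const) (fun _ => hw)
      (fun p => continuous_exp.comp ((P.sm j).cont0.comp (continuous_dot_left (a p)))) (fun _ _ => exp_pos _) R []).log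
        fun y => (Vale.Agent.P168.MP.nest_pos hw (fun _ => exp_pos _) R []).ne'
  have hi : Integrable (fun y => log (nest (lin R) w (fac (P.f j) a y) R [])) (gauss (Fin N)) :=
    Integrable.of_bound hc.aestronglyMeasurable P.B
      (Filter.Eventually.of_forall fun y => abs_log_nest_le (ok_lin hR hw) fun p =>
        fac_mem (P.sm j) (P.ub j) a y p)
  simp only [e]
  rw [integral_add (integrable_const _) hi, integral_const, probReal_univ, one_smul]
  have := (abs_le.1 hv).1
  simp only [adV]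
  linarith

lemma integrable_lipV (hR : 1 ≤ R) {F : (ℕ → ℝ) → ℝ} {K : ℝ} (hK : 0 ≤ K)
    (hF : ∀ q q', Prof R q 1 → Prof R q' 1 → |F q - F q'| ≤ K * dist1 R q q') :
    Integrable (fun g => F (qV (N := N) P R S β h u κ g)) (pats N M) := by
  obtain ⟨hc, hb⟩ := cont_functional hR hK hF (q := fun g : Fin M → Fin N → ℝ => qV P R S β h u κ g)
    qV_prof fun l => continuous_qV l
  exact Integrable.of_bound hc.aestronglyMeasurable _ (Filter.Eventually.of_forall hb)

/-- **Stability**: one more pattern moves a Lipschitz functional of the level values by the deviation -/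
theorem shift_fix {K : ℝ} (hK : 0 ≤ K) {F : (ℕ → ℝ) → ℝ}
    (hR : 1 ≤ R) (hF : ∀ q q', Prof R q 1 → Prof R q' 1 → |F q - F q'| ≤ K * dist1 R q q')
    (j : Fin s) (κ : Fin M → Fin s) :
    |∫ g, F (qV P R S β h u (Fin.cons j κ : Fin (M + 1) → Fin s) g) ∂pats N (M + 1) -
        ∫ g, F (qV P R S β h u κ g) ∂pats N M| ≤
      K * exp (4 * P.B) * ADV P R S β h u N κ := by
  have hi : ∀ {M : ℕ} (κ : Fin M → Fin s),
      Integrable (fun g => F (qV (N := N) P R S β h u κ g)) (pats N M) := fun κ =>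
    integrable_lipV hR hK hF
  rw [integral_pats_succ 0 (hi _), ← integral_sub (integrable_ins (hi _)) (hi κ), ADV,
    ← integral_const_mul]
  refine abs_integral_le_integral_abs.trans ?_
  refine integral_mono ((integrable_ins (hi _)).sub (hi κ)).abs
    ((integrable_adV hR).const_mul _) fun g => ?_
  set w := wV (N := N) P R S β h u κ g
  set a : List (Mark N S β) → Fin N → ℝ := fun p => xv N (spinAt R p)
  have hw : ∀ p, 0 < w p := wV_pos g
  set q' : (Fin N → ℝ) → ℕ → ℝ := fun y => qV P R S β h u (Fin.cons j κ : Fin (M + 1) → Fin s) (ins 0 y g)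
  have key : ∀ y, |F (q' y) - F (qV P R S β h u κ g)| ≤ K * exp (4 * P.B) * adV P R S β h u κ g := fun y => by
    refine (hF _ _ (qV_prof _) (qV_prof g)).trans ?_
    rw [mul_assoc]
    refine mul_le_mul_of_nonneg_left ?_ hK
    have hl : ∀ l ≤ R, |q' y l - qV P R S β h u κ g l| ≤
        exp (4 * P.B) * devOf R w (ovK (spinAt R)) (qV P R S β h u κ g) l := fun l hl => by
      simp only [q', qV, qbV, ← wV.eq_def, wV_cons]
      exact (rep_tilt hR hw (fac_mem (P.sm j) (P.ub j) a y) (spinAt R) (ovK (spinAt R))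
        (qlev R w (spinAt R)) hl).2
    rw [dist1, adV, adev, mul_add, ← mul_div_assoc, Finset.mul_sum]
    exact add_le_add (div_le_div_of_nonneg_right
      (Finset.sum_le_sum fun l h => hl l (mem_range.1 h).le) (Nat.cast_nonneg _)) (hl R le_rfl)
  have hy : Integrable (fun y => F (q' y)) (gauss (Fin N)) := by
    obtain ⟨hc, hb⟩ := cont_functional hR hK hF (q := q') (fun y => qV_prof _) fun l =>
      (continuous_qV l).comp (continuous_ins g)
    exact Integrable.of_bound hc.aestronglyMeasurable _ (Filter.Eventually.of_forall hb)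
  have := norm_integral_le_of_norm_le_const (μ := gauss (Fin N))
    (f := fun y => F (q' y) - F (qV P R S β h u κ g)) (Filter.Eventually.of_forall key)
  rw [integral_sub hy (integrable_const _), integral_const, probReal_univ, one_smul, mul_one] at this
  exact this

section bar
variable {p : Fin s → ℝ} (hp : Wts p)
include hp

/-- one pattern, averaged over the labels -/
theorem pattern_step {KV KL : ℝ} (hKL : 0 ≤ KL)
    (hV : ∀ j, ValueClose (P.f j) KV) (hL : ∀ j, PhiLip (P.f j) KL) (hR : 1 ≤ R) (M : ℕ) :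
    meanF p P R S β h u N M (fun q => ∑ j, p j * Phi (fun y => exp (P.f j y)) R (lin R) q) -
        KV * ADb p P R S β h u N M ≤
      pertB p P R S β h u N (M + 1) - pertB p P R S β h u N M := by
  rw [pertB, pertB, lavg_head, ← lavg_sub, meanF, ADb, ← lavg_const_mul, ← lavg_sub]
  refine lavg_mono hp fun κ => ?_
  have hi := fun j => integrable_lipV (P := P) (N := N) (κ := κ) (S := S) (β := β) (h := h) (u := u)
    hR hKL fun q q' hq hq' => hL j R q q' hR hq hq'
  rw [integral_finsetSum _ fun j _ => (hi j).const_mul (p j)]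
  simp only [integral_const_mul]
  have hs : pertV P R S β h u N κ = ∑ j, p j * pertV P R S β h u N κ := by rw [← sum_mul, hp.one, one_mul]
  have hsA : KV * ADV P R S β h u N κ = ∑ j, p j * (KV * ADV P R S β h u N κ) := by
    rw [← sum_mul, hp.one, one_mul]
  rw [hs, hsA, ← sum_sub_distrib, ← sum_sub_distrib]
  refine sum_le_sum fun j _ => ?_
  rw [← mul_sub, ← mul_sub]
  exact mul_le_mul_of_nonneg_left (pattern_step_fix hKL j (hV j) (hL j) hR κ) (hp.nn j)

/-- stability, averaged over the labels -/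
theorem shift {K : ℝ} (hK : 0 ≤ K) {F : (ℕ → ℝ) → ℝ} (hR : 1 ≤ R)
    (hF : ∀ q q', Prof R q 1 → Prof R q' 1 → |F q - F q'| ≤ K * dist1 R q q') (M : ℕ) :
    ∀ j : ℕ, |meanF p P R S β h u N (M + j) F - meanF p P R S β h u N M F| ≤
      K * exp (4 * P.B) * ∑ i ∈ range j, ADb p P R S β h u N (M + i) := by
  have step : ∀ M : ℕ, |meanF p P R S β h u N (M + 1) F - meanF p P R S β h u N M F| ≤
      K * exp (4 * P.B) * ADb p P R S β h u N M := by
    intro M
    rw [meanF, meanF, lavg_head, ← lavg_sub, ADb, ← lavg_const_mul, abs_le, ← neg_one_mul (lavg (M := M) p _), ← lavg_const_mul]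
    have h0 : ∀ (κ : Fin M → Fin s) (X : ℝ), X = ∑ j, p j * X := fun κ X => by rw [← sum_mul, hp.one, one_mul]
    constructor <;> refine lavg_mono hp fun κ => ?_
    · rw [h0 κ (∫ g, F (qV (N := N) P R S β h u κ g) ∂pats N M), h0 κ (-1 * _), ← sum_sub_distrib]
      refine sum_le_sum fun j _ => ?_
      rw [← mul_sub, neg_one_mul]
      exact mul_le_mul_of_nonneg_left (abs_le.1 (shift_fix hK hR hF j κ)).1 (hp.nn j)
    · rw [h0 κ (∫ g, F (qV (N := N) P R S β h u κ g) ∂pats N M), h0 κ (K * _ * _), ← sum_sub_distrib]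
      refine sum_le_sum fun j _ => ?_
      rw [← mul_sub]
      exact mul_le_mul_of_nonneg_left (abs_le.1 (shift_fix hK hR hF j κ)).2 (hp.nn j)
  intro j
  induction j with
  | zero => simp
  | succ j ih =>
    rw [sum_range_succ, mul_add, ← add_assoc]
    have := step (M + j)
    calc _ ≤ _ := abs_sub_le _ (meanF p P R S β h u N (M + j) F) _
      _ ≤ _ := by linarith

/-- **Interpolated increment** -/
theorem pattI {KV KL : ℝ} (hKV : 0 ≤ KV) (hKL : 0 ≤ KL)
    (hV : ∀ j, ValueClose (P.f j) KV) (hL : ∀ j, PhiLip (P.f j) KL) (hR : 1 ≤ R) {A x x' : ℝ} (hx : 0 ≤ x)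
    (hxx : x ≤ x') (hA : x' - x ≤ A) :
    (x' - x) * meanF p P R S β h u N ⌊x⌋₊ (fun q => ∑ j, p j * Phi (fun y => exp (P.f j y)) R (lin R) q) -
        A * (KV + KL * exp (4 * P.B)) * ∑ i ∈ range (⌈A⌉₊ + 2), ADb p P R S β h u N (⌊x⌋₊ + i) ≤
      pertBI p P R S β h u N x' - pertBI p P R S β h u N x := by
  set Φ := fun q => ∑ j, p j * Phi (fun y => exp (P.f j y)) R (lin R) q
  have hΦ : ∀ q q', Prof R q 1 → Prof R q' 1 → |Φ q - Φ q'| ≤ KL * dist1 R q q' := fun q q' hq hq' => by
    simp only [Φ]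
    rw [← sum_sub_distrib]
    refine (abs_sum_le_sum_abs _ _).trans ?_
    calc ∑ j, |p j * Phi (fun y => exp (P.f j y)) R (lin R) q - p j * Phi (fun y => exp (P.f j y)) R (lin R) q'|
        ≤ ∑ j, p j * (KL * dist1 R q q') := sum_le_sum fun j _ => by
          rw [← mul_sub, abs_mul, abs_of_nonneg (hp.nn j)]
          exact mul_le_mul_of_nonneg_left (hL j R q q' hR hq hq') (hp.nn j)
      _ = _ := by rw [← sum_mul, hp.one, one_mul]
  set n := ⌊x⌋₊
  set PF := meanF p P R S β h u N n Φ
  set Sm' := ∑ i ∈ range (⌈A⌉₊ + 2), ADb p P R S β h u N (n + i)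
  set C := KV + KL * exp (4 * P.B)
  have hs0 : ∀ i, 0 ≤ ADb p P R S β h u N (n + i) := fun i => ADb_nonneg hp
  have hstep : ∀ k, n ≤ k → k ≤ ⌊x'⌋₊ →
      PF - C * Sm' ≤ pertB p P R S β h u N (k + 1) - pertB p P R S β h u N k := by
    intro k hk hk'
    obtain ⟨j, rfl⟩ := Nat.exists_eq_add_of_le hk
    have hj : j < ⌈A⌉₊ + 2 := by
      have h1 : ((n + j : ℕ) : ℝ) ≤ x' := (Nat.cast_le.2 hk').trans (Nat.floor_le (hx.trans hxx))
      have h2 : x < (n:ℝ) + 1 := Nat.lt_floor_add_one _
      have h3 := Nat.le_ceil A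
      push_cast at h1
      have : (j:ℝ) < ((⌈A⌉₊ + 2 : ℕ) : ℝ) := by push_cast; linarith
      exact_mod_cast this
    have h1 := (abs_le.1 (shift (P := P) (N := N) (S := S) (β := β) (h := h) (u := u) hp hKL hR hΦ n j)).1
    have h2 := pattern_step (P := P) (N := N) (S := S) (β := β) (h := h) (u := u) hp hKL hV hL hR (n + j)
    have h3 : ∑ i ∈ range j, ADb p P R S β h u N (n + i) ≤ Sm' :=
      sum_le_sum_of_subset_of_nonneg (range_mono hj.le) fun i _ _ => hs0 i
    have h4 : ADb p P R S β h u N (n + j) ≤ Sm' :=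
      single_le_sum (f := fun i => ADb p P R S β h u N (n + i)) (fun i _ => hs0 i) (mem_range.2 hj)
    have h5 := mul_le_mul_of_nonneg_left h4 hKV
    have h6 := mul_le_mul_of_nonneg_left h3 (mul_nonneg hKL (exp_pos (4 * P.B)).le)
    simp only [C, PF, Φ] at *
    linarith
  have := interp_lower (G := fun k => pertB p P R S β h u N k) hx hxx hstep
  have hC : 0 ≤ C * Sm' := mul_nonneg (add_nonneg hKV (mul_nonneg hKL (exp_pos _).le))
    (sum_nonneg fun i _ => hs0 i)
  have h7 := mul_le_mul_of_nonneg_right hA hC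
  simp only [pertBI]
  linarith

end bar

end Vale.Agent.P166.Par.Multi
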