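import Vale.Agent.P166.Par.Multi.Defs
import Vale.Agent.P157.Par.UpperEnds

/-! The two ends of the interpolation for labelled patterns, and the average over the labels. -/

open MeasureTheory ProbabilityTheory Finset
open Vale.Agent.P150 (gauss dot)
open Vale.Agent.P168.MP (Ok logZ0 avg)
open Vale.Agent.P157.Lim (wt)
open Vale.Agent.P157.Par

namespace Vale.Agent.P166.Par.Multi

variable {s N L R : ℕ} [NeZero L] {m : ℕ → ℝ} {K : Type} [Fintype K] {k M : ℕ}

/-- the weight of labelled patterns at the configuration read at the last mark -/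
noncomputable def baseV (P : Fam s) (c : Fin k → Fin s) (R : ℕ) (g : Fin k → Fin N → ℝ)
    (p : List (Site N L)) : ℝ := hamV P c g (spins R p)

/-- mean value of labelled patterns together with the site fields of variance `u` -/
noncomputable def PvV (P : Fam s) (c : Fin k → Fin s) (N R : ℕ) (m : ℕ → ℝ) (v : List (Fin L) → K → ℝ)
    (u : ℝ) : ℝ := ∫ g, linVal R m (baseV P c R g) (siteVec (N := N) R v) u ∂pats N k

/-- the same averaged over the labels -/
noncomputable def PvB (P : Fam s) (p : Fin s → ℝ) (N R : ℕ) (m : ℕ → ℝ) (v : List (Fin L) → K → ℝ)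
    (k : ℕ) (u : ℝ) : ℝ := lavg (M := k) p fun c => PvV P c N R m v u

variable {P : Fam s} {p : Fin s → ℝ} {sp : ℕ → ℝ} {v : List (Fin L) → K → ℝ}

/-- without patterns the sites decouple -/
theorem PvB_start (hp : Wts p) (hm : ∀ {Ω : Type} (w : List Ω → ℝ), (∀ x, 0 < w x) → Ok R m w) (hR : 1 ≤ R)
    (hv : NodeVec R sp v) :
    PvB P p N R m v 0 1 = N * ∫ z, logZ0 R m (fun x : List (Fin L) => Real.cosh (dot (v x) z)) ∂gauss K := by
  have e : ∀ c : Fin 0 → Fin s, PvV P c N R m v 1 = Pv (fun _ => (0 : ℝ)) N R m v 0 1 := fun c => by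
    unfold PvV Pv
    refine integral_congr_ae (Filter.Eventually.of_forall fun g => ?_)
    refine congrArg (fun w => linVal R m w (siteVec (N := N) R v) 1) (funext fun x => ?_)
    simp [baseV, base, hamV, ham]
  unfold PvB
  simp only [e, lavg_const hp]
  exact Pv_start hm hR hv

/-- all patterns and no site field -/
theorem PvB_end (hN : 1 ≤ N) (hm : ∀ {Ω : Type} (w : List Ω → ℝ), (∀ x, 0 < w x) → Ok R m w) (hR : 1 ≤ R)
    (M : ℕ) : PvB P p N R m v M 0 = N * pressBar P p N M := by
  have hN0 : (N : ℝ) ≠ 0 := Nat.cast_ne_zero.2 (by omega)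
  rw [pressBar, ← lavg_const_mul]
  refine congrArg (lavg p) (funext fun c => ?_)
  rw [pressV, mul_div_cancel₀ _ hN0]
  simp only [PvV, linVal, linW_zero, integral_const, probReal_univ, one_smul]
  refine integral_congr_ae (Filter.Eventually.of_forall fun g => ?_)
  simp only
  rw [logZ0_last (Ω := Site N L) (w := baseV P c R g) (F := fun o => hamV P c g fun i => (o i).1)
    (hm _ fun x => hamV_pos P c g _) hR (fun _ => (false, 0)) (fun o => hamV_pos P c g _) fun x _ => rfl]
  have e : avg (fun o : Site N L => hamV P c g fun i => (o i).1) = ∑ σ, wt N σ * hamV P c g σ := by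
    have h1 := Vale.Agent.P168.MP.Upper.avg_equiv (Equiv.arrowProdEquivProdArrow (Fin N) (fun _ => Bool) (fun _ => Fin L))
      (fun o : (Fin N → Bool) × (Fin N → Fin L) => hamV P c g o.1)
    rw [show (fun o : Site N L => hamV P c g fun i => (o i).1) = fun o : Site N L =>
      hamV P c g ((Equiv.arrowProdEquivProdArrow (Fin N) (fun _ => Bool) (fun _ => Fin L) o).1) from rfl, h1,
      Vale.Agent.P168.MP.Upper.avg_fst (B := Fin N → Fin L) (hamV P c g), avg, Finset.sum_div]
    refine sum_congr rfl fun σ _ => ?_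
    simp [wt, div_eq_inv_mul]
  rw [e]

end Vale.Agent.P166.Par.Multi
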